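import Vale.Agent.P270G.Defs
import Vale.Agent.P285S.Mm.Mkpr
import Vale.Agent.P285S.Mm.Rigz
import Vale.Agent.P285S.Tp.Top
import Vale.Agent.P285N.Xc.Cls
import Vale.Agent.P285N.Tp.Mon
import Vale.Agent.P280Z.Ld.All

/-!
# P270G, row MM2: the null components are contracted on a model of `L`
-/

open scoped Manifold ContDiff Topology
open Set Filter Function
open Vale.Agent.P272.K Vale.Agent.P285.H281.FD Vale.Agent.P281Z Vale.Agent.P280Z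
open Vale.Agent.P277Z.Slc (IsDiv Snc lin)
open Vale.Agent.P277.HD (pull)
open Vale.Agent.P285N Vale.Agent.P285W.J Vale.Agent.P285W.Bs
open Vale.Agent.P285N.Tp (LR mon)
open Vale.Agent.P285S.Mm (Sp)
open Vale.Agent.P285S.Mm.Gp (In Dt)
open Vale.Agent.P285S.Mm.Rigz (ex_cls)

noncomputable section

namespace Vale.Agent.P270G

namespace Mm2

variable {d : ℕ} {κ ι : Type} {A : Pr d κ ι} {m : κ → ℤ} {N c : ℕ} {φ : κ → ℕ}
  {L Q H : Bd A.Z.X}

/-- off the negative part there are sections which do not vanish -/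
theorem key {R : Dt A} {Ψ : R.κ' → ℕ} (ok : R.Ok m N φ c L Q) (zd : R.Zd Q H Ψ) (lQ : IsLB d Q)
    (lH : IsLB d H) {y : R.B.Z.X} (hy : y ∉ Sp R.B R.Φ) :
    ∃ (a b : ℕ) (M : Bd A.Z.X) (u : M.ι → A.Z.X → ℂ), 0 < a ∧ b ≤ a ∧ IsLB d M ∧
      cls d M = a • cls d Q + b • cls d H ∧ IsSec d M u ∧ NZ M u (R.π y) := by
  have hπ := ok.md.hol
  have lO := fun l => (ok.div l).lb
  obtain ⟨x, z, z0, hx, hf⟩ := zd.free (∑ l, Ψ l + 1)
  have zx : z ≤ x := by nlinarith [Nat.zero_le ((∑ l, Ψ l) * z)]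
  have le : ∀ l, z * Ψ l ≤ x * R.Φ l := fun l => by
    rcases eq_or_ne (Ψ l) 0 with h | h
    · simp [h]
    · have h1 : Ψ l ≤ ∑ l, Ψ l :=
        Finset.single_le_sum (fun _ _ => Nat.zero_le _) (Finset.mem_univ l)
      have h2 := Nat.pos_of_ne_zero (zd.psi l h)
      nlinarith
  obtain ⟨T, hT, eT⟩ := ex_cls (x • cls d R.Q +
    z • (R.δ • cls d (pull R.π H) + ∑ l, Ψ l • cls d (R.O l)))
  obtain ⟨M, hM, eM⟩ := ex_cls ((R.δ * x) • cls d Q + (R.δ * z) • cls d H)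
  choose θ e1 using fun l => Nat.exists_eq_add_of_le (le l)
  have hL := lb_lin lO fun l => (θ l : ℤ)
  have hN := lb_mul hT hL
  obtain ⟨τ, hτ⟩ := (cls_eq (hπ.lb hM) hN).1 (by
    have e3 : ∑ l, (θ l : ℤ) • cls d (R.O l) =
        x • ∑ l, R.Φ l • cls d (R.O l) - z • ∑ l, Ψ l • cls d (R.O l) := by
      rw [Finset.smul_sum, Finset.smul_sum, ← Finset.sum_sub_distrib]
      exact Finset.sum_congr rfl fun l _ => by
        rw [← mul_smul, ← mul_smul, e1 l, add_smul, add_sub_cancel_left, natCast_zsmul]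
    rw [cls_mul hT hL, cls_lin lO, e3, eT, ok.clQ, cls_pull hπ hM, eM, map_add, map_nsmul,
      map_nsmul, ← cls_pull hπ lH, ← cls_pull hπ lQ]
    module)
  obtain ⟨t, t1, t2⟩ := hf T hT eT y
  have s2 := Tp.sec_mon (fun l => (ok.div l).sec) θ
  have s1 : IsSec d (T.mul (lin R.O fun l => (θ l : ℤ))) fun a w => t a.1 w * mon R.σ θ a.2 w :=
    isSec_of (fun _ _ ha => (sec_hol t1 ha.1).mul (sec_hol s2 ha.2)) fun a b w ha hb => by
      rw [t1.change a.1 b.1 w ha.1 hb.1, s2.change a.2 b.2 w ha.2 hb.2]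
      exact mul_mul_mul_comm _ _ _ _
  obtain ⟨u, u1, u2⟩ := P285S.Tp.desc ok.md hM (hτ.sec (hπ.lb hM) hN s1)
  refine ⟨R.δ * x, R.δ * z, M, u, mul_pos ok.pos (z0.trans_le zx), Nat.mul_le_mul_left _ zx, hM, eM,
    u1, fun a ha => u2 a y ha ▸ hτ.nz hN (fun b hb => mul_ne_zero (t2 _ hb.1)
      (Tp.mon_ne ok.div θ hb.2 fun l h k => hy ⟨l, fun h0 => ?_, k⟩)) a ha⟩
  have := e1 l
  rw [h0] at this
  omega

end Mm2

theorem mm2_of (hZ : ZC) (hC : CREP) (hG : GEN) (hB : TOPB) (hK : CONTR) : MM2 := by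
  classical
  intro T hT κ ι _ A m N L Λ Q Φ cw lL nL hn fb lQ rig
  have hA := cw.ok
  obtain ⟨t, t0, ht⟩ := cw.tor
  choose O σ hO using fun l => P277Z.Slc.stDiv 3 A.Z.X (A.G l) fun y =>
    (hA.snc y).elim fun ζ k => ⟨ζ l, k.1 l⟩
  have lO := fun l => (hO l).lb
  obtain ⟨H, C, lH, pH, fp⟩ := hB 3 T hT κ ι A m N _ _ Λ Q hA fb lQ rig fun _ h => h
  obtain ⟨φ, f0, f1⟩ : ∃ φ : κ → ℕ, (∀ l, φ l ≠ 0 ↔ Φ l ≠ 0) ∧
      ∀ l, Φ l ≠ 0 → (φ l : ℤ) = t * (N - m l) :=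
    ⟨fun l => if Φ l ≠ 0 then t * (N - m l).toNat else 0, fun l => by
      have := cw.klt l
      by_cases h : Φ l = 0
      · simp [h]
      · simp only [h, ne_eq, not_false_eq_true, if_true, iff_true]
        exact mul_ne_zero t0.ne' (by omega), fun l h => by
      simp only [if_pos h, Nat.cast_mul, Int.toNat_of_nonneg (sub_pos.2 (cw.klt l)).le]⟩
  obtain ⟨j, j0, hj⟩ := hK 3 T hT κ ι A m N O σ Φ φ H L Q C hA hO lH pH lL fp fun l => (f0 l).1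
  have lP := lb_lin lO fun l => ((j * φ l : ℕ) : ℤ)
  have cP := cls_lin lO fun l => ((j * φ l : ℕ) : ℤ)
  simp only [natCast_zsmul] at cP
  have hm : ∀ l, 0 ≤ (j * t : ℕ) * m l + ((j * φ l : ℕ) : ℤ) ∧
      (j * t : ℕ) * m l + ((j * φ l : ℕ) : ℤ) ≤ (j * t * N : ℕ) := fun l => by
    by_cases h : Φ l = 0
    · have h1 : φ l = 0 := by_contra fun k => (f0 l).1 k h
      have h2 : 0 ≤ m l := not_lt.1 fun k => hn l k h
      rw [h1, mul_zero, Nat.cast_zero, add_zero, Nat.cast_mul (j * t)]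
      exact ⟨by positivity, mul_le_mul_of_nonneg_left (hA.le l) (by positivity)⟩
    · have : (j * t : ℕ) * m l + ((j * φ l : ℕ) : ℤ) = (j * t * N : ℕ) := by
        push_cast
        rw [f1 l h]
        ring
      exact ⟨this ▸ Nat.cast_nonneg _, this.le⟩
  obtain ⟨Ω, h2⟩ := P285S.Mm.mkpr 3 κ A.Z A.G O σ _ _ (j * t * N) hA.conn hA.prj hA.snc hO lP
    (mul_pos (mul_pos j0 t0) hA.pos) (hA.even.mul_left _) (fun l => (hm l).2) (by
      have e : (j * t) • cls 3 A.P = 0 := by rw [mul_smul, ht, smul_zero]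
      rw [Xc.cls_eq 3 κ ι m N A O σ hA hO] at e
      simp only [cP, add_smul, Finset.sum_add_distrib, natCast_zsmul, mul_smul ((j * t : ℕ) : ℤ),
        ← Finset.smul_sum, mul_smul (j * t) N]
      rw [← add_assoc, ← smul_add, e, zero_add])
  have cQ := cls_mul lP lL
  have hI : In ⟨A.Z, A.G, _, _, Ω⟩ _ _ O σ (fun l => j * φ l) 1 L
      ((lin O fun l => ((j * φ l : ℕ) : ℤ)).mul L) :=
    ⟨h2, fun l => (hm l).1, hO, lL, nL, one_pos, by rw [one_smul, cQ, cP, add_comm],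
      lb_mul lP lL, L, lL, nL, cQ⟩
  obtain ⟨R, Ψ, ok, zd, gr, cn⟩ := hZ κ _ _ _ _ _ _ _ 1 _ _ hI cw.conn H lH pH
  have eS : Sp A (fun l => j * φ l) = Sp A Φ :=
    Set.ext fun _ => exists_congr fun l => and_congr_left' (by simp [← f0, j0.ne'])
  have sup : ∀ l, R.Φ l ≠ 0 ∨ R.φ l ≠ 0 → ∀ y ∈ R.B.G l, R.π y ∈ Sp A Φ := fun l h y k =>
    eS.subset (ok.sup l h y k)
  have key : ∀ y, R.π y ∈ Sp A Φ → y ∈ Sp R.B R.Φ := fun y ⟨l, h, k⟩ => by_contra fun hy => by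
    obtain ⟨a, b, M, u, a0, ab, lM, cM, u1, u2⟩ := Mm2.key ok zd hI.lbQ lH hy
    exact hj a b M u a0 ab lM (by rw [cM, cQ, cP, add_comm (cls 3 L)]) u1 _ ⟨l, (f0 l).2 h, k⟩ u2
  have md : Modif 3 R.π (Sp A Φ) := (congrArg (Modif 3 R.π) eS).mp ok.md
  have ho : ∀ y ∈ off R.B.G, R.π y ∈ off A.G := fun y hy k h =>
    (ok.pre y k h).elim fun l h' => hy l h'.1
  obtain ⟨m', Ω', cw', ng⟩ := hC 3 T hT κ ι A m N R.B.Z R.π _ R.κ' R.B.G cw md ok.ok.prj ok.ok.snc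
    cn fun y hy => ⟨fun ⟨l, _, k⟩ => ho y hy l k, ho y hy⟩
  obtain ⟨Λ', H', l1, l2, l3, l4, l5, l6⟩ := gr.rig
  obtain ⟨H₀, g, -⟩ := gr.gd
  have lO' := fun l => (ok.div l).lb
  have lD := lb_lin lO' fun l => (R.φ l : ℤ)
  have lL' := md.hol.lb lL
  refine ⟨⟨R.κ', ι, _, m', N, R.π, R.Φ, Λ', R.Q⟩, ⟨cw', md, fun l h => ?_, fun y => ⟨key y,
    fun ⟨l, h, k⟩ => sup l (.inl h) y k⟩, ⟨l1, l2, H', l3, l4, l5⟩, ok.lbQ,
    P285S.Tp.nf_of g.lbH g.lbL fun i M hM e => g.pos i 0 M hM (by simpa using e), l6⟩, R.δ, _, _,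
    Nat.cast_pos.2 ok.pos, lD, Tp.sec_mon (fun l => (ok.div l).sec) R.φ,
    fun y hy b hb => Tp.mon_ne ok.div R.φ hb fun l h k =>
      hy (key y (sup l (.inr h.ne') y k)), ?_⟩
  · obtain ⟨y, y1, y2⟩ := hG 3 R.B.Z R.κ' R.B.G l ok.ok.snc (cn l).nonempty
    obtain ⟨i, h1, h2⟩ := key y ((ng l h y y1).elim (fun k => by_contra fun k' => k (md.imm k'))
      fun ⟨k, k1, k2⟩ => ⟨k, hn k k1, k2⟩)
    exact (by_contra fun k => y2 i k h2 : i = l) ▸ h1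
  · refine (Ld.Ext.c1_cls Ld.ld.iso hT.c1 ok.lbQ (lb_mul (lb_pow lL' R.δ) lD) ?_).trans ?_
    · rw [cls_mul (lb_pow lL' _) lD, cls_pow lL', cls_lin lO', ← one_smul ℕ (cls 3 R.Q), ok.eff]
      simp only [natCast_zsmul]
    · exact (hT.c1.mul _ _ _ (lb_pow lL' _) lD).trans (congrArg (· + _)
        ((hT.c1.pow _ _ _ lL').trans (congrArg _ (hT.c1.pull md.hol L lL))))

end Vale.Agent.P270G
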