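import Vale.Agent.P270G.Defs
import Vale.Agent.P281Z.Lf.Bert
import Vale.Agent.P281Z.Md.Ext
import Vale.Agent.P281Z.Sc.Ord
import Vale.Agent.P280Z.Ld.Ber
import Vale.Agent.P285S.Mm.Mkpr
import Vale.Agent.P285N.Xc.Cls
import Vale.Agent.P285N.Xc.Loc

/-!
# P270G: the rows BERN and AVG
-/

open scoped Manifold ContDiff Topology
open Set Filter Function MeasureTheory
open Vale.Agent.P272.K Vale.Agent.P285.H281.FD Vale.Agent.P281Z Vale.Agent.P280Z
open Vale.Agent.P277Z.Slc (Ind LEq Snc IsDiv dd dd_mul dd_congr)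
open Vale.Agent.P285N

noncomputable section

namespace Vale.Agent.P270G

namespace BernH

/-- a hypersurface inside a divisor which misses a dense subset of `B` -/
theorem thin_pre {d : ℕ} {V : Mf (d + 1)} {Z : Mf d} {A : Bd V.X} {σ : A.ι → V.X → ℂ}
    {i : Z.X → V.X} {Δ : Set V.X} (h : IsDiv (d + 1) Δ A σ) (hi : Emb d (d + 1) i (range i))
    (hs : range i ⊆ Δ) {B Q : Set V.X} (hB : Thin (d + 1) B) (h1 : Q ⊆ B)
    (h2 : B ⊆ closure Q) (h3 : ∀ q ∈ Q, NZ A σ q) : Thin d (i ⁻¹' B) := by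
  refine ⟨hB.1.pre hi.hol, fun z => mem_closure_iff_frequently.2 fun hz => ?_⟩
  obtain ⟨a, ha⟩ := h.lb.cover (i z)
  have hl := h.leq a _ ha
  have hx := hs (mem_range_self z)
  obtain ⟨g, g1, g2, g3⟩ := hB.nz (i z)
  obtain ⟨j, b, b1, b2, b3⟩ := Md.exists_ord hl hx g1 g2
  have k0 : ∀ᶠ y in 𝓝 (i z), ∀ w, i w = y → i w ∈ B :=
    hi.ev.1 (hz.mono fun w k => not_not.1 k)
  have k1 := Xc.LocX.onto (hi.hol.at z) (hi.imm z) hl (.of_forall fun w => hs ⟨w, rfl⟩)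
  obtain ⟨y, ⟨y1, y2⟩, y0, y3, y4, y5, y6, y7⟩ :=
    (((Md.ndv hl hx b1 b2).self_of_nhds hx).and_eventually
    (k1.and (k0.and (b1.near.and (g3.eventually_nhds.and (b3.eventually_nhds.and
      (lb_near h.lb ha).eventually_nhds)))))).exists
  obtain ⟨w, rfl⟩ := y0 y1
  obtain ⟨q, q1, q2, q3, q4, q5⟩ := ((mem_closure_iff_frequently.1 (h2 (y3 w rfl))).and_eventually
    ((y4.ne_near y2).and (y5.and (y6.and y7)))).exists
  have := q3 (h1 q1)
  rw [q4] at this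
  exact mul_ne_zero (pow_ne_zero _ (h3 q q1 a q5)) q2 this

end BernH

open Lf.Bt in
theorem bern : BERN := by
  intro d X A κ _ G S hA hb hG ⟨H, s1, s2⟩
  choose Q q1 q2 q3 using fun k =>
    (TopologicalSpace.IsSeparable.of_separableSpace (H k)).exists_countable_dense_subset
  choose s hs hz using hb
  choose i hi using hA.cover
  obtain ⟨t, ht⟩ := CompactSpace.elim_nhds_subcover (fun x => {y | y ∈ A.U (i x) ∧ s x (i x) y ≠ 0})
    fun x => (lb_near hA (hi x)).and ((sec_hol (hs x) (hi x)).ne_near (hz x _ (hi x)))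
  have h1 : ∀ y, ∃ a : t, s a (i y) y ≠ 0 := fun y => by
    obtain ⟨z, a, b⟩ := mem_iUnion₂.1 (ht.ge (mem_univ y))
    exact ⟨⟨z, a⟩, right_ne_zero_of_mul ((hs z).change _ _ y b.1 (hi y) ▸ b.2)⟩
  choose U h2 h3 using fun y => (h1 y).elim fun a =>
    loc hG (u := fun a : t => s a (i y)) (a₀ := a) fun a => sec_hol (hs a) (hi y)
  obtain ⟨t', ht'⟩ := CompactSpace.elim_nhds_subcover (fun x => U x ∩ A.U (i x))
    fun x => inter_mem (h2 x) (lb_near hA (hi x))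
  obtain ⟨c, hc, hq⟩ := (((eventually_all_finset t').2 fun y _ => h3 y).and
    (ae_all_iff.2 fun k => (ae_ball_iff (q2 k)).2 fun x _ => (h1 x).elim fun a k =>
      Ld.BerH.ae_lin (w := fun a : t => s a (i x) x) k)).exists
  have hσ := sec_sum (fun a : t => hs a) c
  set σ : A.ι → X.X → ℂ := fun i x => ∑ a : t, c a * s a i x
  have h4 : ∀ j, ∀ y ∈ A.U j, σ j y = 0 ↔ y ∈ {y | ¬ NZ A σ y} := fun j y hy =>
    ((not_congr (nz_iff hA (fun a b => hσ.change a b y) hy)).trans not_not).symm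
  have h5 : ∀ y, ∃ j, y ∈ A.U j ∧ (σ j y = 0 → ∃ ζ : κ → X.X → ℂ,
      (∀ l, LEq (d + 1) (G l) y (ζ l)) ∧
      Ind (d + 1) (fun o : Option {l // y ∈ G l} => o.elim (σ j) fun l => ζ l) y) := fun y => by
    obtain ⟨z, a, b⟩ := mem_iUnion₂.1 (ht'.ge (mem_univ y))
    exact ⟨_, b.2, hc z a y b.1⟩
  have h6 : ∀ j, ∀ y ∈ A.U j, LEq (d + 1) {y | ¬ NZ A σ y} y (σ j) := fun j y hy =>
    ⟨(lb_near hA hy).mono (h4 j), fun e he => ⟨sec_hol hσ hy e he, fun h0 => by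
      obtain ⟨j', a, b⟩ := h5 y
      have h0' := (h4 j' y a).2 ((h4 j y hy).1 h0)
      obtain ⟨ζ, -, k⟩ := b h0'
      change dd (σ j) e y ≠ 0
      rw [dd_congr (((lb_near hA hy).and (lb_near hA a)).mono fun z k => hσ.change j j' z k.1 k.2)
        he, dd_mul (lb_hol hA hy a) (sec_hol hσ a) h0' he]
      exact smul_ne_zero (hA.ne_zero _ _ y hy a) ((k.2 e he).ne_zero none)⟩⟩
  refine ⟨_, σ, ⟨hA, hσ, h6⟩, fun y => ?_, fun Y p e1 e2 => ⟨fun k => p ⁻¹' H k, fun k =>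
    BernH.thin_pre ⟨hA, hσ, h6⟩ e1 e2 (s1 k) (q1 k) (q3 k) fun x hx =>
      (nz_iff hA (fun a b => hσ.change a b x) (hi x)).2 (hq k x hx),
    by rw [← preimage_iUnion]; exact preimage_mono s2⟩⟩
  obtain ⟨j, a, b⟩ := h5 y
  by_cases h0 : σ j y = 0
  · obtain ⟨ζ, k1, k2⟩ := b h0
    refine ⟨fun o => o.elim (σ j) ζ, Option.rec (h6 j y a) k1, ind_sub (k := fun o => o.elim (σ j) ζ)
      k2 (Option.map (·.1)) (Option.rec rfl fun _ => rfl) ?_⟩
    rintro (_ | l) h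
    exacts [⟨none, rfl⟩, ⟨some ⟨l, h⟩, rfl⟩]
  · obtain ⟨ζ, k1, k2⟩ := hG y
    refine ⟨fun o => o.elim (σ j) ζ, Option.rec (h6 j y a) k1, ind_sub (k := fun o => o.elim (σ j) ζ)
      k2 (fun l => some l.1) (fun _ => rfl) ?_⟩
    rintro (_ | l) h
    exacts [(h0 ((h4 j y a).2 h)).elim, ⟨⟨l, h⟩, rfl⟩]

theorem avg : AVG := by
  intro d _ _ κ ι _ A m N ι' U g Ω m' N' Φ hA hB h1 h2
  obtain ⟨t, t0, ht⟩ := hA.tor
  obtain ⟨O, σ, hO⟩ := (Hyp.of_snc hA.ok.snc).exists_div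
  have e1 := Xc.cls_eq d κ ι m N A O σ hA.ok hO
  have e2 := Xc.cls_eq d κ ι' m' N' ⟨A.Z, A.G, U, g, Ω⟩ O σ hB hO
  set c := t * ∑ l, (m l).natAbs + 1 with hc
  have lt : ∀ j, c * m' j + t * m j < ((c * N' + t * N : ℕ) : ℤ) := fun j => by
    have a1 : m' j ≤ N' := hB.le j
    have a2 := hA.klt j
    have a3 : (0 : ℤ) < t := by exact_mod_cast t0
    push_cast
    nlinarith [mul_le_mul_of_nonneg_left a1 (Int.natCast_nonneg c)]
  refine ⟨c, c * N' + t * N, fun j => c * m' j + t * m j, by omega, lt, fun j hj h0 => ?_, ?_⟩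
  · have a1 : 0 ≤ m' j := not_lt.1 fun k => h1 j k h0
    have a3 : (0 : ℤ) ≤ t := Int.natCast_nonneg t
    by_cases k : m j < 0
    · have a2 : (1 : ℤ) ≤ m' j := by
        rw [(h2 j k).resolve_left (not_not.2 h0)]
        exact_mod_cast hB.pos
      have a4 : (m j).natAbs ≤ ∑ l, (m l).natAbs :=
        Finset.single_le_sum (f := fun l => (m l).natAbs) (fun _ _ => Nat.zero_le _)
          (Finset.mem_univ j)
      have a5 : t * -m j ≤ (c : ℤ) := by
        have : (t * (m j).natAbs : ℕ) ≤ c := (Nat.mul_le_mul_left t a4).trans (Nat.le_succ _)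
        have a6 : -m j = ((m j).natAbs : ℤ) := by omega
        rw [a6]
        exact_mod_cast this
      nlinarith [mul_le_mul_of_nonneg_left a2 (Int.natCast_nonneg c)]
    · nlinarith [mul_nonneg (Int.natCast_nonneg c) a1, mul_nonneg a3 (not_lt.1 k)]
  · refine P285S.Mm.mkpr d κ A.Z A.G O σ (Bd.pow ⟨ι', U, g⟩ c) _ _ hA.ok.conn hA.ok.prj hA.ok.snc hO
      (lb_pow hB.lb c) (Nat.add_pos_right _ (Nat.mul_pos t0 hA.ok.pos))
      ((hB.even.mul_left c).add (hA.ok.even.mul_left t)) (fun j => (lt j).le) ?_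
    rw [cls_pow hB.lb, ← add_zero (c • _), ← ht, e1]
    refine (congrArg (fun z => c • z + _) e2).trans ?_
    simp only [add_smul, mul_smul, Finset.sum_add_distrib, natCast_zsmul, ← Finset.smul_sum,
      smul_add]
    abel

end Vale.Agent.P270G
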