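import Vale.Agent.P270G.Defs
import Vale.Agent.P285S.Ca.Efa
import Vale.Agent.P285S.Mm.Mkpr
import Vale.Agent.P285N.Xc.Fin
import Vale.Agent.P285N.Xc.Gg
import Vale.Agent.P285N.Xc.Pa

/-!
# P270G: rows CONTR, TOPB, FBU
-/

open scoped Topology
open Set Filter
open Vale.Agent.P272.K Vale.Agent.P285.H281.FD Vale.Agent.P281Z
open Vale.Agent.P277Z (Hol)
open Vale.Agent.P277Z.Slc (IsDiv lin isLB_can)
open Vale.Agent.P277.HD (pull)
open Vale.Agent.P285N

noncomputable section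

namespace Vale.Agent.P270G

theorem CtH.pow_sec {n : ℕ} {V : Mf n} {L : Bd V.X} {s : L.ι → V.X → ℂ} (h : IsSec n L s)
    (k : ℕ) : IsSec n (L.pow k) fun i x => s i x ^ k :=
  isSec_of (fun _ _ hi => (sec_hol h hi).pow k) fun i j x hi hj => by
    rw [h.change i j x hi hj, mul_pow]
    rfl

/-- row FBU -/
theorem fbu : FBU := by
  intro d Z Y π S Λ hY ⟨H', h1, h2⟩ hM ⟨hΛ, hb, H, hH, hP, D, t, d1, d2, d3, z, d4⟩
  have hπ := hM.hol
  obtain ⟨-, ad, sm, -⟩ := P285S.Ca.efa d Y hY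
  obtain ⟨k, s, s1, c, x, s2, s3⟩ := Tp.kodp d Z Y π S H _ hY hM hH hP (lb_zp h1 (-1))
  obtain ⟨y₀, rfl⟩ := hM.surj z
  have hT := lb_mul (lb_pow (hπ.lb hH) k) (lb_zp h1 (-1))
  have hL := hπ.lb hΛ
  have e3 := ad _ _ (ad _ _
    ⟨_, s, hT, rfl, s1, x, (nz_iff hT (fun a b => s1.change a b x) s2).2 s3⟩
    ((hb (π x)).elim fun t ht => ⟨_, _, hL, rfl, hπ.sec ht.1, x, ht.2⟩))
    (sm _ k ⟨_, _, hπ.lb d1, cls_pull hπ d1, hπ.sec d3, y₀, d4⟩)
  refine ⟨k + 1, k.succ_pos, lb_pow hL _, fun y => (hb (π y)).elim fun t ht =>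
    ⟨_, CtH.pow_sec (hπ.sec ht.1) _, fun a ha => pow_ne_zero _ (ht.2 a ha)⟩, H', h1, h2, ?_⟩
  rw [cls_mul (lb_pow (hπ.lb hH) k) (lb_zp h1 (-1)), cls_pow (hπ.lb hH), cls_zp h1, d2, map_sub,
    ← cls_pull hπ hΛ, ← cls_pull hπ hH, smul_sub, neg_one_zsmul] at e3
  rw [cls_pow hL, succ_nsmul]
  exact Eq.mp (congrArg (P285S.Ef Y) (by abel)) e3

/-- row TOPB -/
theorem topb : TOPB := by
  intro d _ _ κ ι _ A m N m' m'' Λ L hA ⟨hΛ, _, H, hH, hP, D, t, h1, h2, h3, h4⟩ hL hR hm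
  obtain ⟨O, σ, hO⟩ := (Hyp.of_snc hA.snc).exists_div
  have hK := isLB_can (n := d) (W := A.Z.X)
  set N' : ℕ := 2 * (∑ l, (m'' l).toNat + 1) with hN
  have l1 := lb_pow hK N'
  have l2 := lb_lin (fun l => (hO l).lb) m''
  obtain ⟨Ω, hΩ⟩ := P285S.Mm.mkpr d κ A.Z A.G O σ _ m'' N' hA.conn hA.prj hA.snc hO (lb_mul l1 l2)
    (by omega) (even_two_mul _) (fun l => by
      have := Finset.single_le_sum (f := fun l => (m'' l).toNat) (fun _ _ => Nat.zero_le _)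
        (Finset.mem_univ l)
      omega) (by rw [cls_mul l1 l2, cls_pow hK, cls_lin fun l => (hO l).lb])
  obtain ⟨C, hC⟩ := Xc.topa d κ _ m'' N' ⟨A.Z, A.G, _, _, Ω⟩ H L Λ D t hΩ hH hL hΛ h1 h2 h3 h4
    fun k i M s a1 a2 ⟨j, a3⟩ => hR k i M s a1 a2 ⟨j, SecP.mono continuous_id a3 fun l => by
      by_cases h : m'' l < 0
      · rw [if_pos h, if_pos (hm l h)]
      · rw [if_neg h]
        split_ifs
        · exact Nat.cast_nonneg j
        · exact le_rfl⟩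
  exact ⟨H, C, hH, hP, hC⟩

/-- row CONTR -/
theorem contr : CONTR := by
  intro d _ _ κ ι _ A m N O σ Φ φ H L L' C hA hO hH hP hL hF hφ
  classical
  have hB : ∀ b, IsLB d (![H, L] b) := Fin.forall_fin_two.2 ⟨hH, hL⟩
  obtain ⟨c, hc⟩ := Xc.gg_of Xc.pa d A.Z (Fin 2) ![H, L] ![1, 0] ![0, -1] hB
    (Xc.piso d _ H _ hH (lb_lin hB _) (by rw [cls_lin hB]; simp) hP)
  obtain ⟨W, w1, w2⟩ := hc c le_rfl
  have hV := lb_lin hB (![0, -1] + c • ![1, 0])
  have eV : cls d (lin ![H, L] (![0, -1] + c • ![1, 0])) = c • cls d H - cls d L := by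
    rw [cls_lin hB, sub_eq_add_neg]
    simp
  set V := lin ![H, L] (![0, -1] + c • ![1, 0])
  set j := C * (c + 2) * ∑ l, Φ l + 1 with hj
  refine ⟨j, Nat.succ_pos _, fun x y M s hx hy hM e hs z ⟨l₀, p0, hz⟩ h0 => ?_⟩
  obtain ⟨v, v1, v2⟩ := w2 z
  have hv := w1 v v1
  have lO := fun l => (hO l).lb
  let k : κ → ℤ := fun l => -((x * (j * φ l) : ℕ) : ℤ)
  have l1 := lb_mul hM (lb_pow hV x)
  have l2 := holM_id.lb (lb_lin lO k)
  have h1 := hF (y + x * c) 0 (x * (j * ∑ l, φ l)) _ _ (lb_mul l1 l2) (by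
      rw [cls_mul l1 l2, cls_mul hM (lb_pow hV x), cls_pow hV, e, eV]
      refine (congrArg (_ + ·) (cls_lin lO k)).trans ?_
      have : ∑ l, k l • cls d (O l) = -(x • ∑ l, (j * φ l) • cls d (O l)) := by
        rw [Finset.smul_sum, ← Finset.sum_neg_distrib]
        exact Finset.sum_congr rfl fun l _ => by rw [neg_smul, natCast_zsmul, mul_smul]
      rw [this, smul_add, smul_sub, add_smul, mul_smul, zero_smul]
      abel)
    ((((secP_of_sec (c := fun _ => 0) continuous_id hs fun _ => le_rfl).mul continuous_id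
      (secP_of_sec (c := fun _ => 0) continuous_id (CtH.pow_sec hv x) fun _ => le_rfl)).mul
      continuous_id (secP_div holM_id hO k).1).mono continuous_id fun l => by
        have q : x * (j * φ l) ≤ x * (j * ∑ l, φ l) * Φ l := by
          rcases eq_or_ne (φ l) 0 with h | h
          · simp [h]
          · exact (Nat.mul_le_mul_left _ (Nat.mul_le_mul_left _ (Finset.single_le_sum
              (fun _ _ => Nat.zero_le _) (Finset.mem_univ l)))).trans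
              (Nat.le_mul_of_pos_right _ (Nat.pos_of_ne_zero (hφ l h)))
        rw [neg_neg, Int.toNat_natCast, zero_add, zero_add, Int.cast_neg, neg_neg, Int.cast_natCast]
        exact Nat.cast_le.2 q)
  obtain ⟨a, ha⟩ := hM.cover z
  obtain ⟨b, hb⟩ := hV.cover z
  choose g hg using fun l => (lO l).cover z
  have u0 : s a z * v b z ^ x ≠ 0 := mul_ne_zero (h0 a ha) (pow_ne_zero _ (v2 b hb))
  have h2 := ((ordAt_of_one (k := k) (u := fun w => s a w * v b w ^ x * ∏ l, σ l (g l) w ^ k l)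
    (fun l => (hO l).leq _ z (hg l)) ((sec_hol hs ha).mul ((sec_hol hv hb).pow x))
    (fun h => u0 h.self_of_nhds) (.of_forall fun _ _ => rfl)
    fun l hl h => h.self_of_nhds ⟨hl, u0⟩).bdP_iff hA.snc).1
    (h1.bdP (a := ((a, b), g)) trivial ⟨⟨ha, hb⟩, hg⟩) l₀ hz
  rw [neg_neg, Int.toNat_natCast, Int.cast_neg, Int.cast_natCast, ← sub_eq_add_neg, sub_nonneg,
    Nat.cast_le] at h2
  have q1 : Φ l₀ ≤ ∑ l, Φ l := Finset.single_le_sum (fun _ _ => Nat.zero_le _) (Finset.mem_univ l₀)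
  have q2 : y + x * c + 1 ≤ x * (c + 2) := by rw [mul_add]; omega
  have q3 := h2.trans (Nat.mul_le_mul (Nat.mul_le_mul_left C q2) q1)
  have q4 : x * j ≤ x * (j * φ l₀) :=
    Nat.mul_le_mul_left _ (Nat.le_mul_of_pos_right _ (Nat.pos_of_ne_zero p0))
  have q5 : x * j = C * (x * (c + 2)) * ∑ l, Φ l + x := by rw [hj]; ring
  omega

end Vale.Agent.P270G
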