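import Vale.Agent.P270G.Defs
import Vale.Agent.P285S.Bs2.Ends
import Vale.Agent.P281Z.Md.Ext

/-!
# P270G: general points, the numerical dimension, null surfaces
-/

open scoped Manifold ContDiff Topology
open Set Filter Function
open Vale.Agent.P272.K Vale.Agent.P285.H281.FD Vale.Agent.P281Z Vale.Agent.P280Z
open Vale.Agent.P277Z (at_chart)
open Vale.Agent.P277Z.Slc (IsDiv Snc)
open Vale.Agent.P285W.J Vale.Agent.P285W.Bs
open Vale.Agent.P285S.B2 (Zr Nu Nh zr_down zr_weak kah_of)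

noncomputable section

namespace Vale.Agent.P270G

theorem gen : GEN := by
  rintro d Z κ _ G j hG ⟨x, hx⟩
  classical
  obtain ⟨ζ, hζ, hi⟩ := hG x
  have h1 := Md.gen_pt hζ hi hx (a := fun _ => 1) (fun _ _ => analyticAt_const) fun ⟨c, _, k⟩ => by
    simpa [(hζ j).mem.2 hx] using k.self_of_nhds
  obtain ⟨y, ⟨a, -, b⟩, c⟩ := ((h1.self_of_nhds hx).and_eventually
    (eventually_all.2 fun l => (hζ l).1)).exists
  exact ⟨y, a, fun i h k => b i h ((c i).2 k)⟩

theorem nuu : NUU where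
  nu T hT n ν Z Y π S hπ l cZ pY nl h := by
    have := cZ.conn
    have cY : Cp Y := ⟨hπ.conn, pY⟩
    have n1 := nf_pull hT hπ.hol nl
    have d1 := dg_pow hT (nf_dg hT n1) (ν + 1)
    refine ⟨fun k => h.1 (zr_down hT hπ.hol cY cZ hπ.surj (by rwa [map_pow])), ?_⟩
    by_cases hn : n < ν + 1
    · exact fun y _ => by rw [dg_zero hT d1 hn, zero_mul, map_zero]
    obtain ⟨k, rfl⟩ : ∃ k, n = k + 1 := ⟨n - 1, by omega⟩
    obtain ⟨c, c1, -⟩ := Ps.fub1 hT cZ.conn (kah_of hT cZ.prj) hπ.hol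
    exact zr_weak hT hπ.hol cY cZ hπ.surj (n1.mn.pow _) d1 (not_lt.1 hn) fun y hy => by
      rw [← map_pow, ← map_mul, c1, h.2 y hy, mul_zero]
  tr T hT n Z Y π S hπ l h := by
    refine (hπ.pre_neg (h.union hπ.thin.neg)).mono ?_
    rintro _ ⟨C, f, hf, hC, ⟨x, rfl⟩, ⟨c, c', hc⟩, h0⟩
    by_cases k : ∃ c c', π (f c) ≠ π (f c')
    · exact .inl ⟨C, _, hπ.hol.comp hf, hC, ⟨x, rfl⟩, k, by
        rwa [hT.rg.pull_comp hf hπ.hol _ fun _ => rfl]⟩
    · push Not at k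
      exact .inr (by_contra fun k' => hc ((hπ.inj k' (k c x)).trans (hπ.inj k' (k c' x)).symm))
  te T hT n Z l e δ nl δ0 he h := by
    obtain ⟨D, s, h1, h2, h3, rfl⟩ := he
    refine (h.union (Ps.thin_z h1 h2 h3).neg).mono ?_
    rintro _ ⟨C, f, hf, hC, ⟨x, rfl⟩, hc, h0⟩
    refine or_iff_not_imp_right.2 fun k => ⟨C, f, hf, hC, ⟨x, rfl⟩, hc, ?_⟩
    have k1 := ef_int hT (ef_pull hT hf h1 h2 (Thin.pre_of_ex (Ps.an_z h1 h2) hf ⟨x, k⟩).neg) mn_one
    have k2 := mn_int hT (nf_pull hT hf nl).mn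
    rw [map_add, map_smul, map_add, map_smul, smul_eq_mul] at h0
    rw [mul_one] at k1
    exact k2.antisymm' (by nlinarith)

theorem cov : COV where
  up T hT Z Y π B S hπ l hB h U p hp hN := by
    rintro _ ⟨x, rfl⟩
    by_contra k
    have hq := hπ.hol.comp hp
    obtain ⟨y, y1, y2⟩ := ((((nim _ _ U Y p hN.cp.conn hp).1 hN.imm).freq x).and_eventually
      (hq.cont.continuousAt.eventually
        (hπ.thin.closed.isOpen_compl.mem_nhds fun c => k (hB c)))).exists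
    exact k (h U _ hq ⟨rfl, hN.cp, ⟨y, .comp (hπ.hol.at _) (hp.at _) (hπ.imm y2) (not_not.1 y1)⟩,
      fun z hz => by
        rw [hT.rg.pull_comp hp hπ.hol _ fun _ => rfl, map_mul, map_pow]
        exact hN.nul _ (mn_pull hT hπ.hol hz)⟩ ⟨x, rfl⟩)
  one T hT κ ι _ A m N l hA nl h U p hp hN := by
    have := hN.cp.conn
    obtain ⟨k, hk⟩ : ∃ k, ∀ x, p x ∈ A.G k := by
      by_contra c
      push Not at c
      refine (Thin.iUnion fun k => Thin.pre_of_ex (snc_thin hA.ok.snc k).1 hp (c k)).ne_univ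
        (eq_univ_of_forall fun x => ?_)
      simpa [off] using h U p hp hN ⟨x, rfl⟩
    rintro _ ⟨x, rfl⟩
    refine ⟨k, fun O σ hO => ?_, hk x⟩
    have h1 : {x | ¬ NZ O σ x} = A.G k := Set.ext fun x => (hO.lb.cover x).elim fun a ha =>
      (Ld.not_nz hO.lb hO.sec ha).trans (hO.leq a x ha).mem
    obtain ⟨E, i, hc⟩ := Ld.BerH.cut (n := 2) hO.lb hO.sec fun y => (hO.lb.cover y).elim
      fun a ha => ⟨a, _, ha, at_chart y, ((hO.leq a y ha).2 _ (at_chart y)).2⟩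
    obtain ⟨q, hq, e⟩ := hc.emb.lift hp fun z => h1 ▸ hk z
    obtain rfl : p = fun z => i (q z) := funext fun z => (e z).symm
    obtain ⟨c, c1, c2⟩ := Ps.fub1 hT (hc.emb.conn.2 (h1 ▸ hA.conn k))
      (kah_of hT (prj_of_imm hT hc.emb.hol hc.emb.imm hA.ok.prj)) hq
    obtain ⟨y, hy⟩ := hN.imm
    have h0 := hN.nul 1 mn_one
    rw [mul_one, hT.rg.pull_comp hq hc.emb.hol _ fun _ => rfl, c1, ← hT.pl hc] at h0
    exact (mul_eq_zero.1 h0).resolve_left (c2 y (hy.of_comp (hc.emb.hol.at _) (hq.at _))).ne'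
  two T hT Z l δ D s S nl δ0 h1 h2 h3 nl' h U p hp hN := by
    rintro _ ⟨x, rfl⟩
    by_contra k
    have := hN.cp.conn
    have he := ef_pull hT hp h1 h2 (Thin.pre_of_ex (Ps.an_z h1 h2) hp ⟨x, fun c => c (h3 _ k)⟩).neg
    have n1 := nf_pull hT hp nl
    have n2 := nf_pull hT hp nl'
    have h0 := hN.nul 1 mn_one
    rw [mul_one, map_pow, sq] at h0
    rw [map_add, map_smul] at n2 h0
    have k1 := ef_int hT he n1.mn
    have k2 := ef_int hT he n2.mn
    have k3 := mn_int hT (n1.mn.mul n1.mn)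
    have k4 : T.pull hp l ^ 2 = 0 := by
      refine top hT inferInstance (kah_of hT hN.cp.prj) (dg_pow hT (nf_dg hT n1) 2) ?_
      rw [add_mul, smul_mul_assoc, mul_add, mul_smul_comm, mul_comm _ (T.pull hp (T.c1 Z D)),
        map_add, map_smul, map_add, map_smul, smul_eq_mul, smul_eq_mul] at h0
      rw [sq]
      exact k3.antisymm' (by nlinarith [mul_pos δ0 δ0, mul_nonneg δ0.le k1])
    exact k (h U p hp ⟨rfl, hN.cp, hN.imm, fun y _ => by
      rw [map_mul, map_pow, k4, zero_mul, map_zero]⟩ ⟨x, rfl⟩)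

end Vale.Agent.P270G
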