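import Vale.Agent.P270G.Defs
import Vale.Agent.P285N.Tp.Lrk2
import Vale.Agent.P285N.Tp.Hod
import Vale.Agent.P285S.Tp.Br
import Vale.Agent.P285S.Tp.Nfp
import Vale.Agent.P285S.Mm.Mkpr
import Vale.Agent.P285S.Mm.Ref
import Vale.Agent.P285W.J.Top

/-!
# P270G, rows D30, RGQ: the data on a log resolution
-/

open Set Filter
open Vale.Agent.P272.K Vale.Agent.P285.H281.FD Vale.Agent.P281Z Vale.Agent.P280Z
open Vale.Agent.P277Z.Slc (IsDiv lin triv isLB_triv)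
open Vale.Agent.P277.HD (pull)
open Vale.Agent.P285N Vale.Agent.P285N.Tp Vale.Agent.P285N.Tp.Lr
open Vale.Agent.P281Z.En.Mg (mem_Z)
open Vale.Agent.P285W

noncomputable section

namespace Vale.Agent.P270G

namespace D30H

variable {n : ℕ} {V : Mf n} {Q : Rd V}

theorem mu (hQ : Q.Ok) : Q.Mu Q.L 1 1 := ⟨hQ, hQ.bir.res.lbL, one_pos, N2.refl hQ.bir.res.lbL⟩

theorem nf (hQ : Q.Ok) : Tp.Nf V Q.L :=
  let ⟨w, hw⟩ := hQ.prj.kah
  (nefp n n V V (fun x => x) _ holM_id hQ.bir.res.lbL).1 w hw (nef2 n V Q _ 1 1 w (mu hQ) hw).1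

end D30H

open D30H

theorem rgq : RGQ := by
  intro n V Q P κ _ R hQ hR
  obtain ⟨H, h1, h2⟩ := hR.ok.prj
  have a1 := hQ.bir.res.lbA
  have lL := hQ.bir.res.lbL
  obtain ⟨Z, hM⟩ := hR.md
  have hπ := hM.hol
  have hL := hπ.lb lL
  obtain ⟨k, s, s1, c, x, s2, s3⟩ := kodp2 n V R.Y Q R.π Z _ hQ hR.ok.conn hM (lb_zp h1 (-1))
  have hΛ := lb_pow (hπ.lb a1) k
  have hT := lb_mul hΛ (lb_zp h1 (-1))
  refine ⟨H, (Xc.topa n κ _ R.m R.N R.A H _ _ _ s hR.ok h1 hL hΛ hT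
    (by rw [cls_mul hΛ (lb_zp h1 _), cls_zp h1, neg_one_zsmul, sub_eq_add_neg]) s1
    ⟨x, (nz_iff hT (fun a b => s1.change a b x) s2).2 s3⟩ fun k' i M t m1 m2 ⟨j, m3⟩ => ?_).imp
    fun C h => ⟨h1, h2, h⟩⟩
  have e := lb_mul (lb_pow lL i) (lb_pow a1 (k' * k))
  refine Xc.secP_of_cls hR.ok.snc (hπ.lb e) m1 ?_ (fun t' ht => ?_) m3
  · rw [m2, cls_pow (hπ.lb a1), ← mul_smul, ← cls_pow (hπ.lb a1), ← cls_pow hL, add_comm,
      ← cls_mul (lb_pow hL _) (lb_pow (hπ.lb a1) _)]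
    rfl
  · obtain ⟨u, u1, u2⟩ := har2 n V R.Y Q R.π Z κ R.G _ _ t' hQ hM hR.ok.snc e
      (rg n V Q _ 1 1 (mu hQ) _ _).2 (fun l hl => hR.exc l (by by_contra h; simp [h] at hl)) ht
    exact (secP_of_sec continuous_id (hπ.sec u1) fun _ => le_rfl).congr (hπ.lb e) isOpen_univ
      (Hyp.of_snc hR.ok.snc).isOpen fun a y _ ha hy => u2 a y ha hy

theorem d30_of (hX : EXQ) (hU : NUU) (hN : P285S.Sf.NUL) : D30 := by
  intro T hT V Q D t q C M g hν htr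
  have hQ := g.ok
  have K := g.sub
  have := hQ.conn
  have r := hQ.bir.res
  obtain ⟨a, a0, u, u1, u2⟩ := g.eff
  have lC := lb_pow K.lb a
  have lE := lb_mul r.lbE K.div.lb
  have d1 : Dense {x | NZ Q.E Q.s x} :=
    let ⟨_, _, h, h'⟩ := r.nzE
    NumH.dense_nz r.lbE r.secE h h'
  have d2 : Dense {x | NZ D t x} :=
    let ⟨_, _, h, h'⟩ := K.div.nz
    NumH.dense_nz K.div.lb K.div.sec h h'
  have d3 : Dense {x | NZ (C.pow a) u x} :=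
    let ⟨_, _, h, h'⟩ := u2
    NumH.dense_nz lC u1 h h'
  have s0 := sec_mul (sec_mul r.secE K.div.sec) u1
  obtain ⟨Y, π, B, p, G, -, hM, hY, hG, hc, ho, t0, -⟩ := reso (s := fun _ : Fin 1 => u) hQ.prj
    (lb_mul lE lC) s0 (thin_Z _ _ ⟨0, by
      obtain ⟨x, ⟨k1, k2⟩, k3⟩ := ((d1.inter_of_isOpen_left d2 (isOpen_iff_mem_nhds.2 fun _ =>
        Ld.Fn.nz_near r.lbE r.secE)).inter_of_isOpen_right d3 (isOpen_iff_mem_nhds.2 fun _ =>
        Ld.Fn.nz_near lC u1)).nonempty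
      obtain ⟨c, hc⟩ := (lb_mul lE lC).cover x
      exact ⟨c, x, hc, mul_ne_zero (mul_ne_zero (k1 _ hc.1.1) (k2 _ hc.1.2)) (k3 _ hc.2)⟩⟩)
    lC (fun _ => u1) ⟨0, u2⟩
  have hπ := hM.hol
  have t1 : ∀ y ∈ off G, NZ Q.E Q.s (π y) ∧ NZ D t (π y) ∧ NZ (C.pow a) u (π y) := fun y h => by
    obtain ⟨c, hc⟩ := (lb_mul lE lC).cover (π y)
    have k := t0 y h c hc
    exact ⟨(nz_iff r.lbE (fun a b => r.secE.change a b _) hc.1.1).2
      (left_ne_zero_of_mul (left_ne_zero_of_mul k)),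
      (nz_iff K.div.lb (fun a b => K.div.sec.change a b _) hc.1.2).2
        (right_ne_zero_of_mul (left_ne_zero_of_mul k)),
      (nz_iff lC (fun a b => u1.change a b _) hc.2).2 (right_ne_zero_of_mul k)⟩
  obtain ⟨m, Ω, h1, h2⟩ := core hQ K hM hY hG hc (fun y h => hM.imm (ho y h))
    (fun y h => (t1 y h).1) fun y h => (t1 y h).2.1
  have cY := h1.ok.conn
  obtain ⟨f, hf⟩ := ordu 3 Y _ G _ _ hG hc (hπ.lb lC) (hπ.sec u1) fun y h => (t1 y h).2.2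
  choose O σ hO using fun l => P277Z.Slc.stDiv 3 Y.X (G l) fun y =>
    (hG y).elim fun ζ k => ⟨ζ l, k.1 l⟩
  have dv := Tp.div_mon hO f
  have c1 : cls 3 ((pull π C).pow a) = cls 3 (lin O fun l => f l) :=
    P285S.Mm.RefH.cls_unit (Tp.dense_off hO) (hπ.lb lC) dv.lb (hπ.sec u1) dv.sec
      (fun b x hb hx => Tp.mon_ne hO f hb fun l _ => hx l) fun b c x hb hc =>
        hf b x hb (fun l => σ l (c l)) fun l => (hO l).leq _ x (hc l)
  have c2 : cls 3 ((pull π C).pow 2) = (2 * q) • cls 3 (Bd.can 3 Y.X) + _ :=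
    Xc.cls_eq 3 _ _ m _ _ O σ h1.ok hO
  rw [cls_pow (hπ.lb K.lb), cls_lin fun l => (hO l).lb] at c1
  rw [cls_pow (hπ.lb K.lb)] at c2
  have lt : ∀ l, a * m l - 2 * f l < (a * (2 * q) : ℕ) := fun l => by
    have := mul_lt_mul_of_pos_left (h2 l) (Int.natCast_pos.2 a0)
    push_cast at this ⊢
    linarith [Int.natCast_nonneg (f l)]
  obtain ⟨Ω', ok⟩ := P285S.Mm.mkpr 3 _ Y G O σ (triv _) (fun l => a * m l - 2 * f l) (a * (2 * q))
    cY hY hG hO isLB_triv (mul_pos a0 h1.ok.pos) (h1.ok.even.mul_left a) (fun l => (lt l).le) (by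
      simp only [cls_triv, sub_smul, mul_smul, Finset.sum_sub_distrib, ← Finset.smul_sum]
      rw [← c1, natCast_zsmul, ← add_sub_assoc, ← smul_add, ← mul_smul 2 q, ← c2]
      module)
  have nL := J.nf_of hT hQ.prj r.lbL (nf hQ)
  have m2 := nL.mn.pow 2
  have e := hT.c1.pull hπ _ r.lbL
  have z : T.int V (T.c1 V (C.pow a) * T.c1 V Q.L ^ 2) = 0 := by
    have k1 := J.ef_int hT ⟨_, u, lC, u1, d3, rfl⟩ m2
    have k2 := J.mn_int hT ((J.nf_of hT hQ.prj g.lb g.nef).mn.mul m2)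
    have k3 := hν.2 1 J.mn_one
    rw [mul_one, pow_succ', HodH.c1_iso hT r.lbL (lb_mul K.lb g.lb) g.iso,
      hT.c1.mul V _ _ K.lb g.lb, add_mul, map_add, ← hT.c1.mul V _ _ K.lb g.lb,
      ← HodH.c1_iso hT r.lbL (lb_mul K.lb g.lb) g.iso] at k3
    rw [hT.c1.pow V _ _ K.lb, smul_mul_assoc, map_smul, smul_eq_mul] at k1 ⊢
    nlinarith [mul_nonneg a.cast_nonneg k2]
  refine ⟨_, _, inferInstance, _, _, _, pull π Q.L, ⟨ok, lt, hc, 1, one_pos, ?_⟩, hπ.lb r.lbL,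
    P285S.Tp.nf_comp hπ hQ.prj r.lbL (nf hQ),
    e ▸ hU.nu T hT 3 2 V Y π B hM _ ⟨this, hQ.prj⟩ hY nL hν,
    e ▸ hU.tr T hT 3 V Y π B hM _ htr, fun k hk O' σ' hO' => ?_⟩
  · exact (one_smul _ _).trans cls_triv
  have key : ∀ (E : Bd V.X) (s : E.ι → V.X → ℂ), IsLB 3 E → IsSec 3 E s → Dense {x | NZ E s x} →
      T.int V (T.c1 V E * T.c1 V Q.L ^ 2) = 0 → (∀ y ∈ G k, ¬ Imm 3 3 π y ∨ ¬ NZ E s (π y)) →
      T.int Y (T.c1 Y O' * T.c1 Y (pull π Q.L) ^ 2) = 0 := fun E s k1 k2 k3 k4 k5 => by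
    have nz : ∀ y ∉ G k, NZ O' σ' y := fun y hy b hb h => hy ((hO'.leq b y hb).mem.1 h)
    rw [e, ← map_pow]
    exact hN T hT 2 Y V π B hM E s _ _ ⟨this, hQ.prj⟩ hY k1 k2 k3 m2 (J.dg_pow hT (J.nf_dg hT nL) 2)
      k4 ⟨O', σ', hO'.lb, hO'.sec,
        (Tp.dense_off hO).mono fun y (hy : y ∈ off G) => nz y (hy k),
        fun y hy => nz y fun h => hy (k5 y h), rfl⟩
  by_cases h : m k < 0
  · exact key _ _ r.lbE r.secE d1 (hX T hT 2 V Q hQ) (h1.exc k h)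
  · refine key _ _ lC u1 d3 z fun y hy => .inr fun hz => ?_
    obtain ⟨b, hb⟩ := lC.cover (π y)
    obtain ⟨ζ, hζ, -⟩ := hG y
    obtain ⟨v, -, -, v3⟩ := hf b y hb ζ hζ
    refine hz b hb (v3.self_of_nhds.trans (mul_eq_zero_of_right _
      (Finset.prod_eq_zero (Finset.mem_univ k) ?_)))
    rw [(hζ k).mem.2 hy, zero_pow]
    rintro h0
    have := mul_nonneg (Int.natCast_nonneg a) (not_lt.1 h)
    simp only [h0] at hk
    omega

end Vale.Agent.P270G
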