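import Vale.Agent.P270G.Defs
import Vale.Agent.P285S.Bs2.Big
import Vale.Agent.P285W.J.PushA

/-!
# P270G: the two ends of the proof
-/

open scoped Manifold ContDiff Topology
open Set Filter Function
open Vale.Agent.P272.K Vale.Agent.P285.H281.FD Vale.Agent.P281Z Vale.Agent.P280Z
open Vale.Agent.P277.HD (pull)
open Vale.Agent.P285N Vale.Agent.P285W.J Vale.Agent.P285W.Bs
open Vale.Agent.P285S.B2 (Zr Nu Ba Nh SN NEG0)
open Vale.Agent.P285S.Mm (Sp)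

noncomputable section

namespace Vale.Agent.P270G

namespace EndH

variable {T : CT} (hT : T.OK) {n : ℕ}

include hT

theorem kah {Y : Mf n} (h : Y.Prj) : Y.Kah :=
  let ⟨_, a, b⟩ := h
  (hT.po.kah _).2 ⟨_, hT.c1.pos _ _ a b⟩

theorem zr_down {Y V : Mf n} {w : V.X → Y.X} {S : Set Y.X} (hw : Modif n w S) (cY : Cp Y)
    [Nonempty V.X] {x : T.H Y} (h : Zr T V (T.pull hw.hol x)) : Zr T Y x := fun y hy => by
  obtain ⟨c, h1, h2⟩ := Ps.fub1 hT cY.conn (kah hT cY.prj) hw.hol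
  obtain ⟨z, hz⟩ := hw.2.dense.nonempty
  have := h _ (mn_pull hT hw.hol hy)
  rw [← map_mul, h1] at this
  exact (mul_eq_zero.1 this).resolve_left (h2 z (hw.imm hz)).ne'

/-- the classes of a free and big bundle -/
theorem big {Z : Mf n} (hc : ConnectedSpace Z.X) {Λ : Bd Z.X} (h : Fb Z Λ) :
    Bf T Z (T.c1 Z Λ) ∧ ∃ a, T.Kc Z a ∧ Ef T Z (T.c1 Z Λ - a) := by
  obtain ⟨H, h1, h2, D, t, h3, h4, h5, x, h6⟩ := h.big
  refine ⟨⟨Λ, h.lb, h.bpf, rfl⟩, _, hT.c1.pos Z H h1 h2, D, t, h3, h5, ?_, ?_⟩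
  · exact ((Ps.an_z h3 h5).thin fun e => eq_univ_iff_forall.1 e x h6).dense.mono
      fun y hy => not_not.1 hy
  · rw [eq_sub_iff_add_eq, ← hT.c1.mul Z D H h3 h1]
    exact Ld.Ext.c1_cls Ld.iso hT.c1 (lb_mul h3 h1) h.lb (by
      rw [cls_mul h3 h1, h4, sub_add_cancel])

theorem fin0 (h : NEG0) {V : Mf (n + 1)} (cV : Cp V) {l Λ a : T.H V} (hl : Nf T V l)
    (h0 : ¬ Zr T V (l ^ 2)) (bf : Bf T V Λ) (kc : T.Kc V a) (big : Ef T V (Λ - a))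
    {M₁ M₂ : Bd V.X} {s₁ : M₁.ι → V.X → ℂ} {s₂ : M₂.ι → V.X → ℂ} {α : ℝ} (l1 : IsLB (n + 1) M₁)
    (l2 : IsLB (n + 1) M₂) (t1 : IsSec (n + 1) M₁ s₁) (t2 : IsSec (n + 1) M₂ s₂)
    (d1 : Dense {x | NZ M₁ s₁ x}) (d2 : Dense {x | NZ M₂ s₂ x})
    (e : T.c1 V M₁ - T.c1 V M₂ = α • l) (z1 : T.int V (T.c1 V M₁ * Λ ^ n) = 0)
    (z2 : T.int V (T.c1 V M₂ * Λ ^ n) = 0) (k : α ≠ 0 ∨ ∃ x, ¬ NZ M₁ s₁ x ∧ NZ M₂ s₂ x) :
    False := by
  have a0 : α = 0 := by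
    by_contra c
    have h1 : T.int V (Λ ^ n * l) = 0 := by
      have := congrArg (fun x => T.int V (x * Λ ^ n)) e
      simp only [sub_mul, map_sub, z1, z2, sub_self, smul_mul_assoc, map_smul, smul_eq_mul] at this
      exact mul_comm l _ ▸ (mul_eq_zero.1 this.symm).resolve_left c
    have h2 := domp hT (le_of_ef hT zero_le_one (by rwa [one_smul])) (kc_nf hT kc) (bf_nf hT bf) n
      hl.mn h1
    have h3 := P285S.B2.zr_of hT (e := 1) kc (fun y hy => by simpa using mn_int hT hy) hl.mn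
      (by simpa using nf_dg hT hl) (add_comm 1 n) (by rwa [one_mul, mul_comm])
    exact h0 fun y hy => by
      rw [sq, mul_assoc, ← one_mul l]
      exact h3 _ (by simpa using hl.mn.mul hy)
  obtain ⟨x, x1, x2⟩ := k.resolve_left fun c => c a0
  exact x1 (h T hT n V M₁ M₂ s₁ s₂ Λ a cV l1 l2 t1 t2 d1 d2
    (sub_eq_zero.1 (by rw [e, a0, zero_smul])) bf kc big z1 x x2)

omit hT in
theorem zr_smul {Y : Mf n} {l : T.H Y} {c : ℝ} (hc : c ≠ 0) (k : ℕ) :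
    Zr T Y ((c • l) ^ k) ↔ Zr T Y (l ^ k) :=
  forall₂_congr fun y _ => by
    rw [smul_pow, smul_mul_assoc, map_smul, smul_eq_mul, mul_eq_zero,
      or_iff_right (pow_ne_zero k hc)]

end EndH

open EndH in
/-- **SNK** -/
theorem snk_of (h1 : DUP) (h2 : ZNL) (h3 : MM1) (h4 : RGN) (h5 : NZU) (h6 : NEG0) : SNK := by
  intro T hT κ ι _ A m N L hD ⟨M₁, M₂, s₁, s₂, c, l1, l2, t1, t2, d1, d2, e, z1, z2, k⟩
  have cA : Cp A.Z := ⟨hD.cw.ok.conn, hD.cw.ok.prj⟩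
  have q1 := Ps.thin_z l1 t1 d1
  have q2 := Ps.thin_z l2 t2 d2
  have nz : ∀ x, NZ (M₁.mul M₂) (fun i y => s₁ i.1 y * s₂ i.2 y) x → NZ M₁ s₁ x ∧ NZ M₂ s₂ x :=
    fun x hx => by
    obtain ⟨a, ha⟩ := l1.cover x
    obtain ⟨b, hb⟩ := l2.cover x
    exact ⟨fun i hi => left_ne_zero_of_mul (hx (i, b) ⟨hi, hb⟩),
      fun i hi => right_ne_zero_of_mul (hx (a, i) ⟨ha, hi⟩)⟩
  obtain ⟨x₀, hx₀⟩ := have := cA.conn; (q1.union q2).dense.nonempty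
  obtain ⟨κ', _, A', m', π, S, hπ, hD', ho⟩ := h1 T hT κ ι A m N L (M₁.mul M₂)
    (fun i y => s₁ i.1 y * s₂ i.2 y) hD (lb_mul l1 l2)
    ⟨fun i e y he hi => (t1.holo _ e y he hi.1).mul (t2.holo _ e y he hi.2), fun i j y hi hj => by
      rw [t1.change _ _ y hi.1 hj.1, t2.change _ _ y hi.2 hj.2]
      exact mul_mul_mul_comm _ _ _ _⟩
    ⟨x₀, fun i hi => mul_ne_zero (not_not.1 (fun c => hx₀ (.inl c) : ¬ ¬ NZ M₁ s₁ x₀) _ hi.1)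
      (not_not.1 (fun c => hx₀ (.inr c) : ¬ ¬ NZ M₂ s₂ x₀) _ hi.2)⟩
  have cA' : Cp A'.Z := ⟨hD'.cw.ok.conn, hD'.cw.ok.prj⟩
  have nl := nf_of hT cA'.prj hD'.lb hD'.nef
  have eL := hT.c1.pull hπ.hol L hD.lb
  obtain ⟨C, hC⟩ := h3 T hT κ' ι A' m' N _ hD'
  have cV : Cp C.B.Z := ⟨hC.cw.ok.conn, hC.cw.ok.prj⟩
  have := cV.conn
  have hw := hC.md
  obtain ⟨bf, a, kc, bg⟩ := big hT cV.conn hC.fb
  have mΛ := (bf_nf hT bf).mn.pow 2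
  have dn : ∀ {M : Bd A.Z.X} {s : M.ι → A.Z.X → ℂ}, Thin 3 {x | ¬ NZ M s x} →
      Dense {x | NZ (pull C.π (pull π M)) (fun i y => s i (π (C.π y))) x} := fun q =>
    (hw.pre_thin (hπ.pre_thin q)).2.mono fun _ => not_not.1
  have key : ∀ {M : Bd A.Z.X} {s : M.ι → A.Z.X → ℂ}, IsLB 3 M → IsSec 3 M s →
      Thin 3 {x | ¬ NZ M s x} → Zr T A.Z (T.c1 A.Z M * T.c1 A.Z L ^ 2) →
      (∀ y ∈ off A'.G, NZ M s (π y)) →
      T.int C.B.Z (T.c1 C.B.Z (pull C.π (pull π M)) * T.c1 C.B.Z C.Λ ^ 2) = 0 :=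
    fun {M s} a1 a2 a3 a4 a5 => by
    obtain ⟨r, r1, -⟩ := Ps.fub1 hT cA.conn (kah hT cA.prj) hπ.hol
    have b1 := h2 3 T hT κ' ι A' m' N (pull π M) (fun i y => s i (π y)) _ hD'.cw (hπ.hol.lb a1)
      (hπ.hol.sec a2) a5 (nl.mn.pow 2) (by
        rw [hT.c1.pull hπ.hol M a1, eL, ← map_pow, ← map_mul, r1, ← mul_one (_ * _ ^ 2),
          a4 1 mn_one, mul_zero])
    have b2 := h5 2 T hT C.κ' C.ι' C.B C.m C.N C.B.Z _ _ modif_id _ (pull C.π (pull π M))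
      (fun i y => s i (π (C.π y))) hC.cw.ok cV.prj mΛ (dg_pow hT (hT.c1.deg _ _) 2)
      (hw.hol.lb (hπ.hol.lb a1)) (hw.hol.sec (hπ.hol.sec a2)) (dn a3) fun y hy => .inr (by
        obtain ⟨j, j1, j2⟩ := (hC.sp y).1 (b1 _ hy)
        refine ⟨j, ?_, j2⟩
        simpa using h4 2 T hT C.κ' C.ι' C.B C.m C.N _ C.Λ C.Q j 2 0 hC.cw.ok hC.fb hC.lbQ hC.nfQ
          hC.rig (by omega) rfl)
    rwa [hT.rg.pull_id] at b2
  refine fin0 hT (α := c) h6 cV (nf_pull hT hw.hol nl)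
    (fun q => hD'.nu.1 (zr_down hT hw cA' (by rwa [map_pow]))) bf kc bg
    (hw.hol.lb (hπ.hol.lb l1)) (hw.hol.lb (hπ.hol.lb l2)) (hw.hol.sec (hπ.hol.sec t1))
    (hw.hol.sec (hπ.hol.sec t2)) (dn q1) (dn q2) ?_
    (key l1 t1 q1 z1 fun y hy => (nz _ (ho y hy).2).1)
    (key l2 t2 q2 z2 fun y hy => (nz _ (ho y hy).2).2)
    (k.imp (fun q => (Nat.cast_pos.2 q).ne') fun ⟨x, hx⟩ => ?_)
  · rw [hT.c1.pull hw.hol _ (hπ.hol.lb l1), hT.c1.pull hw.hol _ (hπ.hol.lb l2), ← map_sub,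
      hT.c1.pull hπ.hol _ l1, hT.c1.pull hπ.hol _ l2, ← map_sub, e, map_smul, map_smul, ← eL]
  · obtain ⟨y, rfl⟩ := hπ.surj x
    obtain ⟨y, rfl⟩ := hw.surj y
    exact ⟨y, hx⟩

open EndH in
/-- **END** -/
theorem end_of (h1 : END0) (h2 : TOPB) (h3 : KXC) (h4 : RGN) (h5 : INS) : END := by
  intro T hT κ ι _ A m N Q Λ Φ cw lQ nQ nu tr neg fb rig cov
  obtain ⟨H, C, a1, a2, a3⟩ := h2 3 T hT κ ι A m N _ m Λ Q cw.ok fb lQ rig fun l hl => by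
    have := neg l hl
    omega
  obtain ⟨r, H', hr, ba, kx⟩ := h3 3 T hT κ ι A m N Q H C cw lQ nQ a1 a2 a3
  have r0 : (r : ℝ) ≠ 0 := Nat.cast_ne_zero.2 hr.ne'
  have eP := hT.c1.pow A.Z Q r lQ
  have nq := nf_of hT cw.ok.prj lQ nQ
  have nΛ := bf_nf hT (big hT cw.ok.conn fb).1
  refine h1 T hT A.Z _ H' Λ (Sp A Φ) ba kx ?_ ?_ fb ?_ ?_ fun U p hp j k cU hS => ?_
  · rw [eP]
    exact ⟨mt (zr_smul r0 2).1 nu.1, (zr_smul r0 _).2 nu.2⟩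
  · rw [eP]
    refine tr.mono fun y ⟨C, f, hf, b1, b2, b3, b4⟩ => ⟨C, f, hf, b1, b2, b3, ?_⟩
    rwa [map_smul, map_smul, smul_eq_mul, mul_eq_zero, or_iff_right r0] at b4
  · exact (snc_thin_off cw.ok.snc).neg.mono fun x ⟨l, _, hl⟩ c => c l hl
  · rw [eP]
    refine fun U p hp h => cov U p hp ⟨h.dim, h.cp, h.imm, fun y hy => ?_⟩
    have := h.nul y hy
    rwa [smul_pow, smul_mul_assoc, map_smul, map_smul, smul_eq_mul, mul_eq_zero,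
      or_iff_right (pow_ne_zero 2 r0)] at this
  · have dz := dg_mul hT (dg_pow hT (hT.c1.deg A.Z Λ) k) (dg_pow hT (hT.c1.deg A.Z Q) j)
    rw [eP, smul_pow, smul_mul_assoc, map_smul, map_smul, mul_comm]
    by_cases e : k + j = 2
    · rw [h5 2 T hT κ ι A m N U p hp _ cw.ok cU ((nΛ.mn.pow k).mul (nq.mn.pow j))
        (by rwa [e] at dz) fun x hx => ?_, smul_zero]
      obtain ⟨l, l1, l2⟩ := hS hx
      exact ⟨l, h4 2 T hT κ ι A m N _ Λ Q l k j cw.ok fb lQ nQ rig (by omega) e, l2⟩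
    · rw [dg_int hT (dg_pull hT hp dz) e, smul_zero]

end Vale.Agent.P270G
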