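import Vale.Agent.P270G.Defs
import Vale.Agent.P285S.Bs2.Zup
import Vale.Agent.P285S.E3.All
import Vale.Agent.P285S.Nv.Nv1

/-!
# P270G: the rows END0 and NV2
-/

open Set
open Vale.Agent.P272.K Vale.Agent.P285.H281.FD Vale.Agent.P281Z Vale.Agent.P280Z
open Vale.Agent.P285W Vale.Agent.P285W.J Vale.Agent.P285W.Bs
open Vale.Agent.P285S.B2 (Nh)

namespace Vale.Agent.P270G

/-- a free and big bundle dominates a Kähler class -/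
theorem Fb.kc {T : CT} (hT : T.OK) {n : ℕ} {Z : Mf n} {Λ : Bd Z.X} (h : Fb Z Λ)
    (hc : ConnectedSpace Z.X) : ∃ a, T.Kc Z a ∧ Ef T Z (T.c1 Z Λ - a) := by
  obtain ⟨H, lH, pH, D, t, lD, e, ht, x, hx⟩ := h.big
  obtain ⟨i, hi⟩ := lD.cover x
  refine ⟨_, hT.c1.pos Z H lH pH, D, t, lD, ht, KodA.dense_nz lD ht hi (hx i hi), ?_⟩
  rw [eq_sub_iff_add_eq, ← hT.c1.mul Z _ _ lD lH]
  exact Ld.Ext.c1_cls Ld.iso hT.c1 (lb_mul lD lH) h.lb (by rw [cls_mul lD lH, e, sub_add_cancel])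

theorem Fb.bf (T : CT) {n : ℕ} {Z : Mf n} {Λ : Bd Z.X} (h : Fb Z Λ) : Bf T Z (T.c1 Z Λ) :=
  ⟨Λ, h.lb, h.bpf, rfl⟩

theorem Fb.vol {T : CT} (hT : T.OK) {n : ℕ} {Z : Mf n} {Λ : Bd Z.X} (h : Fb Z Λ)
    (hc : ConnectedSpace Z.X) : 0 < T.int Z (T.c1 Z Λ ^ n) := by
  obtain ⟨a, ha, he⟩ := h.kc hT hc
  have nΛ := bf_nf hT (h.bf T)
  refine (mn_int hT (nΛ.mn.pow n)).lt_of_ne fun k => (kc_pos hT ha).ne' ?_
  simpa using domp hT (le_of_ef hT zero_le_one (by rwa [one_smul])) (kc_nf hT ha) nΛ n mn_one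
    (by rw [mul_one, k])

theorem end0 : END0 := by
  intro T hT Z L H Λ S hb hK hν hN hΛ hS hC h0
  have cZ : Cp Z := ⟨hb.conn, _, lb_mul (lb_pow hb.lL 0) hb.lA, hb.pos 0⟩
  have nl := DescX.nef hT hb.lL hb.lA hb.pos
  obtain ⟨a, ha, he⟩ := hΛ.kc hT hb.conn
  have key : ∀ (d : ℕ) (U : Mf d) (p : U.X → Z.X) (hp : HolM d 3 p), Nh T Z (T.c1 Z L) 2 U hp →
      range p ⊆ S ∧ ∀ j k : ℕ, T.int U (T.pull hp (T.c1 Z L ^ j * T.c1 Z Λ ^ k)) = 0 := by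
    intro d U p hp h
    obtain rfl : d = 2 := by have := h.dim; omega
    exact ⟨hC U p hp h, fun j k => h0 U p hp j k h.cp (hC U p hp h)⟩
  rcases P285S.E3.o0k3 T hT Z L H hb (kuy 3 Z L H cZ.prj hb.lL hb.lA hK) hN hν with h | h | h
  · obtain ⟨d, U, p, hp, e, cU, im, ⟨x, hx⟩, z⟩ := h S hS
    exact hx ((key d U p hp ⟨e, cU, im, z⟩).1 (mem_range_self x))
  · exact P285S.B2.sxn T hT 3 Z _ _ a 2 cZ nl hν.1 (hΛ.bf T) ha he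
      (fun d U p hp k => (key d U p hp k).2) (P285S.B2.sc_sx hT hν.2 cZ two_pos h)
  obtain ⟨e, e1, e2, e3, e4, e5, e6⟩ := h
  have h2 := P285S.E3.exc T hT 0 Z _ e _ zero_le_one cZ nl e1 e2 e3 e4 e5 e6 (hΛ.bf T)
    (hΛ.vol hT hb.conn)
  obtain ⟨ι, _, α, E, i, hi, k1, k2⟩ := P285S.E3.dec.dec T hT 2 Z e cZ e1
  refine h2.ne' ((k2 _).trans (Finset.sum_eq_zero fun j _ => mul_eq_zero_of_right _ ?_))
  rw [← pow_one (T.c1 Z L)]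
  refine (key 2 (E j) _ (hi j) ⟨rfl, (k1 j).2.1, (k1 j).2.2, fun y hy => ?_⟩).2 1 _
  have k := k2 (T.c1 Z L ^ 2 * y)
  rw [← mul_assoc, e2, zero_mul, map_zero] at k
  exact (mul_eq_zero.1 ((Finset.sum_eq_zero_iff_of_nonneg fun c _ => mul_nonneg (k1 c).1.le
    (mn_int hT (mn_pull hT _ ((nl.mn.pow 2).mul hy)))).1 k.symm j
      (Finset.mem_univ j))).resolve_left (k1 j).1.ne'

theorem nv2_of {T : CT} (hT : T.OK) (hF : P285N.Tp.FLC T) (hD : P285N.Tp.DP)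
    (h : P285S.NV1 T) : NV2 := by
  intro n κ ι _ A m N hA hd h0
  have := hA.ok.conn
  obtain ⟨H, lH, pH⟩ := hA.ok.prj
  have k := hT.c1.pos _ H lH pH
  by_cases h2 : P285S.B2.Zr T A.Z (T.c1 A.Z A.P ^ 2)
  · exact h n κ ι A m N hA ⟨_, k, fun j _ => h2 _ ((kc_nf hT k).mn.pow j)⟩ h0
  obtain rfl : n = 2 := by
    by_contra e
    exact h2 fun y _ => by
      rw [dg_zero hT (dg_pow hT (hT.c1.deg A.Z A.P) 2) (by omega), zero_mul, map_zero]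
  obtain ⟨μ, hμ, e⟩ := P285S.B2.big T hT 2 A.Z A.P H this hA.ok.lb lH
    (P285S.Nv.gd_nf hT hA H lH pH) h2
  exact P285S.Nv.eff_of hD hA (numEff_of hT hF hA.ok.prj.kah hA.ok.lb hμ e)

end Vale.Agent.P270G
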