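import Vale.Agent.P270G.Defs
import Vale.Agent.P285S.Ca.End1
import Vale.Agent.P285S.Tp.Br
import Vale.Agent.P285S.Gl.Pt
import Vale.Agent.P281Z.Nt.Blow
import Vale.Agent.P281Z.Lf.Bert
import Vale.Agent.P280Z.Ld.Ber
import Vale.Agent.P280Z.Ld.Iso
import Vale.Agent.P285W.J.Cuts
import Vale.Agent.P285W.J.Top
import Vale.Agent.P285W.J.Nb
import Vale.Agent.P285W.Bs.All
import Vale.Agent.P285N.Tp.Num

/-!
# P270G: rows FLB and NSD
-/

open scoped Manifold ContDiff Topology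
open Set Filter Function MeasureTheory
open Vale.Agent.P272.K Vale.Agent.P285.H281.FD Vale.Agent.P281Z Vale.Agent.P280Z
open Vale.Agent.P277.HD (pull)
open Vale.Agent.P277Z (Hol)
open Vale.Agent.P285N Vale.Agent.P285W.J Vale.Agent.P285W.Bs

noncomputable section

namespace Vale.Agent.P270G

/-- **NZ0**: a section of a line bundle with vanishing class is zero or has no zero -/
theorem nz0 {T : CT} (hT : T.OK) {d : ℕ} {U : Mf d} (hU : Cp U) {M : Bd U.X} (hM : IsLB d M)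
    (h0 : T.c1 U M = 0) {s : M.ι → U.X → ℂ} (hs : IsSec d M s) {x : U.X} (hx : NZ M s x)
    (y : U.X) : NZ M s y := by
  have := hU.conn
  obtain ⟨a, ha⟩ := hM.cover x
  have hd := Tp.NumH.dense_nz hM hs ha (hx a ha)
  cases d with
  | zero =>
    have : DiscreteTopology U.X := ChartedSpace.discreteTopology (Cm 0) U.X
    exact (dense_discrete.1 hd).ge (mem_univ y)
  | succ d =>
    by_contra hy
    obtain ⟨w, hw⟩ := (hT.po.kah U).1 hU.prj.kah
    have k := (hT.eff U M s d (fun _ => w) rfl hM hs hd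
      fun _ => hT.po.mono hw fun _ => le_top).2 (fun _ => hw) ⟨y, hy⟩
    rw [h0, zero_mul, map_zero] at k
    exact lt_irrefl _ k

namespace FlbH

variable {T : CT} (hT : T.OK) {n : ℕ} {V Y : Mf n} {π : Y.X → V.X} {S : Set V.X}
  (hπ : Modif n π S) {W : Bd Y.X} {y : T.H V}

include hT in
/-- a section without zeros on a fibre -/
theorem fib (hY : Y.Prj) (hW : IsLB n W) (hB : Bpf n W) (hy : T.Dg V 1 y)
    (hc : T.c1 Y W = T.pull hπ.hol y) (x : V.X) :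
    ∃ s, IsSec n W s ∧ ∀ z, π z = x → NZ W s z := by
  by_cases hx : x ∈ S
  swap
  · obtain ⟨z₀, rfl⟩ := hπ.surj x
    obtain ⟨s, h1, h2⟩ := hB z₀
    exact ⟨s, h1, fun z e => (hπ.inj hx e).symm ▸ h2⟩
  have hK : Thin n (π ⁻¹' {x}) := ⟨(an_point x).pre hπ.hol,
    hπ.thin_pre.2.mono (compl_subset_compl.2 (preimage_mono (singleton_subset_iff.2 hx)))⟩
  obtain ⟨U, g, g1, g2, g3, g4⟩ := P285S.Ca.E1.thp hK hY
  choose J fJ U' i c1 c2 c3 c4 c5 using fun d : Fin n => comps (U d)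
  have ne : ∀ k : Σ d, J d, Nonempty (U' k.1 k.2).X := fun k => (c1 k.1 k.2).toNonempty
  let q : (Σ d, J d) → Y.X := fun k => g k.1 (i k.1 k.2 (ne k).some)
  choose s s1 s2 using fun k => hB (q k)
  choose a ha using fun k => hW.cover (q k)
  obtain ⟨c, hc'⟩ := (ae_all_iff.2 fun k => Ld.BerH.ae_lin (w := fun b => s b (a k) (q k))
    (s2 k (a k) (ha k))).exists
  have hs := Lf.Bt.sec_sum s1 c
  refine ⟨_, hs, fun z e => ?_⟩
  obtain ⟨d, u, rfl⟩ := g2 z e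
  obtain ⟨j, v, rfl⟩ := c4 d u
  have hf : HolM d n fun v => g d (i d j v) := (g1 d).comp (c2 d j).hol
  have h0 : T.c1 (U' d j) (pull (fun v => g d (i d j v)) W) = 0 := by
    rw [hT.c1.pull hf W hW, hc, ← hT.rg.pull_comp hf hπ.hol (hπ.hol.comp hf) fun _ => rfl]
    exact CutsH.pull_const hT _ (fun v v' => (g4 d _).trans (g4 d _).symm) hy
  have h1 : NZ W (fun b x => ∑ a, c a * s a b x) (q ⟨d, j⟩) :=
    (nz_iff hW (fun b b' => hs.change b b' (q ⟨d, j⟩)) (ha ⟨d, j⟩)).2 (hc' ⟨d, j⟩)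
  exact nz0 hT ⟨c1 d j, prj_of_imm hT (c2 d j).hol (c2 d j).imm (g3 d)⟩ (hf.lb hW) h0 (hf.sec hs)
    (x := (ne ⟨d, j⟩).some) h1 v

end FlbH

/-- **row FLB** -/
theorem flb : FLB := by
  intro T hT n V Y π S hπ W y _ hY hW hB hy hc
  choose s s1 s2 using FlbH.fib hT hπ hY hW hB hy hc
  let O : V.X → Set V.X := fun x => (π '' {z | NZ W (s x) z}ᶜ)ᶜ
  have o1 : ∀ x, IsOpen (O x) := fun x => (hπ.hol.cont.isClosedMap _
    (P285S.Gl.PtA.nz_open hW (s1 x)).isClosed_compl).isOpen_compl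
  have o2 : ∀ x z, π z ∈ O x → NZ W (s x) z := fun x z k => not_not.1 fun k' => k ⟨z, k', rfl⟩
  have o3 : ∀ x, x ∈ O x := fun x ⟨z, k, e⟩ => k (s2 x z e)
  choose r hr using fun x x' => glue hW (fun a z => s x' a z / s x a z) (fun _ => True)
    fun a b z ha hb _ => by
      rw [(s1 x').change a b z ha hb, (s1 x).change a b z ha hb,
        mul_div_mul_left _ _ (hW.ne_zero a b z ha hb)]
  choose b b1 b2 using fun x x' => Nt.Bw.desc hπ (O := O x) (β := r x x') fun z hz => by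
    obtain ⟨a, ha⟩ := hW.cover z
    exact ((sec_hol (s1 x') ha).div (sec_hol (s1 x) ha) (o2 x z hz a ha)).congr
      ((lb_near hW ha).mono fun w k => (hr x x' a w k trivial).symm)
  have b3 : ∀ x x' z a, π z ∈ O x → z ∈ W.U a → b x x' (π z) = s x' a z / s x a z :=
    fun x x' z a k k' => (b2 x x' z k).trans (hr x x' a z k' trivial)
  have hL : IsLB n (⟨V.X, O, b⟩ : Bd V.X) := by
    refine ⟨o1, fun x => ⟨x, o3 x⟩, fun x x' e w he k _ => (b1 x x' w k e he).contDiffAt,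
      fun x x' w k k' => ?_, fun x x' x'' w k k' _ => ?_⟩
    all_goals
      obtain ⟨z, rfl⟩ := hπ.surj w
      obtain ⟨a, ha⟩ := hW.cover z
    · exact (b3 x x' z a k ha).trans_ne (div_ne_zero (o2 x' z k' a ha) (o2 x z k a ha))
    · show b x x' (π z) * b x' x'' (π z) = b x x'' (π z)
      rw [b3 x x' z a k ha, b3 x' x'' z a k' ha, b3 x x'' z a k ha, mul_comm,
        div_mul_div_cancel₀ (o2 x' z k' a ha)]
  refine ⟨_, hL, (cls_eq hW (hπ.hol.lb hL)).2 ⟨fun a x => s x a,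
    fun a x z ha _ => sec_hol (s1 x) ha, fun a x z ha k => o2 x z k a ha,
    fun a a' x x' z ha ha' k _ => ?_⟩⟩
  show s x a z * b x x' (π z) = W.g a a' z * s x' a' z
  rw [b3 x x' z a k ha, mul_div_cancel₀ _ (o2 x z k a ha), (s1 x').change a a' z ha ha']

/-- **row NSD** -/
theorem nsd_of (h : FLB) : NSD := by
  intro T hT hF n V Y π S hπ L P a hV hY hL hP ⟨k, hk, hB⟩ ha hc
  have hW := lb_pow hP k
  have e : T.c1 Y (P.pow k) = T.pull hπ.hol (T.c1 V (L.pow (k * a))) := by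
    rw [hT.c1.pow Y P k hP, hc, hT.c1.pow V L _ hL, map_smul, smul_smul, Nat.cast_mul]
  obtain ⟨W', w1, w2⟩ := h T hT n V Y π S hπ _ _ hV hY hW hB (hT.c1.deg V _) e
  have w3 := hπ.hol.lb w1
  have w4 : Bpf n (pull π W') := Bpf.iso w3 hW ((cls_eq w3 hW).1 w2.symm) hB
  have w5 : Bpf n W' := fun x => by
    obtain ⟨z, rfl⟩ := hπ.surj x
    obtain ⟨s, s1, s2⟩ := w4 z
    obtain ⟨u, u1, u2⟩ := P285S.Tp.desc hπ w1 s1
    exact ⟨u, u1, fun b hb => u2 b z hb ▸ s2 b hb⟩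
  have := hV.conn
  have w6 : T.c1 V W' = T.c1 V (L.pow (k * a)) := by
    obtain ⟨t, ht⟩ := (cls_eq hW w3).1 w2
    refine sub_eq_zero.1 (P285W.Bs.inj.inj T hT n n Y V π hπ.hol _ ⟨hπ.conn, hY⟩ hV hπ.surj ?_)
    rw [map_sub, ← e, ← hT.c1.pull hπ.hol W' w1, (Ld.iso Y _ _ t hW w3 ht).1 T hT.c1, sub_self]
  have z1 := lb_zp hL (-(k * a : ℕ))
  have f1 := lb_mul w1 z1
  have l1 := lb_pow hL (k * a)
  refine ⟨k * a, Nat.mul_pos hk ha, _, f1, (hF V _ hV.prj.kah f1).1 ?_,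
    Bpf.iso (lb_mul l1 f1) w1 ((cls_eq (lb_mul l1 f1) w1).1 ?_) w5⟩
  · rw [hT.c1.mul V _ _ w1 z1, w6, c1_zp hT hL, hT.c1.pow V L _ hL, add_neg_cancel]
  · rw [cls_mul l1 f1, cls_mul w1 z1, cls_pow hL, cls_zp hL, neg_smul, natCast_zsmul]
    abel

/-- **NSD** -/
theorem nsd : NSD := nsd_of flb

end Vale.Agent.P270G
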