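import Vale.Agent.P270G.Defs
import Vale.Agent.P281Z.Sc.Ord
import Vale.Agent.P285W.J.Scale

/-!
# P270G: flat twists and one more component
-/

open scoped Manifold ContDiff Topology
open Set Filter Function
open Vale.Agent.P272.K Vale.Agent.P285.H281.FD Vale.Agent.P281Z Vale.Agent.P280Z
open Vale.Agent.P277Z.Slc (IsDiv Snc lin)
open Vale.Agent.P285N

noncomputable section

namespace Vale.Agent.P270G

namespace FpfX

variable {d : ℕ} {κ : Type} [Fintype κ] {Z : Mf d} {G : Option κ → Set Z.X}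

theorem bdP_opt {c : κ → ℝ} {u : Z.X → ℂ} {x : Z.X} (h : BdP d id (fun l => G (some l)) c u x) :
    BdP d id G (fun o => o.elim 0 c) u x := fun ζ hζ =>
  (h (fun l => ζ (some l)) fun l => hζ (some l)).imp fun _ k => k.mono fun y k1 k2 => by
    simp only [Fintype.prod_option, Option.elim_none, Real.rpow_zero, one_mul]
    exact k1 fun l => k2 (some l)

/-- a section without poles along the new component -/
theorem drop (hG : Snc d G) {M : Bd Z.X} (hM : IsLB d M) {w : Option κ → ℕ} (h0 : w none = 0)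
    {s : M.ι → Z.X → ℂ} (hs : SecP d d id univ M G (fun o => (w o : ℝ)) s) :
    ∃ (M₁ : Bd Z.X) (v : M₁.ι → Z.X → ℂ), IsLB d M₁ ∧ cls d M₁ = cls d M ∧
      SecP d d id univ M₁ (fun l => G (some l)) (fun l => (w (some l) : ℝ)) v ∧
      ∀ a, ∀ z ∈ M.U a, ∃ q, z ∈ M₁.U q ∧ ∀ᶠ y in 𝓝 z, y ∈ off G → s a y = v q y := by
  obtain ⟨O, σ, hD⟩ := (Hyp.of_snc hG).exists_div
  have hO := fun o => (hD o).lb
  have l1 := lb_lin hO fun o => (w o : ℤ)
  have l2 := lb_lin (fun l => hO (some l)) fun l => -(w (some l) : ℤ)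
  have l3 := lb_mul hM (holM_id.lb l1)
  obtain ⟨t, t1, t2⟩ := (hs.mul continuous_id
    (secP_div holM_id hD fun o => (w o : ℤ)).1).isSec hG l3 fun o => by simp
  refine ⟨_, _, lb_mul l3 (holM_id.lb l2), ?_,
    ((secP_of_sec (c := fun _ => 0) continuous_id t1 fun _ => le_rfl).mul continuous_id
      (secP_div holM_id (fun l => hD (some l)) fun l => -(w (some l) : ℤ)).1).mono continuous_id
      fun l => by simp, fun a z ha => ?_⟩
  · rw [cls_mul l3 (holM_id.lb l2), cls_mul hM (holM_id.lb l1), add_assoc, add_eq_left]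
    refine (congrArg₂ (· + ·) (cls_lin hO _) (cls_lin (fun l => hO (some l)) _)).trans ?_
    simp [Fintype.sum_option, h0]
  · obtain ⟨j, hj⟩ := l1.cover z
    refine ⟨((a, j), fun l => j (some l)), ⟨⟨ha, hj⟩, fun l => hj (some l)⟩, ?_⟩
    filter_upwards [lb_near l3 (a := (a, j)) ⟨ha, hj⟩] with y k1 k2
    have k3 : ∀ l, σ (some l) (j (some l)) y ≠ 0 := fun l =>
      mt ((hD _).leq _ _ (k1.2 (some l))).mem.1 (k2 _)
    change _ = t (a, j) y * _
    rw [t2 _ y k1 k2, Fintype.prod_option, h0, mul_assoc, Nat.cast_zero, zpow_zero, one_mul,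
      ← Finset.prod_mul_distrib, Finset.prod_eq_one fun l _ => by
        rw [← zpow_add₀ (k3 l), add_neg_cancel, zpow_zero], mul_one]

end FpfX

open FpfX

/-- **FPF** -/
theorem fpf : FPF := by
  intro d T hT κ ι _ A m N H L L' C a Δ m' ι' U g Ω hA hH hp hL hL' e hG h0 hm hF
  refine ⟨2 * C * ∑ l, (-m l).toNat, fun k i n M s hM hc hs => ?_⟩
  obtain ⟨M₁, v, l1, c1, v1, v2⟩ := drop hG hM (w := fun o => n * (-m' o).toNat)
    (by simp [h0]) hs
  have hB : ∀ b, IsLB d (![H, L, L'] b) := fun b => by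
    fin_cases b
    exacts [hH, hL, hL']
  have l2 := lb_lin hB ![1, i * a, -i]
  obtain ⟨j, j0, hj⟩ := P285W.J.ScaleX.ex_bpf l2 (hT.kp _ _ l2 (by
    refine (congrArg _ ((hT.c1.lin _ _ _ hB).trans ?_)).mpr (hT.c1.pos _ _ hH hp)
    simp [Fin.sum_univ_three, e, smul_smul]))
  refine ⟨hs.hol, hs.chg, fun b z _ hb => ?_⟩
  obtain ⟨q, q1, q2⟩ := v2 b z hb
  obtain ⟨u, u1, u2⟩ := hj z
  obtain ⟨r, hr⟩ := l2.cover z
  have h1 := hF (j * (k + 1)) (j * (i * a)) (j * n * ∑ l, (-m' (some l)).toNat) _ _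
    (lb_mul (lb_pow l1 j) (lb_pow l2 j)) (by
      rw [cls_mul (lb_pow l1 j) (lb_pow l2 j), cls_pow l1, cls_pow l2, c1, hc, cls_lin hB,
        mul_smul, mul_smul j, ← smul_add, ← smul_add]
      refine congrArg _ ?_
      simp only [Fin.sum_univ_three, Matrix.cons_val_zero, Matrix.cons_val_one, Matrix.cons_val,
        ← Nat.cast_mul, natCast_zsmul, neg_smul, one_smul, succ_nsmul]
      abel)
    (((v1.pow continuous_id j).mul continuous_id
      (secP_of_sec (c := fun _ => 0) continuous_id u1 fun _ => le_rfl)).mono continuous_id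
      fun l => by
        rw [add_zero, ← Nat.cast_mul, Nat.cast_le, ← mul_assoc, mul_assoc (j * n)]
        refine Nat.mul_le_mul_left _ ?_
        by_cases h : m l < 0
        · exact (Finset.single_le_sum (f := fun l => (-m' (some l)).toNat)
            (fun _ _ => Nat.zero_le _) (Finset.mem_univ l)).trans
            (Nat.le_mul_of_pos_right _ (by omega))
        · have := mt (hm l).1 h
          omega)
  have h2 : BdP d id A.G (fun l => ((2 * C * (k + 1) * (-m l).toNat : ℕ) : ℝ)) (v q) z := by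
    refine BdP.of_pow j0 ((((h1.bdP (a := (q, r)) trivial ⟨q1, hr⟩).cmul
      ((sec_hol u1 hr).inv (u2 r hr)).cont).congr ?_).mono continuousAt_id fun l _ => ?_)
    · filter_upwards [(sec_hol u1 hr).ne_near (u2 r hr)] with y k1 _
      rw [mul_comm (v q y ^ j), inv_mul_cancel_left₀ k1]
    · rw [← Nat.cast_mul, Nat.cast_le, ← mul_assoc]
      refine Nat.mul_le_mul_right _ ?_
      have h : j * (k + 1) + 1 ≤ 2 * (j * (k + 1)) := by
        have : 0 < j * (k + 1) := Nat.mul_pos j0 k.succ_pos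
        omega
      exact (Nat.mul_le_mul_left C h).trans_eq (by ring)
  refine ((bdP_opt (G := fun o => o.elim Δ A.G) h2).congr q2).mono continuousAt_id fun o _ => ?_
  cases o with
  | none => exact Nat.cast_nonneg _
  | some l =>
    refine Nat.cast_le.2 ?_
    by_cases h : m l < 0
    · have h3 := Finset.single_le_sum (f := fun l => (-m l).toNat) (fun _ _ => Nat.zero_le _)
        (Finset.mem_univ l)
      have h4 := (hm l).2 h
      exact ((Nat.mul_le_mul_left _ h3).trans_eq (mul_right_comm _ _ _)).trans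
        (Nat.le_mul_of_pos_right _ (by omega))
    · rw [show (-m l).toNat = 0 by omega, mul_zero]
      exact Nat.zero_le _

end Vale.Agent.P270G
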