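import Vale.Agent.P270G.Defs
import Vale.Agent.P285S.Tp.Nfp
import Vale.Agent.P285N.Tp.Num
import Vale.Agent.P285W.Un.Sesh
import Vale.Agent.P285W.J.Cuts

/-!
# P270G: a semiample null adjoint class vanishes
-/

open Set Filter Function
open Vale.Agent.P272.K Vale.Agent.P285.H281.FD Vale.Agent.P281Z Vale.Agent.P280Z
open Vale.Agent.P277.HD (pull)
open Vale.Agent.P285N Vale.Agent.P285W Vale.Agent.P285W.J

noncomputable section

namespace Vale.Agent.P270G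

namespace FyH

/-- the contradiction on the surface -/
theorem fin (nt : NT) {T : CT} (hT : T.OK) {Z : Mf 3} {B W : Mf 2} {i : B.X → Z.X} {π : W.X → B.X}
    {S : Set B.X} (hi : HolM 2 3 i) (hπ : Modif 2 π S) [ConnectedSpace B.X] {l a : T.H Z} {c : ℝ}
    (hk : B.Kah) (nl : Nf T Z l) (ka : T.Kc Z a) (c0 : 0 < c)
    (bf : Bf T W (c • T.pull hπ.hol (T.pull hi l))) (ng : Neg 2 (i ⁻¹' Tr T Z l))
    (sq : T.int B (T.pull hi l ^ 2) = 0) : T.int B (T.pull hi (l * a)) = 0 := by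
  have hW : ConnectedSpace W.X := hπ.conn
  obtain ⟨ρ, hρ⟩ := fub hT inferInstance hk hπ.hol 1
  simp only [mul_one] at hρ
  have ρ0 : 0 < ρ := by
    obtain ⟨w, hw⟩ := (hT.po.kah B).1 hk
    obtain ⟨x, hx⟩ := hπ.thin_pre.2.nonempty
    have h2 := imm_pos hT hπ.hol (hπ.imm hx) hw
    rw [← map_pow, hρ _ (dg_pow hT (hT.po.deg hw) 2)] at h2
    exact (mul_pos_iff_of_pos_right (kc_pos hT hw)).1 h2
  have e : ∀ y, T.pull (hi.comp hπ.hol) y = T.pull hπ.hol (T.pull hi y) :=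
    hT.rg.pull_comp hπ.hol hi _ fun _ => rfl
  have d1 := dg_pull hT hi (nf_dg hT nl)
  have d2 := dg_pull hT hi (hT.po.deg ka)
  have h := nt T hT 3 Z l a nl (hT.po.deg ka) 2 1 W _ (hi.comp hπ.hol) _ rfl hW (hπ.pre_neg ng)
    (pow_one (c • T.pull hπ.hol (T.pull hi l)) ▸ mb_pow bf 1) (by
      rw [e, mul_smul_comm, ← map_mul, map_smul, hρ _ (dg_mul hT d1 d1), ← sq, pow_two, ← pow_two,
        sq, mul_zero, smul_zero])
  rw [e, mul_smul_comm, ← map_mul, map_smul, hρ _ (dg_mul hT d2 d1), smul_eq_mul] at h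
  rw [map_mul, mul_comm]
  exact (mul_eq_zero.1 ((mul_eq_zero.1 h).resolve_left c0.ne')).resolve_left ρ0.ne'

end FyH

theorem fy_nt (nt : NT) (f1 : FY1) (f2 : FY2) (s1 : SF1) (s2 : SF2) : FY := by
  intro T hT κ ι _ A m N L Λ ok klt ⟨r, hr, hb⟩ hL nL nu tr fb h0 hn
  by_contra hp
  have := ok.conn
  have r0 : (0 : ℝ) < r := Nat.cast_pos.2 hr
  have hc := hT.c1.pow A.Z _ r ok.lb
  have nl := Tp.NumH.nf_c1 hT hL ok.prj nL
  have h1 : T.int A.Z (T.c1 A.Z (A.P.pow r) * T.c1 A.Z L ^ 2) = 0 := by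
    rw [hc, smul_mul_assoc, map_smul, h0, smul_zero]
  obtain ⟨z1, z2, z3⟩ := f1 T hT A.Z _ _ ⟨ok.conn, ok.prj⟩ nl nu tr ⟨_, lb_pow ok.lb r, hb, rfl⟩
    (hc ▸ smul_ne_zero r0.ne' hp) h1
  obtain ⟨H, hH, pH, D, τ, hD, eD, hτ, x₀, hx⟩ := fb.big
  have ka := hT.c1.pos A.Z H hH pH
  obtain ⟨κ', ι', _, B, m', N', i, hi, cw, im, ng, ps, le, nn⟩ := f2 T hT κ ι A m N r
    (Tr T A.Z (T.c1 A.Z L) ∪ {x | ¬ NZ D τ x}) _ ok klt hr hb z1 (tr.union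
      ((Un.an_z hD hτ).thin fun k => (k ▸ mem_univ x₀ : x₀ ∈ {x | ¬ NZ D τ x}) hx).neg) (z2 _ ka)
  have := cw.ok.conn
  have e1 := hT.c1.pull hi L hL
  have sq : T.int B.Z (T.pull hi (T.c1 A.Z L) ^ 2) = 0 := le_antisymm
    (by simpa only [map_pow, h1] using le _ (nl.mn.pow 2)) (mn_int hT ((nf_pull hT hi nl).mn.pow 2))
  obtain ⟨y, hy⟩ := ng.dense.nonempty
  have S : S2 T B m' N' (pull i L) (pull i Λ) := by
    refine ⟨cw, hi.lb hL, P285S.Tp.nf_comp hi ok.prj hL nL, e1 ▸ sq, ⟨hi.lb fb.lb,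
      Un.bpf_pull hi fb.bpf, pull i H, hi.lb hH, hT.kp _ _ (hi.lb hH)
        (hT.c1.pull hi H hH ▸ kc_pull hT hi im ka), pull i D, _, hi.lb hD, ?_, hi.sec hτ, y,
      not_not.1 fun k => hy (Or.inr k)⟩, fun k hk => ?_⟩
    · rw [cls_pull hi hD, eD, map_sub, cls_pull hi fb.lb, cls_pull hi hH]
    obtain ⟨j, hj, h2⟩ := nn k hk
    rw [e1, hT.c1.pull hi Λ fb.lb]
    refine ⟨h2 _ (bf_nf hT ⟨Λ, fb.lb, fb.bpf, rfl⟩) fun O σ hO => ?_,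
      h2 _ nl fun O σ hO => z3 _ (hT.tp.c1 _ _ hO.lb) (hT.c1.deg _ _) ((hn j hj).1 O σ hO)⟩
    rw [hc, smul_mul_assoc, mul_smul_comm, map_smul, mul_comm (T.c1 A.Z A.P), (hn j hj).2 O σ hO,
      smul_zero]
  obtain ⟨a, a0, ha⟩ := s1 T hT _ _ B m' N' _ _ S
  obtain ⟨W, π, S', hπ, c, -, c0, bf⟩ := s2 T hT _ _ B m' N' _ _ a S a0 ha
  exact ps.ne' (FyH.fin nt hT hi hπ cw.ok.prj.kah nl ka c0 (e1 ▸ bf)
    (ng.mono fun _ h => Or.inl h) sq)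

end Vale.Agent.P270G
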