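import Vale.Agent.P270G.Defs
import Vale.Agent.P285S.E3.Hil
import Vale.Agent.P285S.Sf.Ker
import Vale.Agent.P285W.Ct.All

/-!
# P270G, rows FY1 and NUQ: null classes for a nef class of numerical dimension two
-/

open Vale.Agent.P272.K Vale.Agent.P281Z Vale.Agent.P280Z
open Vale.Agent.P285W.J Vale.Agent.P285W.Bs
open Vale.Agent.P285S.B2 (Zr Nu zr_of)
open Vale.Agent.P285S (Sf.KER E3.HIL)

noncomputable section

namespace Vale.Agent.P270G

namespace Fy1

variable {T : CT} (hT : T.OK) {Z : Mf 3} {l g x p : T.H Z}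
include hT

theorem zr (hg : T.Kc Z g) (hx : Mn T Z x) (hd : T.Dg Z 2 x) (h : T.int Z (x * g) = 0) :
    Zr T Z x := by
  simpa using zr_of hT (e := 1) (j := 1) hg (fun y hy => by simpa using mn_int hT hy) hx
    (by simpa using hd) rfl (by simpa using h)

theorem pos (hl : Nf T Z l) (hn : Nu T Z l 2) (hg : T.Kc Z g) : 0 < T.int Z (l * g * l) :=
  (mn_int hT ((hl.mn.mul (kc_nf hT hg).mn).mul hl.mn)).lt_of_ne' fun k =>
    hn.1 (zr hT hg (hl.mn.pow 2) (dg_pow hT (nf_dg hT hl) 2) (by rw [← k]; congr 1; ring))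

omit hT in
theorem cube (hn : Nu T Z l 2) : T.int Z (l * l * l) = 0 := by
  rw [← hn.2 1 mn_one]
  congr 1
  ring

theorem sq (hK : Sf.KER) (hZ : Cp Z) (hl : Nf T Z l) (hn : Nu T Z l 2) (hg : T.Kc Z g)
    (hp : Nf T Z p) (h : T.int Z (p * l * l) = 0) : T.int Z (p * p * l) = 0 :=
  ((mn_int hT ((hp.mn.mul hp.mn).mul hl.mn)).eq_or_lt.resolve_right fun k =>
    (pos hT hl hn hg).ne' (hK T hT Z l p l g hZ hl hp (nf_ty hT hl) (nf_dg hT hl)
      (nf_ty hT (kc_nf hT hg)) (hT.po.deg hg) k h (cube hn))).symm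

end Fy1

open Fy1

theorem fy1_of (hK : Sf.KER) (hH : E3.HIL) : FY1 := by
  intro T hT Z l h hZ hl hn ht hb h0 h1
  obtain ⟨-, g, hg, bg⟩ := negl.kah 3 Z hZ.prj T hT
  have := hZ.conn
  have hh := bf_nf hT hb
  have ng := kc_nf hT hg
  have nt : ∀ b, Mb T Z 2 b → T.int Z (l * b) = 0 → T.int Z (g * b) = 0 := fun b k k' => by
    have := nt_of P285W.Ct.cuts T hT 3 Z l g hl (hT.po.deg hg) 3 2 Z _ holM_id b rfl hZ.conn ht k
      (by rwa [hT.rg.pull_id])
    rwa [hT.rg.pull_id] at this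
  have h2 : T.int Z (h * l * l) = 0 := by rw [← h1]; congr 1; ring
  have h3 := sq hT hK hZ hl hn hg hh h2
  refine ⟨zr hT hg (hh.mn.pow 2) (dg_pow hT (nf_dg hT hh) 2) ?_, fun w hw => ?_,
    fun y y1 y2 y3 => ?_⟩
  · rw [mul_comm]
    exact nt _ (mb_pow hb 2) (by rw [← h3]; congr 1; ring)
  · refine (mn_int hT (hh.mn.mul (hl.mn.mul (kc_nf hT hw).mn))).lt_of_ne' fun k => h0 ?_
    have k1 := dom1 hT (le_kc hT hw ng) ng (hh.mn.mul hl.mn) (by rw [← k]; congr 1; ring)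
    have k2 := nt _ ((mb_pow hb 1).mul (mb_pow bg 1)) (by rw [← k1]; congr 1; ring)
    exact hod hT (d := 1) hZ.conn hg (nf_ty hT hh) (nf_dg hT hh) (by rw [← k2]; congr 1; ring)
      (mn_int hT ((hh.mn.mul hh.mn).mul (ng.mn.pow 1)))
  · have k := hH T hT 1 Z l l h y g hZ hl ⟨nf_ty hT hl, nf_dg hT hl⟩ ⟨nf_ty hT hh, nf_dg hT hh⟩
      ⟨y1, y2⟩ ⟨nf_ty hT ng, nf_dg hT ng⟩ (by rw [pow_one]; exact cube hn)
      (by rw [pow_one, mul_comm l h]; exact h2) (by rw [pow_one]; exact h3)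
    rw [pow_one, show l * y * l = y * l ^ 2 by ring, y3, zero_mul] at k
    rw [← (mul_eq_zero.1 k.symm).resolve_left (pos hT hl hn hg).ne']
    congr 1
    ring

theorem nuq_of (hK : Sf.KER) : NUQ := by
  intro T hT Z l e δ hZ hl hn hδ he h1 hp
  obtain ⟨hk, g, hg, -⟩ := negl.kah 3 Z hZ.prj T hT
  have := hZ.conn
  have ng := kc_nf hT hg
  have ex : ∀ y, T.int Z ((δ • l + e) * y) = δ * T.int Z (l * y) + T.int Z (e * y) := fun y => by
    rw [add_mul, smul_mul_assoc, map_add, map_smul, smul_eq_mul]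
  generalize δ • l + e = p at hp ex ⊢
  have h2 : T.int Z (p * l * l) = 0 := by
    rw [mul_assoc, ex, ← mul_assoc, cube hn, ← pow_two, h1, mul_zero, add_zero]
  have h3 := sq hT hK hZ hl hn hg hp h2
  have h4 : 0 < T.int Z (l * g * p) := by
    rw [mul_comm, ex, mul_comm l]
    exact add_pos_of_pos_of_nonneg (mul_pos hδ (pos hT hl hn hg))
      (ef_int hT he (hl.mn.mul ng.mn))
  have h5 : T.int Z (p * p * p) = 0 :=
    ((mn_int hT ((hp.mn.mul hp.mn).mul hp.mn)).eq_or_lt.resolve_right fun k =>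
      h4.ne' (hK T hT Z p p l g hZ hp hp (nf_ty hT hl) (nf_dg hT hl) (nf_ty hT ng) (hT.po.deg hg)
        k (by rw [← h3]; congr 1; ring) (by rw [← h2]; congr 1; ring))).symm
  refine ⟨fun k => ?_, fun y _ => ?_⟩
  · have k1 := k g ng.mn
    rw [pow_two, mul_assoc, ex, mul_comm p g, ← mul_assoc] at k1
    exact (add_pos_of_pos_of_nonneg (mul_pos hδ h4) (ef_int hT he (ng.mn.mul hp.mn))).ne' k1
  · rw [top hT inferInstance hk (dg_pow hT (nf_dg hT hp) 3) (by rw [← h5]; congr 1; ring),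
      zero_mul, map_zero]

theorem fy1 : FY1 := fy1_of P285S.Sf.ker P285S.E3.hil

theorem nuq : NUQ := nuq_of P285S.Sf.ker

end Vale.Agent.P270G
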