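import Vale.Agent.P270G.Defs
import Vale.Agent.P285S.Mm.Ref
import Vale.Agent.P285S.Mm.Mkpr
import Vale.Agent.P285N.G.Str
import Vale.Agent.P285N.Xc.Piso
import Vale.Agent.P285W.J.KodA
import Vale.Agent.P285W.J.Nb
import Vale.Agent.P280Z.Ld.Iso
import Vale.Agent.P281Z.Sc.Ord

/-!
# P270G: row FY2, a component of a general member
-/

open scoped Manifold ContDiff Topology
open Set Filter Function
open Vale.Agent.P272.K Vale.Agent.P285.H281.FD Vale.Agent.P281Z Vale.Agent.P280Z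
open Vale.Agent.P277Z.Slc (IsDiv Snc lin)
open Vale.Agent.P277Z.GH.Of (Cmp exists_cmp)
open Vale.Agent.P277.HD (pull)
open Vale.Agent.P285N Vale.Agent.P285W.J
open Vale.Agent.P285S.B2 (Zr)
open Vale.Agent.P285S.Mm (mkpr)
open Vale.Agent.P285S.Mm.RefH (cls_par sum_par)

noncomputable section

namespace Vale.Agent.P270G

namespace Fy2H

variable {d : ℕ} {κ ι : Type}

theorem nz {Z : Mf d} {G : Set Z.X} {O : Bd Z.X} {σ : O.ι → Z.X → ℂ} (h : IsDiv d G O σ)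
    (x : Z.X) : NZ O σ x ↔ x ∉ G :=
  ⟨fun k hx => (h.lb.cover x).elim fun a ha => k a ha ((h.leq a x ha).mem.2 hx),
    fun k a ha e => k ((h.leq a x ha).mem.1 e)⟩

theorem ef {T : CT} {Z : Mf d} {G : Set Z.X} {O : Bd Z.X} {σ : O.ι → Z.X → ℂ}
    (h : IsDiv d G O σ) : Ef T Z (T.c1 Z O) :=
  ⟨O, σ, h.lb, h.sec, (P277Z.Slc.Dv.dense_compl h.ex).mono fun x k => (nz h x).2 k, rfl⟩

theorem cmp [Fintype κ] {Z : Mf d} {G : κ → Set Z.X} (h : Snc d G) :
    ∃ (p : ℕ) (G' : Fin p → Set Z.X) (par : Fin p → κ) (O : Fin p → Bd Z.X)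
      (σ : ∀ j, (O j).ι → Z.X → ℂ), Cmp G G' par ∧ Snc d G' ∧ ∀ j, IsDiv d (G' j) (O j) (σ j) := by
  have hs := P277Z.Cls.isSnc_of h
  obtain ⟨p, G', par, k⟩ := exists_cmp hs
  have hs' := P277Z.Slc.snc_of_isSnc (k.snc hs)
  obtain ⟨O, σ, hO⟩ := (Hyp.of_snc hs').exists_div
  exact ⟨p, G', par, O, σ, k, hs', hO⟩

theorem conn [Fintype κ] {B : Pr d κ ι} {m : κ → ℤ} {N : ℕ} (h : B.Ok m N) :
    ∃ (p : ℕ) (G' : Fin p → Set B.Z.X) (par : Fin p → κ), Cmp B.G G' par ∧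
      ∃ Ω, (⟨B.Z, G', B.U, B.g, Ω⟩ : Pr d (Fin p) ι).Ok (fun j => m (par j)) N := by
  obtain ⟨p, G', par, O', σ', k, hs, hO'⟩ := cmp h.snc
  obtain ⟨O, σ, hO⟩ := (Hyp.of_snc h.snc).exists_div
  exact ⟨p, G', par, k, mkpr d (Fin p) B.Z G' O' σ' B.P _ N h.conn h.prj hs hO' h.lb h.pos h.even
    (fun j => h.le _) (by rw [Xc.cls_eq d κ ι m N B O σ h hO, sum_par k hO hO'])⟩

theorem stratum [Fintype κ] {A : Pr (d + 1) κ ι} {m : κ → ℤ} {N : ℕ} (h : A.Ok m N) {j : κ}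
    (hm : m j = N) (hc : IsConnected (A.G j)) {O : Bd A.Z.X} {σ : O.ι → A.Z.X → ℂ}
    (hO : IsDiv (d + 1) (A.G j) O σ) : ∃ (B : Pr d κ ι) (i : B.Z.X → A.Z.X), B.Ok m N ∧
      Str m N A B i {j} ∧ range i = A.G j ∧ Cut O σ i ∧ B.G j = ∅ ∧
      ∀ k, k ≠ j → B.G k = i ⁻¹' A.G k := by
  classical
  obtain ⟨x, hx⟩ := hc.nonempty
  obtain ⟨d', B, i, hB, hS, hR⟩ := P285N.str _ κ ι m N A {j} x h fun k hk => by
    rw [Finset.mem_singleton.1 hk]
    exact ⟨hm, hx⟩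
  obtain rfl : d' = d := by
    have := hS.dim
    rw [Finset.card_singleton] at this
    omega
  have e1 : {z | ∀ k ∈ ({j} : Finset κ), z ∈ A.G k} = A.G j := by simp
  rw [e1, hc.isPreconnected.connectedComponentIn hx] at hR
  have e2 : {x | ¬ NZ O σ x} = range i := by
    rw [hR]
    exact Set.ext fun x => (nz hO x).not.trans not_not
  refine ⟨B, i, hB, hS, hR, ⟨rfl, hO.lb, hO.sec, e2 ▸ hS.emb, fun z a ha e he => ?_⟩, ?_,
    fun k hk => ?_⟩
  · have q := hO.leq a _ ha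
    exact (q.2 e he).2 (q.mem.2 (hR ▸ mem_range_self z))
  · rw [hS.G j, if_pos (Finset.mem_singleton_self j)]
  · rw [hS.G k, if_neg (mt Finset.mem_singleton.1 hk)]

theorem triv {T : CT} (hT : T.OK) {Z : Mf (d + 1)} (hc : ConnectedSpace Z.X) {w : T.H Z}
    (hw : T.Kc Z w) {W : Bd Z.X} (hW : IsLB (d + 1) W) (hb : Bpf (d + 1) W) (h0 : T.c1 Z W = 0) :
    cls (d + 1) W = 0 := by
  obtain ⟨x⟩ := hc.toNonempty
  obtain ⟨s, h1, h2⟩ := hb x
  obtain ⟨a, ha⟩ := hW.cover x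
  exact cls_sec hW h1 (ef_nz hT hW h1 (KodA.dense_nz hW h1 ha (h2 a ha)) d.succ_pos hw h0)

end Fy2H

open Fy2H in
/-- **FY2** -/
theorem fy2_of (hB : BERN) (hZ : ZNL) (hG : GEN) : FY2 := by
  intro T hT κ ι _ A m N r S z hA hm hr hW hq hS hz
  classical
  have lW := lb_pow hA.lb r
  obtain ⟨Δ, σΔ, hΔ, hs, hN⟩ := hB 2 A.Z _ κ A.G S lW hW hA.snc hS
  obtain ⟨p, G', par, O', σ', hc, hs', hO'⟩ := cmp hs
  obtain ⟨O, σ, hO⟩ := (Hyp.of_snc hA.snc).exists_div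
  obtain ⟨O₀, σ₀, hO₀, e1, e2⟩ : ∃ (O₀ : Option κ → Bd A.Z.X) (σ₀ : ∀ o, (O₀ o).ι → A.Z.X → ℂ),
      (∀ o, IsDiv 3 (o.elim Δ A.G) (O₀ o) (σ₀ o)) ∧ O₀ none = A.P.pow r ∧ ∀ l, O₀ (some l) = O l :=
    ⟨fun o => o.elim _ O, fun o => Option.rec σΔ σ o, fun o => Option.rec hΔ hO o, rfl,
      fun _ => rfl⟩
  have lP := lb_pow lW (1 + r * N)
  obtain ⟨Ω, hΩ⟩ := mkpr 3 (Fin p) A.Z G' O' σ' _
    (fun j => (par j).elim ((r * N : ℕ) : ℤ) fun l => r * m l) (r * N) hA.conn hA.prj hs' hO' lP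
    (mul_pos hr hA.pos) (hA.even.mul_left r) (fun j => by
      rcases par j with _ | l
      · exact le_rfl
      · exact (mul_le_mul_of_nonneg_left (hA.le l) (Int.natCast_nonneg r)).trans_eq
          (Nat.cast_mul r N).symm) (by
      rw [← sum_par hc hO₀ hO' fun o => o.elim ((r * N : ℕ) : ℤ) fun l => r * m l,
        Fintype.sum_option, cls_pow lW]
      simp only [Option.elim, e1, e2, mul_smul, natCast_zsmul, ← Finset.smul_sum]
      rw [add_smul, one_smul, add_left_comm, ← smul_add, ← Xc.cls_eq 3 κ ι m N A O σ hA hO,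
        ← cls_pow hA.lb, mul_smul, add_comm])
  have c1 : ∀ b, T.int A.Z (T.c1 A.Z (A.P.pow r) * b) =
      ∑ j, if par j = none then T.int A.Z (T.c1 A.Z (O' j) * b) else 0 := fun b => by
    have l1 := lb_lin (fun j => (hO' j).lb) fun j => if par j = none then 1 else 0
    obtain ⟨t, ht⟩ := (cls_eq lW l1).1 (by
      rw [cls_lin fun j => (hO' j).lb, ← e1]
      refine (cls_par hc hO₀ hO' none).trans (Finset.sum_congr rfl fun j _ => ?_)
      split_ifs <;> rfl)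
    rw [(Ld.iso _ _ _ t lW l1 ht).1 T hT.c1, hT.c1.lin _ _ _ fun j => (hO' j).lb, Finset.sum_mul,
      map_sum]
    refine Finset.sum_congr rfl fun j _ => ?_
    split_ifs <;> simp
  have c2 : ∀ b, (∀ j, par j = none → 0 ≤ T.int A.Z (T.c1 A.Z (O' j) * b)) → ∀ j, par j = none →
      T.int A.Z (T.c1 A.Z (O' j) * b) ≤ T.int A.Z (T.c1 A.Z (A.P.pow r) * b) := fun b h j hj => by
    rw [c1, ← if_pos hj (t := T.int A.Z (T.c1 A.Z (O' j) * b)) (e := 0)]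
    refine Finset.single_le_sum (f := fun j => if par j = none then
      T.int A.Z (T.c1 A.Z (O' j) * b) else 0) (fun k _ => ?_) (Finset.mem_univ j)
    split_ifs with hk
    exacts [h k hk, le_rfl]
  have c3 : ∀ b, Mn T A.Z b → ∀ j, par j = none →
      T.int A.Z (T.c1 A.Z (O' j) * b) ≤ T.int A.Z (T.c1 A.Z (A.P.pow r) * b) := fun b h =>
    c2 b fun j _ => ef_int hT (ef (hO' j)) h
  have st := fun j (hj : par j = none) => stratum hΩ (j := j) (by rw [hj]; rfl) (hc.conn j) (hO' j)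
  choose B i b1 b2 b3 b4 b5 b6 using st
  have o1 : ∀ j hj l, ∀ x ∈ off (B j hj).G, NZ (O l) (σ l) (i j hj x) := fun j hj l x hx =>
    (nz (hO l) _).2 fun k => by
      obtain ⟨j', k1, k2⟩ := hc.ex (some l) _ k
      refine hx j' ?_
      rw [b6 j hj j' fun e => by simp [e, hj] at k1]
      exact k2
  have c4 : ∀ l y, Nf T A.Z y → ∀ j, par j = none →
      0 ≤ T.int A.Z (T.c1 A.Z (O' j) * (T.c1 A.Z (O l) * y)) := fun l y hy j hj => by
    have hi := (b4 j hj).emb.hol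
    rw [hT.pl (b4 j hj), map_mul]
    exact ef_int hT ⟨_, _, hi.lb (hO l).lb, hi.sec (hO l).sec,
      (Hyp.of_snc (b1 j hj).snc).dense.mono (o1 j hj l), hT.c1.pull hi _ (hO l).lb⟩
      (nf_pull hT hi hy).mn
  obtain ⟨j, hj, hz⟩ : ∃ j, par j = none ∧ 0 < T.int A.Z (T.c1 A.Z (O' j) * z) := by
    by_contra! k
    refine hz.not_ge ((c1 z).trans_le (Finset.sum_nonpos fun j _ => ?_))
    split_ifs with hj
    exacts [k j hj, le_rfl]
  have pl := hT.pl (b4 j hj)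
  have hi := (b4 j hj).emb.hol
  have im := (b4 j hj).emb.imm
  obtain ⟨q, G'', pr, hc', Ω', hΩ'⟩ := conn (b1 j hj)
  have pp : ∀ k, ∃ l, par (pr k) = some l ∧ ∀ x ∈ G'' k, i j hj x ∈ A.G l := fun k => by
    have ne : pr k ≠ j := fun e => by
      obtain ⟨x, hx⟩ := (hc'.conn k).nonempty
      have := hc'.sub k hx
      rw [e, b5] at this
      exact this
    have k1 : ∀ x ∈ G'' k, i j hj x ∈ G' (pr k) := fun x hx => by
      have := hc'.sub k hx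
      rwa [b6 j hj _ ne] at this
    rcases e : par (pr k) with _ | l
    · obtain ⟨x, hx⟩ := (hc'.conn k).nonempty
      exact absurd (hc.uniq _ _ _ (e.trans hj.symm) (k1 x hx)
        ((b3 j hj).le (mem_range_self x))) ne
    · exact ⟨l, rfl, fun x hx => by
        have := hc.sub _ (k1 x hx)
        rwa [e] at this⟩
  have nh : Nf T A.Z (T.c1 A.Z (A.P.pow r)) := bf_nf hT ⟨_, lW, hW, rfl⟩
  have tor : cls 2 (pull (i j hj) (A.P.pow r)) = 0 := by
    obtain ⟨H, h1, h2⟩ := hA.prj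
    have k1 := hT.c1.pos _ H h1 h2
    have k2 := kc_pull hT hi im k1
    have k3 := nf_pull hT hi nh
    refine triv hT (b1 j hj).conn k2 (hi.lb lW)
      (fun x => (hW _).elim fun _ k => ⟨_, hi.sec k.1, k.2⟩) ?_
    rw [hT.c1.pull hi _ lW]
    refine hod (d := 0) hT (b1 j hj).conn k2 (nf_ty hT k3) (nf_dg hT k3) ?_
      (mn_int hT ((k3.mn.mul k3.mn).mul ((kc_nf hT k2).mn.pow 0)))
    refine le_antisymm ?_ (mn_int hT (k3.mn.mul ((kc_nf hT k2).mn.pow _)))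
    rw [zero_add 1, pow_one, ← map_mul, ← pl, ← hq _ (kc_nf hT k1).mn, sq, mul_assoc]
    exact c3 _ (nh.mn.mul (kc_nf hT k1).mn) j hj
  have cw : Cw (⟨(B j hj).Z, G'', (B j hj).U, (B j hj).g, Ω'⟩ : Pr 2 (Fin q) ι) _ (r * N) :=
    ⟨hΩ', fun k => by
      obtain ⟨l, e, -⟩ := pp k
      rw [e, Nat.cast_mul]
      exact mul_lt_mul_of_pos_left (hm l) (Int.natCast_pos.2 hr), hc'.conn, 1, one_pos, by
      rw [one_smul]
      refine (congrArg (cls 2) (Xc.Str.P_eq (b2 j hj))).trans ((cls_pull hi lP).trans ?_)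
      rw [cls_pow lW, map_nsmul, ← cls_pull hi lW, tor, smul_zero]⟩
  refine ⟨Fin q, ι, inferInstance, _, _, _, i j hj, hi, cw, im,
    hN _ _ (b2 j hj).emb ((b3 j hj).le.trans fun x hx => ?_), pl z ▸ hz,
    fun y hy => pl y ▸ c3 y hy j hj, fun k hk => ?_⟩
  · have := hc.sub j hx
    rwa [hj] at this
  · obtain ⟨l, e, k1⟩ := pp k
    rw [e] at hk
    refine ⟨l, neg_of_mul_neg_right hk (Int.natCast_nonneg r), fun y hy h0 => ?_⟩
    obtain ⟨x, x1, x2⟩ := hG 2 _ _ G'' k hΩ'.snc (hc'.conn k).nonempty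
    obtain ⟨k', k2, k3⟩ := hZ 2 T hT _ _ _ _ _ _ _ _ cw (hi.lb (hO l).lb) (hi.sec (hO l).sec)
      (fun x hx => o1 j hj l x fun j' a => (hc'.ex j' x a).elim fun k' b => hx k' b.2)
      (nf_pull hT hi hy).mn (by
        rw [hT.c1.pull hi _ (hO l).lb, ← map_mul, ← pl]
        refine le_antisymm ((c2 _ (c4 l y hy) j hj).trans_eq ?_) (c4 l y hy j hj)
        rw [mul_left_comm]
        exact h0 _ _ (hO l)) x fun a => (nz (hO l) _).1 a (k1 x x1)
    by_cases e' : k' = k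
    · exact e' ▸ k2
    · exact absurd k3 (x2 k' e')

end Vale.Agent.P270G
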