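import Vale.Agent.P270G.Defs
import Vale.Agent.P285N.Tp.Lrk2
import Vale.Agent.P285N.Tp.Nef2
import Vale.Agent.P285S.Mm.Ref
import Vale.Agent.P285S.Mm.Mkpr
import Vale.Agent.P285S.Ca.Efa
import Vale.Agent.P281Z.Lf.Bert
import Vale.Agent.P280Z.Ld.Iso

/-!
# P270G: an effective good pair in the class of a multiple of `L` (row GDF)
-/

open scoped Manifold ContDiff Topology
open Set Filter Function
open Vale.Agent.P272.K Vale.Agent.P285.H281.FD Vale.Agent.P281Z Vale.Agent.P280Z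
open Vale.Agent.P277Z.Slc (IsDiv Snc lin)
open Vale.Agent.P277.HD (pull)
open Vale.Agent.P285N Vale.Agent.P285N.Tp
open Vale.Agent.P285S.Ca

noncomputable section

namespace Vale.Agent.P270G

namespace GdfH

variable {n : ℕ} {V : Mf n} {L M : Bd V.X}

theorem nz {s : L.ι → V.X → ℂ} (hL : IsLB n L) (hs : IsSec n L s) (h : P285Z.St.NonZero L s) :
    ∃ x, NZ L s x :=
  let ⟨_, x, h1, h2⟩ := h
  ⟨x, (nz_iff hL (fun a b => hs.change a b x) h1).2 h2⟩

theorem eff (hL : IsLB n L) {k : ℕ} (hk : 0 < k) (h : P285S.Ef V (k • cls n L)) : Eff n L := by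
  obtain ⟨D, s, h1, h2, h3, x, h4⟩ := h
  obtain ⟨t, ht⟩ := (cls_eq (lb_pow hL k) h1).1 ((cls_pow hL k).trans h2.symm)
  obtain ⟨a, ha⟩ := hL.cover x
  exact ⟨k, hk, _, ht.sec (lb_pow hL k) h1 h3, a, x, ha, ht.nz h1 h4 a ha⟩

theorem c1_cls {T : CT} (hT : T.OK) (hL : IsLB n L) (hM : IsLB n M) (h : cls n L = cls n M) :
    T.c1 V L = T.c1 V M :=
  let ⟨t, ht⟩ := (cls_eq hL hM).1 h
  (Ld.iso V _ _ t hL hM ht).1 T hT.c1

end GdfH

open GdfH in
/-- row GDF -/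
theorem gdf_of (hR : RGQ) (hF : FPF) : GDF := by
  intro n T hT V Q D t q C M h ⟨V', e, S, he, _, pV', ⟨D₀, η, d1, d2, d3, rfl⟩, hK⟩
  have hQ := h.ok
  have := hQ.conn
  have := he.conn
  have K := h.sub
  have hL := hQ.bir.res.lbL
  have hC := (he.thin.union (EfH.thin_nz K.div.lb K.div.sec (nz K.div.lb K.div.sec K.div.nz))).union
    (EfH.thin_nz hQ.bir.res.lbE hQ.bir.res.secE (nz hQ.bir.res.lbE hQ.bir.res.secE hQ.bir.res.nzE))
  have hZ := (he.pre_thin hC).union (EfH.thin_nz d1 d2 d3.nonempty)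
  obtain ⟨I, hI, -⟩ := Rs.idl n V' _ hZ.1
  rw [← hI] at hZ
  obtain ⟨R⟩ := Rs.res n n V' univ I an_univ
    (subM_open (by rw [← compl_eq_univ_sdiff]; exact hZ.closed.isOpen_compl))
  have h1 : Modif n R.π _ := ⟨hZ, R.ovr⟩
  have hM := he.comp rem h1
  have ho : ∀ y ∈ off R.G, R.π y ∉ I.Z := fun y hy k => ((R.bad y).1 k).elim hy
  have pY := R.prj pV'
  have cY := hM.conn
  obtain ⟨m, Ω, k1, k2⟩ := Lr.core hQ K hM pY R.snc R.conn
    (fun y hy => .comp (he.hol.at _) (h1.hol.at _)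
      (he.imm fun c => ho y hy (hI ▸ .inl (.inl (.inl c)))) (h1.imm (ho y hy)))
    (fun y hy => not_not.1 fun c => ho y hy (hI ▸ .inl (.inr c)))
    fun y hy => not_not.1 fun c => ho y hy (hI ▸ .inl (.inl (.inr c)))
  have lD := h1.hol.lb d1
  have sD := h1.hol.sec d2
  obtain ⟨f, hf⟩ := ordu n R.V _ R.G _ _ R.snc R.conn lD sD
    fun y hy => not_not.1 fun c => ho y hy (hI ▸ .inr c)
  obtain ⟨a, r, _, j1, ⟨W, w1, w2, rfl⟩, j2⟩ := hK (2 * ∑ l, f l)
  have j3 : ∀ l, 2 * (r * f l : ℤ) < a := fun l => by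
    have := Nat.mul_le_mul_right r (Finset.single_le_sum (f := f) (fun _ _ => Nat.zero_le _)
      (Finset.mem_univ l))
    zify at this j1
    nlinarith
  have a0 : 0 < a := by omega
  have lW := h1.hol.lb w1
  obtain ⟨Δ, δ, b1, b2⟩ := Lf.bertini R.V lW
    (fun x => (w2 (R.π x)).elim fun _ k => ⟨_, h1.hol.sec k.1, k.2⟩) R.snc
  have hy := Hyp.of_snc R.snc
  obtain ⟨O, σ, hO⟩ := hy.exists_div
  have lO := fun l => (hO l).lb
  have c1 : cls n (pull R.π D₀) = ∑ l, (f l : ℤ) • cls n (O l) :=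
    (P285S.Mm.RefH.cls_unit hy.dense lD (lb_lin lO _) sD (sec_mon (fun l => (hO l).sec) f)
      (fun _ _ hb k => mon_ne hO f hb fun l _ => k l)
      fun a b x ha hb => hf a x ha _ fun l => (hO l).leq _ x (hb l)).trans (cls_lin lO _)
  have lC := hM.hol.lb K.lb
  have c2 := (cls_pow lC 2).symm.trans (Xc.cls_eq n _ _ m _ _ O σ k1.ok hO)
  have l1 := lb_mul (lb_mul (lb_pow lC a) lW) (lb_pow lD r)
  have lP := lb_pow l1 2
  have c3 := cls_pow l1 2
  rw [cls_mul (lb_mul (lb_pow lC a) lW) (lb_pow lD r), cls_mul (lb_pow lC a) lW, cls_pow lC,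
    cls_pow lD] at c3
  have c4 := hT.c1.pow _ _ 2 l1
  rw [hT.c1.mul _ _ _ (lb_mul (lb_pow lC a) lW) (lb_pow lD r), hT.c1.mul _ _ _ (lb_pow lC a) lW,
    hT.c1.pow _ _ _ lC, hT.c1.pow _ _ _ lD, hT.c1.pull hM.hol C K.lb, hT.c1.pull h1.hol W w1,
    hT.c1.pull h1.hol D₀ d1] at c4
  generalize ((((pull (fun x => e (R.π x)) C).pow a).mul (pull R.π W)).mul
    ((pull R.π D₀).pow r)).pow 2 = P at lP c3 c4
  have c5 : T.c1 R.V P = ((4 * a : ℕ) : ℝ) • T.pull hM.hol (T.c1 V Q.L) := by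
    obtain ⟨u, u1, u2⟩ := h.iso
    have i1 := (Ld.iso V _ _ u hL (lb_mul K.lb h.lb) ⟨fun a b x ha hb e he =>
      (u1 a b e x he ha hb).1.analyticAt, fun a b x ha hb =>
        (u1 a b _ x (P277Z.at_chart x) ha hb).2, u2⟩).1 T hT.c1
    rw [hT.c1.mul _ _ _ K.lb h.lb] at i1
    have i2 := congrArg (T.pull h1.hol) j2
    rw [map_smul, ← hT.rg.pull_comp h1.hol he.hol hM.hol fun _ => rfl, map_add, map_add,
      map_smul] at i2
    have i3 := congrArg (T.pull hM.hol) i1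
    rw [map_add] at i3
    rw [c4, add_assoc, ← i2, i3]
    push_cast
    module
  have hq := K.one
  obtain ⟨Ω', ok⟩ := P285S.Mm.mkpr n (Option (Fin R.r)) R.V (fun o => o.elim Δ R.G)
    (fun o => o.elim (pull R.π W) O) (fun o => Option.rec δ σ o) P
    (fun o => o.elim 2 fun l => a * m l + 2 * (r * f l)) (a * (2 * q)) cY pY b2
    (fun o => Option.rec b1 hO o) lP (by positivity) ((even_two_mul q).mul_left a)
    (fun o => by
      cases o with
      | none =>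
        show (2 : ℤ) ≤ _
        push_cast
        nlinarith
      | some l =>
        have := k2 l
        have := j3 l
        show a * m l + 2 * (r * f l : ℤ) ≤ _
        push_cast at *
        nlinarith) (by
      rw [c3, smul_add, smul_add, smul_comm 2 a, c2, c1, Fintype.sum_option]
      simp only [Option.elim, add_smul, mul_smul, Finset.sum_add_distrib, ← Finset.smul_sum]
      module)
  obtain ⟨H, c, lH, pH, hp⟩ := hR n V Q C _ _ hQ k1
  have lL := hM.hol.lb hL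
  have c6 := c5.trans (congrArg _ (hT.c1.pull hM.hol Q.L hL).symm)
  obtain ⟨c', hp'⟩ := hF n T hT _ _ _ m _ H _ P c (4 * a) Δ
    (fun o => o.elim 2 fun l => a * m l + 2 * (r * f l)) _ P.U P.g Ω' k1.ok lH pH lL lP c6 b2
    zero_le_two (fun l => by
      have := j3 l
      have : (0 : ℤ) ≤ r * f l := by positivity
      show a * m l + 2 * (r * f l : ℤ) < 0 ↔ _
      constructor <;> intro k <;> nlinarith) hp
  obtain ⟨w, hw⟩ := hQ.prj.kah
  have nf := (nefp n n V R.V _ Q.L hM.hol hL).1 w hw (N2.nefL Q hQ hw) H lH pH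
  refine ⟨_, _, inferInstance, _, _, _, _, _, hM, 4 * a, ⟨ok, H, ⟨lH, lP, fun i j N lN k => ?_⟩,
    c', hp'⟩, ?_, by omega, c5⟩
  · have l2 := lb_mul (lb_pow lP i) lH
    have k3 := hT.c1.pos _ _ (lb_mul (lb_pow lL _) lH) (nf (i * (4 * a)))
    refine hT.kp _ _ lN ?_
    rw [c1_cls hT lN l2 (by
      rw [k, cls_mul (lb_pow lP i) lH, cls_pow lP, add_comm (i • _)]
      exact (congrArg (_ + j • ·) (sub_self _)).trans (by rw [smul_zero, add_zero])),
      hT.c1.mul _ _ _ (lb_pow lP i) lH, hT.c1.pow _ _ _ lP, c6, smul_smul]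
    rwa [hT.c1.mul _ _ _ (lb_pow lL _) lH, hT.c1.pow _ _ _ lL, Nat.cast_mul] at k3
  · obtain ⟨k, k0, s, s1, s2⟩ := h.eff
    obtain ⟨x, hx⟩ := nz (lb_pow K.lb k) s1 s2
    obtain ⟨y, rfl⟩ := hM.surj x
    obtain ⟨-, e1, e2, e3, -⟩ := efa n R.V cY
    have f1 : P285S.Ef R.V (k • cls n (pull (fun x => e (R.π x)) C)) :=
      ⟨_, _, lb_pow lC k, cls_pow lC k, hM.hol.sec s1, y, hx⟩
    obtain ⟨z, hz⟩ := hy.dense.nonempty
    have f2 : P285S.Ef R.V (cls n (pull R.π D₀)) :=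
      ⟨_, _, lD, rfl, sD, z, not_not.1 fun c => ho z hz (hI ▸ .inr c)⟩
    refine eff (L := P) lP k0 (Eq.subst ?_ (e1 _ _ (e1 _ _ (e2 _ (2 * a) f1)
      (e2 _ (k * 2) (e3 _ _ _ b1))) (e2 _ (k * 2 * r) f2)))
    rw [c3]
    module

end Vale.Agent.P270G
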