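import Vale.Agent.P270G.Defs
import Vale.Agent.P285S.Bs2.Nvb
import Vale.Agent.P285N.Tp.Nef2
import Vale.Agent.P285N.Tp.Nefp
import Vale.Agent.P285N.Tp.Hod
import Vale.Agent.P281Z.Mf.Fib

/-!
# P270G: the lemma of Kodaira on a model (rows KD2, KD3)
-/

open scoped Manifold ContDiff Topology
open Set Filter Function
open Vale.Agent.P272.K Vale.Agent.P285.H281.FD Vale.Agent.P281Z Vale.Agent.P280Z
open Vale.Agent.P285N Vale.Agent.P285W.J Vale.Agent.P285W.Bs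
open Vale.Agent.P285S.B2 (Zr Nu Ba)

noncomputable section

namespace Vale.Agent.P270G

namespace KdH

variable {T : CT} (hT : T.OK) {n : ℕ} {V : Mf n}

include hT

/-- the lemma of Kodaira -/
theorem core {X H : Bd V.X} (hc : ConnectedSpace V.X) (lX : IsLB n X) (lH : IsLB n H)
    (hp : ∀ k : ℕ, Pos n ((X.pow k).mul H)) (h : ¬ Zr T V (T.c1 V X ^ n)) :
    ∃ e₀, Ef T V e₀ ∧ ∀ j : ℕ, ∃ (a r : ℕ) (w : T.H V), j * r < a ∧ Bf T V w ∧
      (a : ℝ) • T.c1 V X = w + (r : ℝ) • e₀ := by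
  obtain ⟨m, m0, hm⟩ : ∃ m : ℕ, 0 < m ∧
      Ef T V (T.c1 V (zp H (-(1 : ℕ))) + (m : ℝ) • T.c1 V X) := by
    cases n with
    | zero => exact ⟨1, one_pos, by
        rw [dg_zero hT (hT.c1.deg V X) one_pos, dg_zero hT (hT.c1.deg V _) one_pos, smul_zero,
          add_zero]
        exact ef_zero hT⟩
    | succ n => exact P285S.B2.big_sec hT hc lX lH hp h (lb_zp lH _)
  refine ⟨_, hm, fun j => ?_⟩
  have l1 := lb_mul (lb_pow lX j) lH
  obtain ⟨r, hr⟩ := DescX.bpf l1 (hp j)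
  refine ⟨(j + m) * (r + 1), r + 1, _, by nlinarith, ⟨_, lb_pow l1 _, hr (r + 1) (by omega), rfl⟩,
    ?_⟩
  rw [hT.c1.pow V _ _ l1, hT.c1.mul V _ _ (lb_pow lX j) lH, hT.c1.pow V _ _ lX, c1_zp hT lH]
  push_cast
  module

theorem pos {L M H : Bd V.X} (hV : V.Prj) (lL : IsLB n L) (lM : IsLB n M) (lH : IsLB n H)
    (pH : Pos n H) (nL : Tp.Nf V L) (nM : Tp.Nf V M) (k : ℕ) : Pos n (((L.mul M).pow k).mul H) :=
  DescX.pos hT (lb_mul lL lM) lH (by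
    rw [add_comm, hT.c1.mul V _ _ lL lM]
    exact P285S.B2.kc_nf_add hT (hT.c1.pos V H lH pH) (nf_smul hT (Nat.cast_nonneg k)
      (nf_add hT (nf_of hT hV lL nL) (nf_of hT hV lM nM))))

theorem zr {l μ : T.H V} (hl : Nf T V l) (hμ : Nf T V μ) {k : ℕ} (h : Zr T V ((l + μ) ^ k)) :
    Zr T V (l ^ k) := fun y hy => domp hT (le_add hT hμ) hl (nf_add hT hl hμ) k hy (h y hy)

end KdH

open KdH

/-- **row KD3** -/
theorem kd3 : KD3 := by
  intro T hT n V L M hV lL lM nL nM h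
  obtain ⟨H, lH, pH⟩ := id hV.prj
  have e := hT.c1.mul V _ _ lL lM
  obtain ⟨e₀, h1, h2⟩ := core hT hV.conn (lb_mul lL lM) lH (pos hT hV.prj lL lM lH pH nL nM)
    fun k => h (zr hT (nf_of hT hV.prj lL nL) (nf_of hT hV.prj lM nM) (e ▸ k))
  exact ⟨V, _, _, modif_id, e₀, hV.prj, h1, fun j => by rw [hT.rg.pull_id, ← e]; exact h2 j⟩

/-- **row KD2** -/
theorem kd2 : KD2 := by
  intro T hT V Q D t q₀ C M h hν hTr
  have cV : Cp V := ⟨h.ok.conn, h.ok.prj⟩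
  have := cV.conn
  have lL := h.ok.bir.res.lbL
  have lM := h.lb
  have lC := h.sub.lb
  obtain ⟨w, hw⟩ := P285S.B2.kah_of hT cV.prj
  have nL : Tp.Nf V Q.L := (Tp.nefp 3 3 V V (fun x => x) _ contMDiff_id lL).1 w hw
    (Tp.N2.nefL Q h.ok hw)
  have hl := nf_of hT cV.prj lL nL
  have hμ := nf_of hT cV.prj lM h.nef
  obtain ⟨H, lH, pH⟩ := id cV.prj
  obtain ⟨q, q0, q1, q2, q3⟩ := DescX.scale hT lL lH (nL H lH pH)
  have q4 : (q : ℝ) ≠ 0 := Nat.cast_ne_zero.2 q0.ne'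
  have eq := hT.c1.pow V Q.L q lL
  have l2 : T.c1 V Q.L ^ 2 ≠ 0 := fun k => hν.1 fun y _ => by rw [k, zero_mul, map_zero]
  obtain ⟨b, d, F, D', H', δ, e, d0, hD, -⟩ := P285S.B2.red hT
    (⟨cV.conn, lb_pow lL q, lb_pow lH q, q1, q2, q3⟩ : Ba V _ _)
    (by rw [eq]; exact smul_ne_zero q4 fun k => l2 (by rw [k, zero_pow two_ne_zero]))
    fun k => hTr (k.mono fun y ⟨c, f, hf, a1, a2, a3, a4⟩ =>
      ⟨c, f, hf, a1, a2, a3, by rw [eq, map_smul, map_smul, a4, smul_zero]⟩)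
  obtain rfl : b = 2 := by
    by_contra k
    have h1 := congrArg (T.pull F.fq.hol)
      (dg_zero hT (dg_pow hT (hT.c1.deg _ D') 2) (show b < 2 by omega))
    rw [map_pow, hD.cls, map_zero, smul_pow, ← map_pow,
      smul_eq_zero_iff_right (pow_pos (Nat.cast_pos.2 hD.dpos) 2).ne'] at h1
    have h2 := inj.inj T hT 3 3 F.V V F.e F.he _ F.cV cV F.surj h1
    rw [eq, smul_pow, smul_eq_zero_iff_right (pow_ne_zero 2 q4)] at h2
    exact l2 h2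
  obtain ⟨S, hS⟩ := hD.md
  obtain ⟨a, a0, s, hs, i₀, x₀, s1, s2⟩ := h.eff
  have lCa := lb_pow lC a
  have th := Ps.thin_z lCa hs (KodA.dense_nz lCa hs s1 s2)
  have := F.cZ.conn
  obtain ⟨t₀, ht⟩ := (F.fq.thin.neg.union
    (negf 3 2 F.V F.Z F.π F.Q _ F.fq (hS.pre_neg th.neg)).1).dense.nonempty
  rw [mem_compl_iff, mem_union, not_or] at ht
  obtain ⟨x, hx, hx'⟩ := not_subset.1 ht.2
  obtain ⟨B, i, hi⟩ := fib_emb (d := 1) (y := t₀) (show 3 = 2 + 1 from rfl) F.fq.hol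
    fun x k => F.fq.sbm x (k ▸ ht.1)
  have cB : Cp B := ⟨hi.conn.2 (F.fq.conn t₀ ht.1), prj_of_imm hT hi.hol hi.imm F.cV.prj⟩
  have := cB.conn
  have hp := F.he.comp hi.hol
  have pc : ∀ y, T.pull hp y = T.pull hi.hol (T.pull F.he y) :=
    hT.rg.pull_comp hi.hol F.he hp fun _ => rfl
  have z1 : T.pull hp (T.c1 V Q.L) = 0 := by
    have := (congrArg (T.pull hp) eq).symm.trans
      ((pc _).trans (F.tv t₀ ht.1 1 B i hi.hol cB hi.rng.le))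
    rwa [map_smul, smul_eq_zero_iff_right q4] at this
  obtain ⟨y, rfl⟩ : x ∈ range i := hi.rng ▸ hx
  have z2 := ef_int hT (ef_pull hT hp lCa hs (Thin.pre_of_ex th.an hp ⟨y, hx'⟩).neg) mn_one
  have z3 := congrArg (fun u => T.int B (T.pull hp u))
    ((Tp.HodH.c1_iso hT lL (lb_mul lC lM) h.iso).trans (hT.c1.mul V _ _ lC lM))
  have z4 := mn_int hT (nf_pull hT hp hμ).mn
  rw [mul_one, hT.c1.pow V _ _ lC, map_smul, map_smul, smul_eq_mul,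
    mul_nonneg_iff_of_pos_left (Nat.cast_pos.2 a0)] at z2
  simp only [z1, map_zero, map_add] at z3
  have z5 : T.pull hp (T.c1 V M) = 0 := top hT inferInstance (P285S.B2.kah_of hT cB.prj)
    (nf_dg hT (nf_pull hT hp hμ)) (by linarith)
  have eX := hT.c1.mul V _ _ lL lM
  have nX : Nf T V (T.c1 V (Q.L.mul M)) := eX ▸ nf_add hT hl hμ
  obtain ⟨F', D₁, H₁, δ₁, hD₁⟩ := desc T hT 3 2 1 V (Q.L.mul M) H
    ⟨F.V, F.Z, F.π, F.e, F.Q, F.cV, F.cZ, F.fq, F.he, F.surj,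
      prop_of cur2 lam T hT 3 2 1 F.V F.Z F.π F.Q _ t₀ rfl one_pos F.cV.prj F.cZ F.fq
        (nf_pull hT F.he nX) ht.1 (hi.rng ▸ tvs.rng T hT 1 3 B F.V i hi.hol _ cB (by
          rw [← pc, eX, map_add, z1, z5, add_zero]))⟩ S rfl one_pos cV (lb_mul lL lM) lH
    (pos hT cV.prj lL lM lH pH nL h.nef) hS
  obtain ⟨_, ⟨E, σ, e1, e2, e3, rfl⟩, h2⟩ := core hT F'.cZ.conn hD₁.lD hD₁.lH hD₁.pos fun k =>
    hν.1 (zr hT hl hμ fun y _ => by
      rw [← eX, P285S.B2.pow_zero_of hT hD₁ cV k, zero_mul, map_zero])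
  obtain ⟨S', hS'⟩ := hD₁.md
  have := F'.cV.conn
  refine ⟨F'.V, F'.e, S', hS', _, F'.cV.prj, ef_pull hT F'.fq.hol e1 e2
    ((Ps.thin_z e1 e2 e3).pre_surj F'.fq.hol (DescX.surj F'.fq)).neg, fun j => ?_⟩
  obtain ⟨c, r, u, u1, u2, u3⟩ := h2 j
  refine ⟨c * δ₁, r, _, u1.trans_le (Nat.le_mul_of_pos_right _ hD₁.dpos),
    bf_pull hT F'.fq.hol u2, ?_⟩
  have k := congrArg (T.pull F'.fq.hol) u3
  rw [map_add, map_smul, map_smul, hD₁.cls, smul_smul, ← Nat.cast_mul] at k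
  exact (congrArg (fun z => ((c * δ₁ : ℕ) : ℝ) • T.pull F'.he z) eX).symm.trans k

end Vale.Agent.P270G
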