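import Vale.Agent.P270G.Defs
import Vale.Agent.P285S.Nv.Desc
import Vale.Agent.P285S.Mm.Mkpr
import Vale.Agent.P285W.J.Scale
import Vale.Agent.P285N.Xc.Piso
import Vale.Agent.P285N.Xc.Cls

/-!
# P270G: the domination of the canonical bundle (row KXC)
-/

open scoped Manifold ContDiff Topology
open Set Filter
open Vale.Agent.P272.K Vale.Agent.P285.H281.FD Vale.Agent.P281Z
open Vale.Agent.P277Z (Hol at_chart hol_const)
open Vale.Agent.P277Z.Slc (LEq Snc Ind IsDiv lin isLB_can)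
open Vale.Agent.P277.HD (pull)
open Vale.Agent.P285N Vale.Agent.P285N.Tp Vale.Agent.P285N.Tp.Har2H
open Vale.Agent.P285W.Kx.Kp
open Vale.Agent.P285W.Bs (la)
open Vale.Agent.P285S.Nv (Rb KG ms_sec blow kxg)
open Vale.Agent.P285W.J.ScaleX

noncomputable section

namespace Vale.Agent.P270G

namespace KxcH

variable {n : ℕ} {κ ι : Type} [Fintype κ] {m : κ → ℤ} {N : ℕ} {A : Pr n κ ι}

theorem rb (h : A.Ok m N) {H L : Bd A.Z.X} (hL : IsLB n L) (hH : IsLB n H) (pH : Pos n H)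
    (bH : Bpf n H) {C : ℕ} (hF : Xc.Fp A m H L C) :
    ∃ B, ∀ (κ₁ : Type) [Fintype κ₁] (R : LR A.Z L κ₁) (S : Set A.Z.X),
      Modif n R.π S → (∀ y ∈ off R.G, R.π y ∉ S ∧ R.π y ∈ off A.G) →
      (∀ l, R.m l < 0 → ∀ y ∈ R.G l, ¬ Imm n n R.π y ∨ ∃ k, m k < 0 ∧ R.π y ∈ A.G k) →
      Rb R H B := by
  classical
  have := h.conn
  have hy := Hyp.of_snc h.snc
  obtain ⟨D, σ, hD⟩ := hy.exists_div
  have hE : ∀ k : κ → ℕ, IsLB n (lin D fun l => k l) := fun k => lb_lin (fun l => (hD l).lb) _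
  have hσ := sec_mon fun l => (hD l).sec
  obtain ⟨j, τ, t1, b₀, x₀, t2, t3⟩ := kodp n _ _ _ _ H _ h.conn modif_id hH pH
    (lb_zp (hE fun l => (-m l).toNat) (-1))
  have hT := lb_mul (lb_pow hH j) (lb_zp (hE fun l => (-m l).toNat) (-1))
  obtain ⟨η, e1, e2⟩ := bH x₀
  refine ⟨C * j + 1, fun κ₁ _ R S hπ ho hx a c => ?_⟩
  have hp := hπ.hol
  have la1 : ∀ c, IsLB n (la L H a c) := fun c => lb_mul (lb_pow hL a) (lb_pow hH c)
  have la2 : ∀ c, cls n (la L H a c) = c • cls n H + a • cls n L := fun c => by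
    rw [cls_mul (lb_pow hL a) (lb_pow hH c), cls_pow hL, cls_pow hH, add_comm]
  obtain ⟨Z, z1, z2⟩ := (((ms_unit (k := fun l => -((-m l).toNat : ℤ)) hy (hE fun l => (-m l).toNat)
    (fun a b x ha hb _ => (hσ _).change a b x ha hb) (fun a x ha =>
      ⟨_, fun l => (hD l).leq _ _ (ha l), fun _ => 1, hol_const _ _, one_ne_zero, by
        filter_upwards [off_iff fun l => (hD l).leq _ _ (ha l)] with y a1 a2
        show (∏ l, σ l (a l) y ^ (-m l).toNat) * _ = 1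
        rw [← Finset.prod_mul_distrib]
        exact Finset.prod_eq_one fun l _ => by
          rw [zpow_neg, zpow_natCast, mul_inv_cancel₀ (pow_ne_zero _ (a1.1 a2 l))]⟩)
    (C * (c + 1) : ℕ)).add ((ms_sec hT t1 ⟨x₀, (nz_iff hT (fun a b => t1.change a b x₀) t2).2
      t3⟩).smul (C * (c + 1)))).add (ms_sec hH e1 ⟨x₀, e2⟩)).mul h.snc (la1 c)
    (la1 ((C * j + 1) * (c + 1))) (l := 1) (by
      rw [la2, la2, cls_mul (lb_pow hH j) (lb_zp (hE _) _), cls_pow hH, cls_zp (hE _)]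
      module)
  refine ⟨_, hπ.pre_thin z1, fun Δ e s a1 a2 a3 a4 => ?_⟩
  have hf : ∀ k c y, R.π y ∈ (lin D fun l => (k l : ℕ)).U c →
      Hol n (fun z => mon σ k c (R.π z)) y := fun k c y b => hp.hol (sec_hol (hσ k) b)
  obtain ⟨u, u1, u2⟩ := har0 (H := (la L H a c).mul
      (lin D fun l => ((∑ o, ⌈e o⌉₊) * (-m l).toNat : ℕ)))
    (s := fun p y => s p.1 y * mon σ (fun l => (∑ o, ⌈e o⌉₊) * (-m l).toNat) p.2 (R.π y)) hπ a1
    (lb_mul (la1 c) (hE _))
    ⟨fun p y _ k1 k2 => (a4.hol p.1 y trivial k1.1 k2).mul (hf _ p.2 y k1.2),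
      fun p q y _ k1 k2 k3 => by
        rw [a4.chg p.1 q.1 y trivial k1.1 k2.1 k3, (hσ _).change p.2 q.2 _ k1.2 k2.2]
        exact mul_mul_mul_comm _ _ _ _,
      fun p y k1 k2 => BdP.congr (kill a1 (a4.bdP trivial k2.1) (hf (fun l => (-m l).toNat) p.2 y k2.2)
        fun o k => by
          cases o with
          | none => exact absurd k (not_lt.2 a2)
          | some l =>
            filter_upwards [Imm.near k1 (hp.at y),
              hp.cont.continuousAt.eventually (lb_near (hE _) k2.2)] with z b1 b2 b3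
            obtain ⟨i, i1, i2⟩ := (hx l (a3 l k) z b3).resolve_left (not_not.2 b1)
            exact Finset.prod_eq_zero (Finset.mem_univ i) (by
              rw [((hD i).leq _ _ (b2 i)).mem.2 i2, zero_pow (show (-m i).toNat ≠ 0 by omega)]))
        (.of_forall fun z _ => by simp only [mon, ← Finset.prod_pow, pow_mul'])⟩
  obtain ⟨v, v1, v2⟩ := SecP.untwist (i := id) (O := univ) (L := la L H a c) (G := A.G)
    (k := fun l => ((∑ o, ⌈e o⌉₊) * (-m l).toNat : ℕ)) (c := fun _ => 0) (t := u) holM_id hD (la1 c)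
    isOpen_univ (secP_of_sec continuous_id u1 fun _ => le_rfl)
  obtain ⟨s', s1, s2⟩ := z2 _ v (hF c a (∑ o, ⌈e o⌉₊) _ v (la1 c) (la2 c)
    (v1.mono continuous_id fun l => by rw [zero_add, Int.cast_natCast]))
  obtain ⟨w, w1, w2, w3⟩ := s1.ext h.snc (la1 _) isOpen_univ fun l => by
    push_cast
    linarith
  refine ⟨w, isSec_of (fun a x => w1 a x trivial) fun a b x => w2 a b x trivial,
    fun x k1 k2 i hi => ?_⟩
  obtain ⟨b, g, g1, g2, g3, g4⟩ := (s2 _ (ho x fun l => k1 (some l)).2 k2).pre hp.cont i hi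
  refine ⟨b, g, g1, g2, g3, ?_⟩
  filter_upwards [g4, (snc_open_off a1).mem_nhds k1, lb_near (hp.lb (la1 _)) g1,
    lb_near (hp.lb (la1 _)) hi] with y b1 b2 b3 b4
  obtain ⟨b5, b6⟩ := ho y fun l => b2 (some l)
  obtain ⟨f, b7⟩ := (hE fun l => (∑ o, ⌈e o⌉₊) * (-m l).toNat).cover (R.π y)
  have b8 := (u2 (b, f) y ⟨b3, b7⟩ b2 (hπ.imm b5)).trans (v2 b f _ trivial b3 b7 b6)
  simp only [zpow_natCast] at b8
  rw [w3 i _ trivial b4 b6, mul_right_cancel₀ (mon_ne hD _ b7 fun l _ => b6 l) b8]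
  exact b1

theorem kg (h₀ : Cw A m N) {H L : Bd A.Z.X} (hL : IsLB n L) (hH : IsLB n H) (pH : Pos n H)
    (bH : Bpf n H) {C : ℕ} (hF : Xc.Fp A m H L C) : KG A.Z L H := by
  have h := h₀.ok
  have := h.conn
  obtain ⟨B, hB⟩ := rb h hL hH pH bH hF
  obtain ⟨t, t0, ht⟩ := h₀.tor
  obtain ⟨D, σ, hD⟩ := (Hyp.of_snc h.snc).exists_div
  obtain ⟨Ω₀, h'⟩ := P285S.Mm.mkpr n κ A.Z A.G D σ (L.pow 0) (fun l => t * m l) (t * N) h.conn h.prj
    h.snc hD (lb_pow hL 0) (Nat.mul_pos t0 h.pos) (h.even.mul_left t)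
    (fun l => Nat.cast_mul (α := ℤ) t N ▸ mul_le_mul_of_nonneg_left (h.le l) (Nat.cast_nonneg t))
    (by
      rw [cls_pow hL, zero_smul, ← ht, Xc.cls_eq n κ ι m N A D σ h hD, smul_add, mul_smul,
        Finset.smul_sum]
      simp only [mul_smul, natCast_zsmul])
  refine ⟨0, B, fun W u S hu hW => ?_⟩
  have hC := hu.thin.union (snc_thin_off h.snc)
  have hZ := hu.pre_thin hC
  obtain ⟨I, hI, -⟩ := Rs.idl n W _ hZ.1
  rw [← hI] at hZ
  obtain ⟨R⟩ := Rs.res n n W univ I an_univ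
    (subM_open (by rw [← compl_eq_univ_sdiff]; exact hZ.closed.isOpen_compl))
  have h1 : Modif n R.π _ := ⟨hZ, R.ovr⟩
  have hM := hu.comp_of h1 hC subset_union_left (by rw [hI]; exact image_preimage_subset _ _)
  have ho : ∀ y ∈ off R.G, u (R.π y) ∉ S ∪ (off A.G)ᶜ ∧ u (R.π y) ∈ off A.G := fun y hy => by
    have k : R.π y ∉ I.Z := fun k => ((R.bad y).1 k).elim hy
    rw [hI] at k
    exact ⟨k, not_not.1 fun c => k (.inr c)⟩
  obtain ⟨m₁, Ω, h2, h3⟩ := blow h' hM (R.prj hW) R.snc R.conn ho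
  refine ⟨_, inferInstance, ⟨_, fun x => u (R.π x), R.G, m₁, t * N, 0, Ω⟩, R.π, _, h1, rfl, ?_,
    Nat.zero_le _, hB _ _ _ hM ho fun l a y b => (h3 l a y b).imp_right fun ⟨k, k1, k2⟩ =>
      ⟨k, neg_of_mul_neg_right k1 (Nat.cast_nonneg t), k2⟩⟩
  simp only [LR.A, pow_one] at h2
  exact h2

end KxcH

/-- row KXC -/
theorem kxc : KXC := by
  intro d T hT κ ι _ A m N L H C h hL hn lA pA hC
  have l1 := lb_mul (lb_pow hL 1) lA
  obtain ⟨r, hr, b0⟩ := ex_bpf lA pA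
  obtain ⟨r', hr', b1⟩ := ex_bpf l1 (hn H lA pA 1)
  have lL := lb_pow hL (r * r')
  have lB := lb_pow lA (r * r')
  have hR : 0 < r * r' := by positivity
  have pB : Pos d (H.pow (r * r')) :=
    hT.kp _ _ lB (hT.c1.pow _ H (r * r') lA ▸ hT.po.smul _ (by exact_mod_cast hR)
      (hT.c1.pos _ H lA pA))
  have bB : Bpf d (H.pow (r * r')) :=
    Bpf.iso lB (lb_pow (lb_pow lA r) r') (by
      rw [← cls_eq lB (lb_pow (lb_pow lA r) r'), cls_pow lA, cls_pow (lb_pow lA r), cls_pow lA,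
        smul_smul, mul_comm]) (bpf_pow b0 r')
  have nL : ∀ k, Pos d (((L.pow (r * r')).pow k).mul (H.pow (r * r'))) := fun k => by
    refine Xc.piso _ _ _ _ (lb_mul (lb_pow hL (k * (r * r'))) lB) (lb_mul (lb_pow lL k) lB) ?_
      (hn _ lB pB _)
    rw [cls_mul (lb_pow hL _) lB, cls_mul (lb_pow lL k) lB, cls_pow lL, cls_pow hL, cls_pow hL,
      smul_smul]
  refine ⟨r * r', H.pow (r * r'), hR, ⟨h.ok.conn, lL, lB, nL, bB,
    Bpf.iso (lb_mul lL lB) (lb_pow (lb_pow l1 r') r) (by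
      rw [← cls_eq (lb_mul lL lB) (lb_pow (lb_pow l1 r') r), cls_mul lL lB, cls_pow lA,
        cls_pow hL, cls_pow (lb_pow l1 r'), cls_pow l1, cls_mul (lb_pow hL 1) lA,
        cls_pow hL, one_smul, smul_smul, smul_add]) (bpf_pow b1 r)⟩,
    kxg h.ok.conn lL lB nL bB (KxcH.kg h lL lB pB bB (C := C * (r * r'))
      fun k i j M s hM e hs => (hC (k * (r * r')) (i * (r * r')) j M s hM
        (by rw [e, cls_pow lA, cls_pow hL, smul_smul, smul_smul]) hs).mono continuous_id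
          fun l => ?_)⟩
  show ((C * (k * (r * r') + 1) * (-m l).toNat : ℕ) : ℝ) ≤ _
  refine Nat.cast_le.2 (Nat.mul_le_mul_right _ ?_)
  rw [mul_assoc C, mul_add (r * r'), mul_comm k, mul_one]
  exact Nat.mul_le_mul_left _ (Nat.add_le_add_left hR _)

end Vale.Agent.P270G
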