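import Vale.Agent.P270G.Defs
import Vale.Agent.P285S.E3.Dec
import Vale.Agent.P285S.Mm.Ref
import Vale.Agent.P285S.Tp.Nfp
import Vale.Agent.P285N.Tp.Ordu
import Vale.Agent.P285N.Tp.EnA
import Vale.Agent.P285W.J.Top
import Vale.Agent.P280Z.Ld.Iso

/-!
# P270G: the null components
-/

open scoped Manifold ContDiff Topology
open Set Filter Function
open Vale.Agent.P272.K Vale.Agent.P285.H281.FD Vale.Agent.P281Z Vale.Agent.P280Z
open Vale.Agent.P277Z.Slc (IsDiv Snc lin)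
open Vale.Agent.P277.HD (pull)
open Vale.Agent.P285N Vale.Agent.P285W.J Vale.Agent.P285W.Bs
open Vale.Agent.P285S.Mm.RefH (cls_unit)

noncomputable section

namespace Vale.Agent.P270G

namespace NzH

variable {T : CT} {n : ℕ} {V : Mf n}

theorem c1_cls (hT : T.OK) {L M : Bd V.X} (hL : IsLB n L) (hM : IsLB n M)
    (h : cls n L = cls n M) : T.c1 V L = T.c1 V M :=
  let ⟨t, ht⟩ := (cls_eq hL hM).1 h
  (Ld.iso V _ _ t hL hM ht).1 T hT.c1

theorem dn {G : Set V.X} {O : Bd V.X} {σ : O.ι → V.X → ℂ} (h : IsDiv n G O σ) :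
    Dense {x | NZ O σ x} :=
  (P277Z.Slc.Dv.dense_compl h.ex).mono fun x k a ha => mt (h.leq a x ha).mem.1 k

theorem c1_div (hT : T.OK) {G : Set V.X} {O O' : Bd V.X} {σ : O.ι → V.X → ℂ}
    {σ' : O'.ι → V.X → ℂ} (h : IsDiv n G O σ) (h' : IsDiv n G O' σ') : T.c1 V O = T.c1 V O' :=
  c1_cls hT h.lb h'.lb (cls_unit (P277Z.Slc.Dv.dense_compl h.ex) h.lb h'.lb h.sec h'.sec
    (fun b x hb k => mt (h'.leq b x hb).mem.1 k)
    fun a b x ha hb => leq_unit (h'.leq b x hb) (h.leq a x ha))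

end NzH

open NzH

theorem nzu_of (h : P285S.Sf.NUL) : NZU := by
  intro d T hT κ ι _ A m N W π S hπ z D s hA hW z1 z2 h1 h2 h3 h4
  classical
  obtain ⟨O, σ, hO⟩ := (Hyp.of_snc hA.snc).exists_div
  have lM := lb_lin (fun l => (hO l).lb) fun l => ((if Nl T A l z then 1 else 0 : ℕ) : ℤ)
  refine h T hT d W A.Z π S hπ _ _ z _ ⟨hA.conn, hA.prj⟩ hW lM (Tp.En.sec_mon hO _)
    ((Hyp.of_div hO).dense.mono fun x (hx : x ∈ off A.G) c hc =>
      Tp.En.mon_ne hO _ hc fun l _ => hx l) z1 z2 ?_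
    ⟨D, s, h1, h2, h3, fun y hy => not_not.1 fun k => hy ((h4 y k).imp_right ?_), rfl⟩
  · rw [hT.c1.lin A.Z O _ fun l => (hO l).lb, Finset.sum_mul, map_sum]
    refine Finset.sum_eq_zero fun l _ => ?_
    rw [smul_mul_assoc, map_smul]
    split_ifs with k
    · rw [k _ _ (hO l), smul_zero]
    · simp
  · rintro ⟨l, k1, k2⟩ k3
    obtain ⟨c, hc⟩ := lM.cover (π y)
    exact k3 c hc (Finset.prod_eq_zero (Finset.mem_univ l) (pow_eq_zero_iff'.2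
      ⟨((hO l).leq _ _ (hc l)).mem.2 k2, (if_pos k1).trans_ne one_ne_zero⟩))

theorem ins_of (h : NZU) : INS := by
  intro d T hT κ ι _ A m N U p hp z hA hU z1 z2 hr
  obtain ⟨a, a1, -, a3⟩ := P285S.E3.dec.key T hT d A.Z U p hp ⟨hA.conn, hA.prj⟩ hU
  rw [a3]
  clear a3
  induction a1 using AddSubmonoid.closure_induction with
  | mem y k =>
    obtain ⟨r, e, -, ⟨D, s, h1, h2, h3, rfl⟩, rfl⟩ := k
    have k1 := h d T hT κ ι A m N A.Z _ _ modif_id z D s hA hA.prj z1 z2 h1 h2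
      ((Hyp.of_snc hA.snc).dense.mono fun x (hx : x ∈ off A.G) =>
        h3 x fun c => (hr c).elim fun l k => hx l k.2)
      fun y k => .inr (hr (not_not.1 (mt (h3 y) k)))
    rw [hT.rg.pull_id] at k1
    rw [smul_mul_assoc, map_smul, k1, smul_zero]
  | zero => rw [zero_mul, map_zero]
  | add y y' _ _ k k' => rw [add_mul, map_add, k, k', add_zero]

theorem znl : ZNL := by
  intro d T hT κ ι _ A m N D s z hA h1 h2 h3 z1 h0 x hx
  obtain ⟨O, σ, hO⟩ := (Hyp.of_snc hA.ok.snc).exists_div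
  obtain ⟨k, hk⟩ := Tp.ordu d A.Z κ A.G D s hA.ok.snc hA.conn h1 h2 h3
  have lM := lb_lin (fun l => (hO l).lb) fun l => (k l : ℤ)
  rw [c1_cls hT h1 lM (cls_unit (Hyp.of_div hO).dense h1 lM h2 (Tp.En.sec_mon hO k)
    (fun c y hc hy => Tp.En.mon_ne hO _ hc fun l _ => hy l) fun a c y ha hc =>
      hk a y ha _ fun l => (hO l).leq _ _ (hc l)), hT.c1.lin A.Z O _ fun l => (hO l).lb,
    Finset.sum_mul, map_sum] at h0
  simp only [smul_mul_assoc, map_smul, smul_eq_mul, Int.cast_natCast] at h0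
  obtain ⟨a, ha⟩ := h1.cover x
  obtain ⟨c, hc⟩ := lM.cover x
  obtain ⟨u, -, u2, u3⟩ := hk a x ha _ fun l => (hO l).leq _ _ (hc l)
  obtain ⟨l, -, hl⟩ := Finset.prod_eq_zero_iff.1 ((mul_eq_zero.1
    (u3.self_of_nhds.symm.trans ((Ld.not_nz h1 h2 ha).1 hx))).resolve_left u2)
  obtain ⟨l1, l2⟩ := pow_eq_zero_iff'.1 hl
  refine ⟨l, fun O' σ' h' => ?_, ((hO l).leq _ _ (hc l)).mem.1 l1⟩
  rw [c1_div hT h' (hO l)]
  exact (mul_eq_zero.1 ((Finset.sum_eq_zero_iff_of_nonneg fun j _ => mul_nonneg (k j).cast_nonneg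
    (ef_int hT ⟨_, _, (hO j).lb, (hO j).sec, dn (hO j), rfl⟩ z1)).1 h0 l
      (Finset.mem_univ l))).resolve_left (Nat.cast_ne_zero.2 l2)

theorem dup_of (h1 : UP) (h2 : NUU) (h3 : NZU) : DUP := by
  intro T hT κ ι _ A m N L D s h lD sD nz
  obtain ⟨κ', _, A', m', π, S, hπ, c, k1, k2⟩ := h1 3 T hT κ ι A m N D s h.cw lD sD nz
  have o := h.cw.ok
  have l1 := nf_of hT o.prj h.lb h.nef
  have e := hT.c1.pull hπ.hol L h.lb
  refine ⟨κ', inferInstance, A', m', π, S, hπ, ⟨c, hπ.hol.lb h.lb,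
    P285S.Tp.nf_comp hπ.hol o.prj h.lb h.nef,
    e ▸ h2.nu T hT _ _ _ _ π S hπ _ ⟨o.conn, o.prj⟩ c.ok.prj l1 h.nu,
    e ▸ h2.tr T hT _ _ _ π S hπ _ h.tr, fun l hl O σ hO => ?_⟩, k1⟩
  rw [e, ← map_pow]
  exact h3 2 T hT κ ι A m N A'.Z π S hπ _ O σ o c.ok.prj (l1.mn.pow 2) (dg_pow hT (nf_dg hT l1) 2)
    hO.lb hO.sec (dn hO) fun y hy => (k2 l hl y (not_not.1 fun k => hy fun a ha =>
      mt (hO.leq a y ha).mem.1 k)).imp_right fun ⟨j, j1, j2⟩ => ⟨j, h.neg j j1, j2⟩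

end Vale.Agent.P270G
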