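import Vale.Agent.P270G.Defs
import Vale.Agent.P285S.Mm.Ref
import Vale.Agent.P285S.Mm.Mkpr

/-!
# P270G, row RFN: connected components in the output of the minimal model program
-/

open scoped Manifold ContDiff Topology
open Set Filter
open Vale.Agent.P272.K Vale.Agent.P285.H281.FD Vale.Agent.P281Z Vale.Agent.P285N
open Vale.Agent.P277Z (Hol)
open Vale.Agent.P277Z.Slc (IsDiv LEq Snc)
open Vale.Agent.P277Z.GH.Of (Cmp exists_cmp)
open Vale.Agent.P285S.Mm.RefH (sum_par)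

noncomputable section

namespace Vale.Agent.P270G

namespace RfnH

variable {n : ℕ} {Z : Mf n} {κ : Type} {G : κ → Set Z.X} {r : ℕ} {G' : Fin r → Set Z.X}
  {par : Fin r → κ} {y : Z.X} {ζ : Fin r → Z.X → ℂ}

/-- the product of the equations of the pieces -/
theorem leq_prod [DecidableEq κ] (h : Cmp G G' par) (hζ : ∀ j, LEq n (G' j) y (ζ j)) (l : κ) :
    LEq n (G l) y fun z => ∏ j with par j = l, ζ j z := by
  refine ⟨?_, fun e he => ⟨Hol.prod _ (fun j _ => (hζ j).hol) e he, fun h0 => ?_⟩⟩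
  · filter_upwards [eventually_all.2 fun j => (hζ j).1] with z hz
    simp only [Finset.prod_eq_zero_iff, Finset.mem_filter, Finset.mem_univ, true_and, hz]
    exact ⟨fun ⟨j, a, b⟩ => a ▸ h.sub j b, h.ex l z⟩
  · obtain ⟨j, a, b⟩ := Finset.prod_eq_zero_iff.1 h0
    simp only [← Finset.prod_erase_mul _ _ a]
    refine (P277Z.Slc.dd_mul (Hol.prod _ fun j _ => (hζ j).hol) (hζ j).hol b he).trans_ne
      (smul_ne_zero (Finset.prod_ne_zero_iff.2 fun i c k => (Finset.mem_erase.1 c).1 ?_)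
        (((hζ j).2 e he).2 b))
    exact h.uniq i j y ((Finset.mem_filter.1 (Finset.mem_erase.1 c).2).2.trans
      (Finset.mem_filter.1 a).2.symm) ((hζ i).mem.1 k) ((hζ j).mem.1 b)

theorem prod_par [DecidableEq κ] [Fintype κ] (par : Fin r → κ) (a : Fin r → ℂ) (k : κ → ℕ) :
    ∏ l, ‖∏ j with par j = l, a j‖ ^ k l = ∏ j, ‖a j‖ ^ k (par j) := by
  rw [← Finset.prod_fiberwise Finset.univ par]
  refine Finset.prod_congr rfl fun l _ => ?_
  rw [norm_prod, ← Finset.prod_pow]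
  exact Finset.prod_congr rfl fun j hj => by rw [(Finset.mem_filter.1 hj).2]

end RfnH

open RfnH in
/-- **row RFN** -/
theorem rfn : RFN := by
  classical
  intro d κ ι _ A m N O σ φ c L Q _ R H Ψ a z
  have hs := P277Z.Cls.isSnc_of a.ok.snc
  obtain ⟨r, G', par, h⟩ := exists_cmp hs
  have hs' := P277Z.Slc.snc_of_isSnc (h.snc hs)
  choose O' σ' hO' using fun j => P277Z.Slc.stDiv d R.B.Z.X (G' j) fun x =>
    let ⟨ζ, k, _⟩ := hs' x; ⟨ζ j, k j⟩
  obtain ⟨Ω, hΩ⟩ := P285S.Mm.mkpr d (Fin r) R.B.Z G' O' σ' R.B.P (fun j => R.m (par j)) R.N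
    a.ok.conn a.ok.prj hs' hO' a.ok.lb a.ok.pos a.ok.even (fun j => a.ok.le _)
    (by rw [Xc.cls_eq d _ _ R.m R.N R.B R.O R.σ a.ok a.div, sum_par h a.div hO'])
  have sp : ∀ f : R.κ' → ℕ, ∑ l, f l • cls d (R.O l) = ∑ j, f (par j) • cls d (O' j) := fun f => by
    simpa only [natCast_zsmul] using sum_par h a.div hO' fun l => f l
  refine ⟨⟨Fin r, R.B.P.ι, ⟨R.B.Z, G', R.B.P.U, R.B.P.g, Ω⟩, fun j => R.m (par j), R.N, R.π, O', σ',
    R.δ, fun j => R.Φ (par j), fun j => R.φ (par j), R.Q⟩, fun j => Ψ (par j),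
    ⟨hΩ, a.md, hO', a.pos, a.cl.trans (by rw [sp]), a.lbQ, a.clQ.trans (by rw [sp]),
      a.eff.trans (by rw [sp]), fun j => a.neg _, fun j k y hy => a.sup _ k y (h.sub j hy),
      fun y k hy => ?_, fun k j => a.bd k _, fun j k y hy => a.up _ k y (h.sub j hy)⟩,
    ⟨fun j => z.psi _, fun n => ?_, fun i k M s k1 k2 k3 k4 b y hy ζ hζ => ?_⟩, h.conn⟩
  · obtain ⟨l, l1, l2⟩ := a.pre y k hy
    obtain ⟨j, rfl, hj⟩ := h.ex l y l1
    exact ⟨j, hj, l2.imp_right fun k => ⟨(image_mono (h.sub j)).trans k.1, k.2⟩⟩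
  · obtain ⟨x, y, k1, k2, k3⟩ := z.free n
    exact ⟨x, y, k1, k2, fun M hM e => k3 M hM (e.trans (by rw [sp]))⟩
  · obtain ⟨C, hC⟩ := z.zd i k M s k1 k2 k3 k4 b y hy _ (leq_prod h hζ)
    exact ⟨C, hC.mono fun w hw => by
      rwa [prod_par par (fun j => ζ j w), prod_par par fun j => ζ j w] at hw⟩

end Vale.Agent.P270G
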