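import Vale.Agent.P270G.Defs
import Vale.Agent.P285S.En.En
import Vale.Agent.P285W.J.Top
import Vale.Agent.P285N.Tp.Rg
import Vale.Agent.P285N.Tp.Kodp2

/-!
# P270G: rigid components and exceptional divisors are null (rows RGN, EXQ)
-/

open scoped Topology
open Set Filter Function
open Vale.Agent.P272.K Vale.Agent.P285.H281.FD Vale.Agent.P281Z Vale.Agent.P280Z Vale.Agent.P280Z.Ld
open Vale.Agent.P277Z.Slc (IsDiv)
open Vale.Agent.P285N Vale.Agent.P285W Vale.Agent.P285W.J Vale.Agent.P285S.En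

noncomputable section

namespace Vale.Agent.P270G

namespace RgnH

variable {T : CT} {n d : ℕ} {V : Mf n} {κ ι : Type} [Fintype κ]

theorem drop {e u v y : T.H V} (he : ∀ y, Mn T V y → 0 ≤ T.int V (e * y))
    (hu : Mn T V u) (hv : Mn T V v) (hw : Mn T V (u + v)) (k : ℕ) (hy : Mn T V y)
    (h : T.int V (e * ((u + v) ^ k * y)) = 0) : T.int V (e * (u ^ k * y)) = 0 := by
  induction k generalizing y with
  | zero => simpa using h
  | succ k ih =>
    have h1 := he _ ((hw.pow k).mul (hu.mul hy))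
    have h2 := he _ ((hw.pow k).mul (hv.mul hy))
    rw [pow_succ, mul_assoc, add_mul, mul_add, mul_add, map_add] at h
    rw [pow_succ, mul_assoc]
    exact ih (hu.mul hy) (by linarith)

theorem rign (hT : T.OK) {A : Pr (d + 1) κ ι} {m m' : κ → ℤ} {N : ℕ} (hA : A.Ok m N)
    {L : Bd A.Z.X} (hL : IsLB (d + 1) L) (nP : Nf T A.Z (T.c1 A.Z L)) {O : κ → Bd A.Z.X}
    {σ : ∀ l, (O l).ι → A.Z.X → ℂ} (hO : ∀ l, IsDiv (d + 1) (A.G l) (O l) (σ l)) {Λ H : Bd A.Z.X}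
    (hΛ : IsLB (d + 1) Λ) (nΛ : Nf T A.Z (T.c1 A.Z Λ)) (hH : IsLB (d + 1) H) (pH : Pos (d + 1) H)
    (hE : P285S.Ef A.Z (cls (d + 1) Λ - cls (d + 1) H)) (hR : Xc.Rig A m' Λ L) {l : κ}
    (hl : m' l < 0) :
    T.int A.Z (T.c1 A.Z (O l) * (T.c1 A.Z Λ + T.c1 A.Z L) ^ d) = 0 := by
  classical
  have := hA.conn
  have kH := hT.c1.pos _ _ hH pH
  have lO := fun l => (hO l).lb
  obtain ⟨c, c0, hc⟩ := dom hT hH kH hΛ
  obtain ⟨D, t, hD, eD, ht, x, hx⟩ := hE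
  obtain ⟨a, ha⟩ := hD.cover x
  have nQ := nf_add hT nΛ nP
  refine le_antisymm ?_ (ef_int hT (ef_div hO l) (nQ.mn.pow d))
  rw [← hT.c1.mul _ _ _ hΛ hL] at nQ ⊢
  refine siu hT (lb_mul hΛ hL) hH (lO l) (lb_pow hH 0) nQ kH c0
    fun i j => .of_forall fun J => ?_
  obtain ⟨M, hM, e⟩ := ex_cls ((J * (i + 1)) • cls (d + 1) Λ + (J * i) • cls (d + 1) L)
  have h1 := hh_pol hA.snc hO hA.prj.kah hM (fun l' => if l' = l then (J * j : ℕ) else 0) 0
    fun s hs => (hR _ _ M s hM e ⟨J * j, hs.mono continuous_id fun l' => ?_⟩).mono continuous_id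
      fun l => by simp
  · simp only [ite_smul, zero_smul, Finset.sum_ite_eq', Finset.mem_univ, if_true, Pi.zero_apply,
      Finset.sum_const_zero, add_zero, natCast_zsmul] at h1
    refine (hh_secs hD ht (KodA.dense_nz hD ht ha (hx a ha)) hA.prj.kah _ J).trans
      ((le_of_eq (congrArg _ ?_)).trans (h1.trans ((le_of_eq (congrArg _ ?_)).trans
      ((hc ((J * i) • (cls (d + 1) Λ + cls (d + 1) L)) J).trans_eq (congrArg _ ?_)))))
    · rw [e, eD, cls_mul hΛ hL]; module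
    · rw [e]; module
    · rw [cls_pow hH, cls_mul hΛ hL]; module
  · by_cases k : l' = l
    · simp [k, hl]
    · simp only [k, if_false]
      split_ifs
      exacts [by exact_mod_cast Nat.zero_le _, by simp]

theorem hh_rg {E H : Bd V.X} {s : E.ι → V.X → ℂ} (hE : IsLB n E) (hH : IsLB n H) (kV : V.Kah)
    (h : Tp.Rg n E s H) (k : ℕ) : hh V (cls n H + k • cls n E) ≤ hh V (cls n H) := by
  have l := lb_mul hH (lb_pow hE k)
  rw [← cls_pow hE, ← cls_mul hH (lb_pow hE k), hh_cls l, hh_cls hH]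
  have := ld.fin V _ kV hH
  have h2 : Γ n (H.mul (E.pow k)) ≤ (Γ n H).map
      (tm (H.mul (E.pow k)) (A := E.pow k) Prod.fst Prod.snd fun a x => s a x ^ k) := fun G hG => by
    obtain ⟨u, h1, h2⟩ := h k G hG.1
    refine ⟨nm H u, nm_mem hH h1, funext₂ fun a x => ?_⟩
    by_cases e : x ∈ (H.mul (E.pow k)).U a
    · exact (tm_of e).trans ((congrArg (· * _) (nm_of e.1)).trans (h2 a x e).symm)
    · exact (nm_not e).trans (hG.2 a x e).symm
  exact (Submodule.finrank_mono h2).trans (Submodule.finrank_map_le _ _)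

end RgnH

theorem rgn : RGN := by
  intro d T hT κ ι _ A m N m' Λ L k a b hA ⟨hΛ, bΛ, H, hH, pH, hE⟩ hL nL hR hk e O σ hO
  choose O' σ' h1 h2 using fun l => show ∃ (O' : Bd A.Z.X) (σ' : O'.ι → A.Z.X → ℂ),
      IsDiv (d + 1) (A.G l) O' σ' ∧ (l = k → O' = O) from by
    by_cases c : l = k
    · exact ⟨O, σ, c ▸ hO, fun _ => rfl⟩
    · obtain ⟨O', σ', h⟩ := P277Z.Slc.stDiv (d + 1) A.Z.X (A.G l) fun y =>
        (hA.snc y).elim fun ζ k => ⟨ζ l, k.1 l⟩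
      exact ⟨O', σ', h, fun q => (c q).elim⟩
  have n1 := bf_nf hT ⟨Λ, hΛ, bΛ, rfl⟩
  have n2 := P285W.J.nf_of hT hA.prj hL nL
  have n3 := (nf_add hT n1 n2).mn
  have h3 := RgnH.rign hT hA hL n2 h1 hΛ n1 hH pH hE hR hk
  have he := fun y => ef_int hT (ef_div (T := T) h1 k) (b := y)
  subst e
  rw [pow_add] at h3
  have h4 := RgnH.drop he n1.mn n2.mn n3 a (n3.pow b) h3
  rw [mul_comm (_ ^ a), add_comm (T.c1 A.Z Λ)] at h4
  have h5 := RgnH.drop he n2.mn n1.mn (add_comm (T.c1 A.Z Λ) _ ▸ n3) b (n1.mn.pow a) h4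
  rwa [mul_comm (_ ^ b), h2 k rfl] at h5

theorem exq : EXQ := by
  intro T hT d V Q hQ
  have := hQ.conn
  have hr := hQ.bir.res
  have kV := hQ.prj.kah
  obtain ⟨H, hH, pH⟩ := hQ.prj
  have kH := hT.c1.pos _ _ hH pH
  obtain ⟨w, hw⟩ := id kV
  have nL := P285W.J.nf_of hT hQ.prj hr.lbL
    ((Tp.nefp _ _ V V (fun x => x) _ holM_id hr.lbL).1 w hw (Tp.N2.nefL Q hQ hw))
  obtain ⟨c, t, ht, a, x, ha, hx⟩ := Tp.kodp2 _ V V Q (fun x => x) ∅ (zp H (-1)) hQ this modif_id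
    (lb_zp hH _)
  have lD := lb_mul (lb_pow hr.lbA c) (lb_zp hH (-1))
  have bA : Bpf (d + 1) Q.A := fun x => (hr.lbA.cover x).elim fun k hk => (hr.free k x hk).elim
    fun a ha => ⟨Q.S a, hr.sec a, (nz_iff hr.lbA (fun b c => (hr.sec a).change b c x) hk).2 ha⟩
  obtain ⟨k, k0, hk⟩ := dom hT hH kH hr.lbA
  obtain ⟨a', x', ha', hx'⟩ := hr.nzE
  refine le_antisymm (siu hT hr.lbL hH hr.lbE (lb_pow hH 0) nL kH (k := (c + 1) * k)
    (by positivity)
    fun i j => .of_forall fun J => ?_) (ef_int hT ⟨_, _, hr.lbE, hr.secE,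
      KodA.dense_nz hr.lbE hr.secE ha' hx', rfl⟩ (nL.mn.pow d))
  have l := lb_mul (lb_pow hr.lbL (J * i)) (lb_pow hr.lbA (J * (c + 1)))
  have h1 := RgnH.hh_rg hr.lbE l kV (Tp.rg _ V Q _ 1 1 ⟨hQ, hr.lbL, one_pos, Tp.N2.refl hr.lbL⟩
    (J * i) (J * (c + 1))).2 (J * j)
  rw [cls_mul (lb_pow hr.lbL _) (lb_pow hr.lbA _), cls_pow hr.lbL, cls_pow hr.lbA] at h1
  refine ((hh_secs lD ht (KodA.dense_nz lD ht ha hx) kV _ J).trans
    (hh_bpf (lb_pow hr.lbA J) (bpf_pow bA J) kV _)).trans ((le_of_eq (congrArg _ ?_)).trans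
    (h1.trans ((hk _ _).trans_eq (congrArg _ ?_))))
  · rw [cls_mul (lb_pow hr.lbA _) (lb_zp hH _), cls_pow hr.lbA, cls_pow hr.lbA, cls_zp hH]
    module
  · rw [cls_pow hH]
    module

end Vale.Agent.P270G
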