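import Vale.Agent.P270G.Defs
import Vale.Agent.P285W.J.Nb
import Vale.Agent.P285W.J.KodA
import Vale.Agent.P280Z.Ld.Iso
import Vale.Agent.P280Z.Ld.Ber
import Vale.Agent.P281Z.Sc.Ord
import Vale.Agent.P281Z.Sc.Pic

/-!
# P270G: contracted curves on a surface are rigid
-/

open scoped Manifold ContDiff Topology
open Set Filter Function
open Vale.Agent.P272.K Vale.Agent.P285.H281.FD Vale.Agent.P281Z Vale.Agent.P280Z
open Vale.Agent.P277Z (Hol at_chart)
open Vale.Agent.P277Z.Slc (IsDiv Snc lin LEq)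
open Vale.Agent.P277.HD (pull)
open Vale.Agent.P285N Vale.Agent.P285W.J

noncomputable section

namespace Vale.Agent.P270G

namespace Rig2

variable {T : CT} {n : ℕ} {V : Mf n} {κ : Type} [Fintype κ] {G : κ → Set V.X}

theorem c1_cls (hT : T.OK) {L M : Bd V.X} (hL : IsLB n L) (hM : IsLB n M)
    (h : cls n L = cls n M) : T.c1 V L = T.c1 V M :=
  let ⟨t, ht⟩ := (cls_eq hL hM).1 h
  (Ld.iso V _ _ t hL hM ht).1 T hT.c1

theorem gen (hG : Snc n G) {l : κ} {x : V.X} (hx : x ∈ G l) :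
    ∃ y ∈ G l, ∀ l', l' ≠ l → y ∉ G l' := by
  classical
  obtain ⟨ζ, hζ, hI⟩ := hG x
  obtain ⟨y, ⟨m1, -, m3⟩, m4⟩ := (((Md.gen_pt hζ hI hx (P277Z.hol_const 1 x)
    (not_dvd_of (hζ l) fun h => h.self_of_nhds ⟨hx, one_ne_zero⟩)).self_of_nhds hx).and_eventually
    (eventually_all.2 fun l => (hζ l).1)).exists
  exact ⟨y, m1, fun l' e h => m3 l' e ((m4 l').2 h)⟩

theorem cut {V : Mf (n + 1)} {G : Set V.X} {O : Bd V.X} {σ : O.ι → V.X → ℂ}
    (h : IsDiv (n + 1) G O σ) (hc : IsConnected G) : ∃ (E : Mf n) (i : E.X → V.X),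
      Cut O σ i ∧ ConnectedSpace E.X ∧ ∀ y ∈ G, ∃ z, i z = y := by
  have h1 : {x | ¬ NZ O σ x} = G := Set.ext fun x =>
    (h.lb.cover x).elim fun a ha => ((not_congr (nz_iff h.lb
      (fun a b => h.sec.change a b x) ha)).trans not_not).trans (h.leq a x ha).mem
  obtain ⟨E, i, h2⟩ := Ld.BerH.cut h.lb h.sec fun y =>
    (h.lb.cover y).elim fun a ha => ⟨a, _, ha, at_chart y, ((h.leq a y ha).2 _ (at_chart y)).2⟩
  exact ⟨E, i, h2, h2.emb.conn.2 (h1.symm ▸ hc), fun y hy => h2.emb.ex (h1.symm ▸ hy)⟩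

/-- the twist by the exact pole orders does not vanish on the polar components -/
theorem tw (hG : Snc n G) {D : κ → Bd V.X} {σ : ∀ l, (D l).ι → V.X → ℂ}
    (hD : ∀ l, IsDiv n (G l) (D l) (σ l)) {M : Bd V.X} (hM : IsLB n M) {s : M.ι → V.X → ℂ}
    {o : κ → ℤ} {w : κ → ℝ} (hs : SecP n n id univ M G w s)
    (ho : ∀ a, ∀ x ∈ M.U a, OrdAt n G o (s a) x) :
    ∃ t, IsSec n (M.mul (lin D fun l => ((-o l).toNat : ℤ))) t ∧ ∀ l, (G l).Nonempty → o l ≤ 0 →
      ∃ y ∈ G l, ∃ a, y ∈ (M.mul (lin D fun l => ((-o l).toNat : ℤ))).U a ∧ t a y ≠ 0 := by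
  have hH := Hyp.of_snc hG
  have e0 : ∀ l, 0 ≤ ((-o l).toNat : ℤ) + o l := fun l => by omega
  have hs' : SecP n n id univ M G (fun l => (((-o l).toNat : ℤ) : ℝ)) s :=
    ⟨hs.hol, hs.chg, fun a x _ ha => (ho a x ha).bdP hH fun l _ => by exact_mod_cast e0 l⟩
  obtain ⟨t, t1, t2, t3⟩ := SecP.twist (k := fun l => ((-o l).toNat : ℤ)) holM_id (trv_id hH) hG hD
    hM isOpen_univ hs' fun l => lt_add_one _
  refine ⟨t, isSec_of (fun a x ha => t1 a x trivial ha) fun a b x ha hb => t2 a b x trivial ha hb,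
    fun l ⟨x₀, hx₀⟩ hl => ?_⟩
  obtain ⟨x, hx, hx'⟩ := gen hG hx₀
  obtain ⟨a, ha⟩ := hM.cover x
  choose j hj using fun l' => (hD l').lb.cover x
  have hζ := fun l' => (hD l').leq _ x (hj l')
  obtain ⟨b, b1, -, b3, b4⟩ := ho a x ha _ hζ
  have n1 := lb_near hM ha
  have n2 := eventually_all.2 fun l' => lb_near (hD l').lb (hj l')
  have k := hH.eq (t1 (a, j) x trivial ⟨ha, hj⟩) (b1.mul (Hol.prod Finset.univ fun l' _ =>
    (hζ l').hol.pow (((-o l').toNat : ℤ) + o l').toNat)) (by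
      filter_upwards [b3, n1, n2, off_iff hζ] with y r1 r2 r3 r4 r5
      rw [t3 a j y trivial r2 r3 r5, r1 r5, mul_assoc, ← Finset.prod_mul_distrib]
      refine congrArg _ (Finset.prod_congr rfl fun l' _ => ?_)
      rw [← zpow_add₀ (r4.1 r5 l'), ← zpow_natCast, Int.toNat_of_nonneg (e0 l'), add_comm])
  have n3 : ∀ᶠ y in 𝓝 x, ∀ l', l' ≠ l → σ l' (j l') y ≠ 0 := eventually_all.2 fun l' => by
    by_cases e : l' = l
    · exact .of_forall fun _ h => (h e).elim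
    · exact ((hζ l').hol.ne_near (mt (hζ l').mem.1 (hx' l' e))).mono fun _ h _ => h
  obtain ⟨y, ⟨m1, m2⟩, m3, m4, m5, m6⟩ := ((b4 l hx).and_eventually (k.and (n1.and
    (n2.and n3)))).exists
  refine ⟨y, m1, (a, j), ⟨m4, m5⟩, ?_⟩
  refine m3.trans_ne (mul_ne_zero m2 (Finset.prod_ne_zero_iff.2 fun l' _ => ?_))
  by_cases e : l' = l
  · rw [show (((-o l').toNat : ℤ) + o l').toNat = 0 by rw [e]; omega, pow_zero]
    exact one_ne_zero
  · exact pow_ne_zero _ (m6 l' e)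

/-- the Hodge index theorem against a nef and big class -/
theorem hodge (hT : T.OK) {V : Mf 2} {h e lam x : T.H V} (hc : ConnectedSpace V.X) (hh : T.Kc V h)
    (he : Ef T V e) (hl : Nf T V lam) (el : e + h = lam) (h1 : x ∈ T.Ty V) (h2 : T.Dg V 1 x)
    (h3 : T.int V (x * lam) = 0) (h4 : 0 ≤ T.int V (x * x)) : x = 0 := by
  have p1 := kc_pos hT hh
  have p2 := ef_int hT he (kc_nf hT hh).mn
  have p3 := ef_int hT he hl.mn
  have p4 : 0 < T.int V (lam * h) := by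
    rw [← el, add_mul, map_add, ← sq]; linarith
  have p5 : 0 < T.int V (lam * lam) := by
    have : lam * lam = e * lam + lam * h := by rw [← el]; ring
    rw [this, map_add]; linarith
  obtain ⟨t, ht⟩ : ∃ t : ℝ, t * T.int V (lam * h) = T.int V (x * h) :=
    ⟨_, div_mul_cancel₀ _ p4.ne'⟩
  have k := hod hT (d := 0) (x := x - t • lam) hc hh
    ((T.Ty V).sub_mem h1 ((T.Ty V).smul_mem (nf_ty hT hl) t))
    (dg_sub hT h2 (dg_smul hT t (nf_dg hT hl)))
    (by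
      show T.int V ((x - t • lam) * h ^ 1) = 0
      rw [pow_one, sub_mul, smul_mul_assoc, map_sub, map_smul, smul_eq_mul, ht, sub_self])
    (by
      have : (x - t • lam) * (x - t • lam) * h ^ 0 =
          x * x - (2 * t) • (x * lam) + (t * t) • (lam * lam) := by
        simp only [Algebra.smul_def, map_mul, map_ofNat]; ring
      rw [this, map_add, map_sub, map_smul, map_smul, h3, smul_zero, sub_zero, smul_eq_mul]
      exact add_nonneg h4 (mul_nonneg (mul_self_nonneg t) p5.le))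
  rw [sub_eq_zero] at k
  rw [k, smul_mul_assoc, map_smul, smul_eq_mul] at h3
  rw [k, (mul_eq_zero.1 h3).resolve_right p5.ne', zero_smul]

end Rig2

open Rig2 in
theorem rig2 : RIG2 := by
  classical
  intro T hT κ ι _ A m N Λ L hA hc hΛ hL hneg k i M s hM e ⟨j, hs⟩
  have := hA.conn
  have hG := hA.snc
  have hH := Hyp.of_snc hG
  by_cases h0 : ∃ x, x ∈ off A.G ∧ NZ M s x
  swap
  · refine ⟨hs.hol, hs.chg, fun a x _ ha ζ _ => ⟨0, (lb_near hM ha).mono fun y hy hy' => ?_⟩⟩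
    have : s a y = 0 := by_contra fun h => h0 ⟨y, hy', (hs.nz_iff hM trivial hy' hy).2 h⟩
    rw [this, norm_zero, zero_mul]
  obtain ⟨o, ho⟩ := hs.ord' hG hM (fun l => (hc l).isPreconnected) h0
  obtain ⟨D, σ, hD⟩ := hH.exists_div
  have lD := fun l => (hD l).lb
  have neg : ∀ l, o l < 0 → m l < 0 := fun l hl => by
    obtain ⟨x, hx⟩ := (hc l).nonempty
    obtain ⟨a, ha⟩ := hM.cover x
    have h1 := ((ho a x ha).bdP_iff hG).1 (hs.bdP trivial ha) l hx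
    by_contra h
    rw [if_neg h, zero_add] at h1
    exact absurd (Int.cast_nonneg_iff.1 h1) (not_le.2 hl)
  obtain ⟨t, ht, ht'⟩ := tw hG hD hM hs ho
  have lQ := lb_mul hM (lb_lin lD fun l => ((-o l).toNat : ℤ))
  obtain ⟨H, lH, pH, D', t', lD', eD', st', y', ny'⟩ := hΛ.big
  have kH := hT.c1.pos _ _ lH pH
  have eM : T.c1 A.Z M = (k : ℝ) • T.c1 A.Z Λ + (i : ℝ) • T.c1 A.Z L := by
    rw [c1_cls hT hM (lb_mul (lb_pow hΛ.lb k) (lb_pow hL i)) (by
      rw [e, cls_mul (lb_pow hΛ.lb k) (lb_pow hL i), cls_pow hΛ.lb, cls_pow hL]),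
      hT.c1.mul _ _ _ (lb_pow hΛ.lb k) (lb_pow hL i), hT.c1.pow _ _ _ hΛ.lb, hT.c1.pow _ _ _ hL]
  obtain ⟨x, hx⟩ : ∃ x, x = ∑ l, ((((-o l).toNat : ℤ) : ℝ)) • T.c1 A.Z (D l) := ⟨_, rfl⟩
  have eL : T.c1 A.Z (lin D fun l => ((-o l).toNat : ℤ)) = x := hx ▸ hT.c1.lin _ _ _ lD
  have xi : ∀ z, T.int A.Z (x * z) =
      ∑ l, ((((-o l).toNat : ℤ) : ℝ)) * T.int A.Z (T.c1 A.Z (D l) * z) := fun z => by
    simp only [hx, Finset.sum_mul, map_sum, smul_mul_assoc, map_smul, smul_eq_mul]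
  have c0 : ∀ l, (0 : ℝ) ≤ (((-o l).toNat : ℤ) : ℝ) := fun l => by positivity
  have cz : ∀ l, ¬ o l < 0 → (((-o l).toNat : ℤ) : ℝ) = 0 := fun l hl => by
    rw [show (-o l).toNat = 0 by omega]; simp
  have x0 : x = 0 := by
    refine hodge hT this kH (e := T.c1 A.Z D') ⟨D', t', lD', st', ?_, rfl⟩
      (nn_nf hT (hT.c1.bpf _ _ hΛ.lb hΛ.bpf)) ?_ (eL ▸ hT.tp.c1 _ _ (lb_lin lD _))
      (eL ▸ hT.c1.deg _ _) ?_ ?_
    · obtain ⟨a, ha⟩ := lD'.cover y'
      exact KodA.dense_nz lD' st' ha (ny' a ha)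
    · rw [← hT.c1.mul _ _ _ lD' lH]
      exact c1_cls hT (lb_mul lD' lH) hΛ.lb (by rw [cls_mul lD' lH, eD', sub_add_cancel])
    · rw [xi]
      refine Finset.sum_eq_zero fun l _ => ?_
      by_cases hl : o l < 0
      · rw [(hneg l (neg l hl)).1 _ _ (hD l), mul_zero]
      · rw [cz l hl, zero_mul]
    · rw [xi]
      refine Finset.sum_nonneg fun l _ => ?_
      by_cases hl : o l < 0
      swap
      · rw [cz l hl, zero_mul]
      refine mul_nonneg (c0 l) ?_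
      obtain ⟨E, ιE, hE, cE, sE⟩ := cut (hD l) (hc l)
      obtain ⟨y, hy, a, ha, hne⟩ := ht' l (hc l).nonempty hl.le
      obtain ⟨z, rfl⟩ := sE y hy
      have ef : Ef T E (T.pull hE.emb.hol (T.c1 A.Z _)) :=
        ⟨_, _, hE.emb.hol.lb lQ, hE.emb.hol.sec ht,
          KodA.dense_nz (hE.emb.hol.lb lQ) (hE.emb.hol.sec ht) (a := a) ha hne,
          hT.c1.pull hE.emb.hol _ lQ⟩
      have h1 := ef_int hT ef mn_one
      rw [mul_one, ← hT.pl hE, hT.c1.mul _ _ _ hM (lb_lin lD _), eL, eM, mul_add, mul_add,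
        mul_smul_comm, mul_smul_comm, map_add, map_add, map_smul, map_smul,
        (hneg l (neg l hl)).1 _ _ (hD l), (hneg l (neg l hl)).2 _ _ (hD l)] at h1
      simpa using h1
  have pos : ∀ l, 0 < T.int A.Z (T.c1 A.Z (D l) * T.c1 A.Z H) := fun l => by
    obtain ⟨E, ιE, hE, cE, -⟩ := cut (hD l) (hc l)
    rw [hT.pl hE]
    simpa using kc_pos hT (kc_pull hT hE.emb.hol hE.emb.imm kH)
  have h1 := xi (T.c1 A.Z H)
  rw [x0, zero_mul, map_zero] at h1
  have h2 := (Finset.sum_eq_zero_iff_of_nonneg fun l _ => mul_nonneg (c0 l) (pos l).le).1 h1.symm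
  refine ⟨hs.hol, hs.chg, fun a x _ ha => (ho a x ha).bdP hH fun l _ => ?_⟩
  have h3 := (mul_eq_zero.1 (h2 l (Finset.mem_univ l))).resolve_right (pos l).ne'
  have h4 : ((-o l).toNat : ℤ) = 0 := by exact_mod_cast h3
  rw [zero_add]
  exact_mod_cast (by omega : 0 ≤ o l)

end Vale.Agent.P270G
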