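import Vale.Agent.P270G.Defs
import Vale.Agent.P285W.J.Top
import Vale.Agent.P285S.Mm.Mkpr
import Vale.Agent.P285S.Mm.Ref
import Vale.Agent.P285N.Tp.Ordu
import Vale.Agent.P285N.Xc.Piso
import Vale.Agent.P277Z.Slc.Cmp

/-!
# P270G: non vanishing and abundance on the surface
-/

open scoped Manifold ContDiff Topology
open Set Filter Function
open Vale.Agent.P272.K Vale.Agent.P285.H281.FD Vale.Agent.P281Z Vale.Agent.P280Z
open Vale.Agent.P277Z.Slc (IsDiv Snc lin)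
open Vale.Agent.P277.HD (pull)
open Vale.Agent.P285N Vale.Agent.P285W.J Vale.Agent.P285W.Bs

noncomputable section

namespace Vale.Agent.P270G

theorem tp_of_nf {T : CT} (hT : T.OK) {n : ℕ} {V : Mf n} {L : Bd V.X} (hL : IsLB n L)
    (h : Nf T V (T.c1 V L)) : Tp.Nf V L := fun H lH pH i => by
  obtain ⟨w, hw, h⟩ := nf_smul hT (Nat.cast_nonneg i) h
  obtain ⟨r, r0, k⟩ := kc_sub hT (hT.c1.pos V H lH pH) (nf_ty hT (nn_nf hT hw))
    (nf_dg hT (nn_nf hT hw))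
  have k1 := kc_add hT (hT.po.smul _ (inv_pos.2 r0) k) (h _ (inv_pos.2 r0))
  refine hT.kp V _ (lb_mul (lb_pow hL i) lH) ?_
  rw [hT.c1.mul V _ _ (lb_pow hL i) lH, hT.c1.pow V _ _ hL]
  rwa [smul_sub, smul_smul, inv_mul_cancel₀ r0.ne', one_smul, add_comm, add_add_sub_cancel] at k1

/-- **SF1** -/
theorem sf1_of (h1 : RIG2) (h2 : TOPB) (h3 : KXC) (hO : O1) (hP : PUSH) : SF1 := by
  intro T hT κ ι _ A m N L Λ h
  have ok := h.cw.ok
  by_cases h0 : T.c1 A.Z L = 0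
  · exact ⟨1, one_pos, by simpa [h0] using P285W.J.ef_zero hT⟩
  obtain ⟨H, C, lH, pH, hF⟩ := h2 2 T hT κ ι A m N m m Λ L ok h.fb h.lb
    (h1 T hT κ ι A m N Λ L ok h.cw.conn h.fb h.lb h.neg) fun _ k => k
  obtain ⟨r, H', r0, hB, hK⟩ := h3 2 T hT κ ι A m N L H C h.cw h.lb h.nef lH pH hF
  have eL := hT.c1.pow A.Z L r h.lb
  have pA : Pos 2 H' := Xc.piso _ _ _ _ (lb_mul (lb_pow hB.lL 0) hB.lA) hB.lA
    (by rw [cls_mul (lb_pow hB.lL 0) hB.lA, cls_pow hB.lL, zero_smul, zero_add]) (hB.pos 0)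
  have hN := hO T hT 0 A.Z _ _ (bas_of hT ok.conn hB.lL hB.lA pA
    (tp_of_nf hT hB.lL (eL ▸ nf_smul hT r.cast_nonneg (nf_of hT ok.prj h.lb h.nef)))
    ⟨_, hT.c1.pos _ _ hB.lA pA, fun j hj => by
      obtain rfl : j = 0 := by omega
      rw [eL, pow_zero, mul_one, smul_pow, map_smul, h.sq, smul_zero]⟩
    (eL ▸ smul_ne_zero (by positivity) h0)) hB.bA hB.bL hK
  obtain ⟨a, a0, k⟩ := hP T hT _ _ _ ok.conn ok.prj hB.lL hN
  exact ⟨a * r, by positivity, by rwa [eL, smul_smul, ← Nat.cast_mul] at k⟩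

/-- **SF2** -/
theorem sf2_of (h1 : UP) (h2 : FBU) (h3 : NZU) (h4 : RIG2) (h5 : TOPB) (h6 : SA2) : SF2 := by
  intro T hT κ ι _ A m N L Λ a h a0 ⟨D, s, lD, hs, hd, eD⟩
  have ok := h.cw.ok
  have := ok.conn
  obtain ⟨κ', _, A', m', π, S, md, cw, k1, k2⟩ := h1 2 T hT κ ι A m N D s h.cw lD hs hd.nonempty
  have ok' := cw.ok
  have lP := md.hol.lb lD
  have hs' := md.hol.sec hs
  obtain ⟨f, hf⟩ := Tp.ordu 2 A'.Z κ' A'.G _ _ ok'.snc cw.conn lP hs' fun y hy => (k1 y hy).2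
  have hG := Hyp.of_snc ok'.snc
  choose O σ hO using fun l => P277Z.Slc.stDiv 2 A'.Z.X (A'.G l) fun x => (hG x).elim fun ζ k =>
    ⟨ζ l, k l⟩
  have e1 : cls 2 (pull π D) = ∑ l, (f l : ℤ) • cls 2 (O l) := by
    rw [← cls_lin fun l => (hO l).lb]
    refine P285S.Mm.RefH.cls_unit (D := (⋃ l, A'.G l)ᶜ)
      (P277Z.Slc.Cp.dense_iUnion fun l => (hO l).ex) lP (lb_lin (fun l => (hO l).lb) _) hs'
      (Tp.sec_mon (fun l => (hO l).sec) f) (fun c x hc hx => Tp.mon_ne hO f hc fun l _ k =>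
        hx (mem_iUnion.2 ⟨l, k⟩)) fun b c x hb hc =>
      hf b x hb _ fun l => (hO l).leq _ x (hc l)
  obtain ⟨t, t0, ht⟩ := cw.tor
  obtain ⟨x, hx⟩ : ∃ x, x = (∑ l, f l + 1) * t := ⟨_, rfl⟩
  have xf : ∀ l, f l < x := fun l =>
    (Nat.lt_succ_of_le (Finset.single_le_sum (fun _ _ => Nat.zero_le _) (Finset.mem_univ l))).trans_le
      (hx ▸ Nat.le_mul_of_pos_right _ t0)
  have e2 : x • cls 2 A'.P = 0 := by rw [hx, mul_smul, ht, smul_zero]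
  rw [Xc.cls_eq 2 κ' ι m' N A' O σ ok' hO] at e2
  obtain ⟨Ω, ok''⟩ := P285S.Mm.mkpr 2 κ' A'.Z A'.G O σ (pull π D) (fun l => x * m' l + f l) (x * N)
    ok'.conn ok'.prj ok'.snc hO lP (Nat.mul_pos (by rw [hx]; positivity) ok'.pos)
    (ok'.even.mul_left x) (fun l => by
      have := cw.klt l
      have := xf l
      push_cast
      nlinarith) (by
      rw [e1, ← zero_add (∑ l, _), ← e2]
      simp only [add_smul, mul_smul, Finset.sum_add_distrib, smul_add, Finset.smul_sum,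
        natCast_zsmul, add_assoc])
  obtain ⟨k, -, fb⟩ := h2 2 A.Z A'.Z π S Λ ok'.conn ok'.prj md h.fb
  have nl := nf_of hT ok.prj h.lb h.nef
  have nΛ := bf_nf hT ⟨Λ, h.fb.lb, h.fb.bpf, rfl⟩
  have eP : T.c1 A'.Z (pull π D) = (a : ℝ) • T.pull md.hol (T.c1 A.Z L) := by
    rw [hT.c1.pull md.hol D lD, eD, map_smul]
  have key : ∀ z (c : ℝ), Nf T A.Z z → (∀ j, m j < 0 → Nl T A j z) → ∀ l, m' l < 0 →
      Nl T A' l (c • T.pull md.hol z) := fun z c hz hn l hl Q τ hQ => by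
    rw [mul_smul_comm, map_smul, h3 1 T hT κ ι A m N A'.Z π S md z Q τ ok ok'.prj hz.mn
      (nf_dg hT hz) hQ.lb hQ.sec ((P277Z.Slc.Dv.dense_compl hQ.ex).mono
        fun y (hy : y ∉ A'.G l) i hi e => hy ((hQ.leq i y hi).mem.1 e)) fun y hy => (k2 l hl y (by_contra fun c => hy fun i hi e =>
        c ((hQ.leq i y hi).mem.1 e))).imp_right fun ⟨j, c1, c2⟩ => ⟨j, hn j c1, c2⟩, smul_zero]
  obtain ⟨H, C, lH, pH, hF⟩ := h5 2 T hT κ' _ ⟨_, _, _, _, Ω⟩ _ _ _ _ _ (pull π D) ok'' fb lP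
    (h4 T hT κ' _ ⟨_, _, _, _, Ω⟩ _ _ _ _ ok'' cw.conn fb lP fun l hl => by
      have hl' : m' l < 0 := by
        by_contra c
        exact hl.not_ge (by have := not_lt.1 c; positivity)
      rw [eP, hT.c1.pow _ _ _ (md.hol.lb h.fb.lb), hT.c1.pull md.hol Λ h.fb.lb]
      exact ⟨key _ _ nΛ (fun j c => (h.neg j c).1) l hl', key _ _ nl (fun j c => (h.neg j c).2) l hl'⟩)
    fun _ c => c
  have nP := tp_of_nf hT lP (eP ▸ nf_smul hT a.cast_nonneg (nf_pull hT md.hol nl))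
  obtain ⟨j, j0, hb⟩ := h6 2 κ' _ _ _ _ ⟨ok'', H, ⟨lH, lP, fun i j M lM e => Xc.piso _ _ _ _
    (lb_mul (lb_pow lP i) lH) lM (by
      rw [e, cls_mul (lb_pow lP i) lH, cls_pow lP, sub_self, smul_zero, add_zero, add_comm])
    (nP H lH pH i)⟩, C, hF⟩ (by norm_num)
  exact ⟨A'.Z, π, S, md, j * a, ok'.prj, by positivity, (pull π D).pow j, lb_pow lP j, hb, by
    rw [hT.c1.pow _ _ _ lP, eP, smul_smul]⟩

end Vale.Agent.P270G
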