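import Vale.Agent.P270G.Top
import Vale.Agent.P270G.Bern
import Vale.Agent.P270G.Contr
import Vale.Agent.P270G.Cov
import Vale.Agent.P270G.D30
import Vale.Agent.P270G.End
import Vale.Agent.P270G.End0
import Vale.Agent.P270G.Flb
import Vale.Agent.P270G.Fpf
import Vale.Agent.P270G.Fy
import Vale.Agent.P270G.Fy1
import Vale.Agent.P270G.Fy2
import Vale.Agent.P270G.Gdf
import Vale.Agent.P270G.Kd
import Vale.Agent.P270G.Kxc
import Vale.Agent.P270G.Mm1
import Vale.Agent.P270G.Mm2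
import Vale.Agent.P270G.Nz
import Vale.Agent.P270G.Rfn
import Vale.Agent.P270G.Rgn
import Vale.Agent.P270G.Rig2
import Vale.Agent.P270G.Sf
import Vale.Agent.P285S.Mg.All
import Vale.Agent.P285S.Tp.All
import Vale.Agent.P285S.Bs2.Mdsn
import Vale.Agent.P285S.Bs2.Neg0
import Vale.Agent.P285S.Sf.Nuld
import Vale.Agent.P285W.O.Nlr
import Vale.Agent.P285N.All

/-!
# P270G: everything in dimension three
-/

open Vale.Agent.P280Z.Co (ct ct_ok)
open Vale.Agent.P285S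

namespace Vale.Agent.P270G

theorem sa2 : SA2 :=
  Tp.sa_of Tp.As.sa1 (Tp.cl_lt 3) (nv2_of ct_ok P285N.Tp.flc P285N.Tp.dp Tp.As.nv1)

theorem sae : SAE := Tp.sa_dim Tp.As.sa1 sa2

theorem nul : Sf.NUL := Sf.nul_of P285W.O.nlr Sf.exn

theorem nzu : NZU := nzu_of nul

theorem zc : ZC := zc_of (Mm.Gp.zds 3 (by omega)) (Mm.Gp.grz Mm.Gp.nfz Mm.Gp.rigz) rfn

theorem fy : FY :=
  fy_nt (P285W.J.nt_of P285W.Ct.cuts) fy1 (fy2_of bern znl gen)
    (sf1_of rig2 topb kxc P285W.Bs.o1 P285W.Ct.push) (sf2_of up fbu nzu rig2 topb sa2)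

theorem mm1 : MM1 := mm1_of zc crep gen nuu nzu rgn avg fy sae B2.neg0

theorem dup : DUP := dup_of up nuu nzu

theorem core : CORE :=
  core_of (fun _ hT _ _ p l n => P285W.J.nf_of hT p l n) (fun _ _ _ _ => Tp.nf_comp) B2.mdsn
    (snk_of dup znl mm1 rgn nzu B2.neg0) dup cov mm1 (mm2_of zc crep gen topb contr) nuu nzu nuq
    (end_of end0 topb kxc rgn (ins_of nzu))

theorem r3 : R3 ct :=
  ⟨P285N.Tp.rows, P285N.Tp.o1g, core, d30_of exq nuu nul, kd2, kd3, gdf_of rgq fpf, sae, nsd⟩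

end Vale.Agent.P270G
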