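import Vale.Agent.P270G.Defs
import Vale.Agent.P285S.Tp.Blu
import Vale.Agent.P285W.Kx.Kxp

/-!
# P270G: models, and the assembly of the main contradiction
-/

open scoped Manifold ContDiff Topology
open Set Filter Function
open Vale.Agent.P272.K Vale.Agent.P285.H281.FD Vale.Agent.P281Z Vale.Agent.P280Z
open Vale.Agent.P277Z.Slc (IsDiv Snc)
open Vale.Agent.P277.HD (pull)
open Vale.Agent.P285N Vale.Agent.P285W.J Vale.Agent.P285W.Bs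
open Vale.Agent.P285S.B2 (Zr Nu Nh MD MDSN)
open Vale.Agent.P285S.Mm (Sp)

noncomputable section

namespace Vale.Agent.P270G

theorem crep : CREP := by
  intro d T _ κ ι _ A m N Y π S κ' _ G h hM hY hG hc ho
  obtain ⟨m', Ω, h1, h2, h3⟩ := P285S.Tp.blow h.ok hM hY hG hc ho
  obtain ⟨t, t0, ht⟩ := h.tor
  refine ⟨m', Ω, ⟨h1, fun l => (h1.le l).lt_of_ne fun e => ?_, hc, t, t0, ?_⟩, h3⟩
  · obtain ⟨y, hy⟩ := (hc l).nonempty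
    obtain ⟨k, k1, -⟩ := h2 l e y hy
    exact (h.klt k).ne k1
  · show t • cls d ((pull π A.P).pow 1) = 0
    rw [cls_pow (hM.hol.lb h.ok.lb), one_smul, cls_pull hM.hol h.ok.lb, ← map_nsmul, ht, map_zero]

theorem up : UP := by
  intro d T hT κ ι _ A m N D s h hD hs h0
  have := h.ok.conn
  have hZ := (P285W.Kx.Kp.thin_nz hD hs h0).union (snc_thin_off h.ok.snc)
  obtain ⟨I, hI, -⟩ := Rs.idl d A.Z _ hZ.1
  rw [← hI] at hZ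
  obtain ⟨R⟩ := Rs.res d d A.Z univ I an_univ
    (subM_open (by rw [← compl_eq_univ_sdiff]; exact hZ.closed.isOpen_compl))
  have h1 : Modif d R.π _ := ⟨hZ, R.ovr⟩
  have k : ∀ y ∈ off R.G, R.π y ∉ I.Z := fun y hy k => ((R.bad y).1 k).elim hy
  obtain ⟨m', Ω, h2, h3⟩ := crep d T hT κ ι A m N _ R.π _ _ R.G h h1 (R.prj h.ok.prj) R.snc R.conn
    fun y hy => ⟨k y hy, not_not.1 fun c => k y hy (hI ▸ .inr c)⟩
  exact ⟨_, inferInstance, _, m', R.π, _, h1, h2,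
    fun y hy => ⟨k y hy, not_not.1 fun c => k y hy (hI ▸ .inl c)⟩, h3⟩

open P285S.Mm.Gp in
theorem zc_of (h1 : ZDS 3) (h2 : GRZ) (h3 : RFN) : ZC := by
  intro κ ι _ A m N O σ φ c L Q hI hc H hH hP
  obtain ⟨R, Ψ, a, b, -⟩ := h1 κ ι A m N O σ φ c L Q hI hc H hH hP
  obtain ⟨R', Ψ', a', b', c'⟩ := h3 3 κ ι A m N O σ φ c L Q hI R H Ψ a b
  exact ⟨R', Ψ', a', b', h2 3 κ ι A m N O σ φ c L Q hI R' H Ψ' hH hP a' b', c'⟩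

theorem Cov.mono {T : CT} {Z : Mf 3} {l : T.H Z} {S S' : Set Z.X} (h : Cov T Z l S) (k : S ⊆ S') :
    Cov T Z l S' := fun U p hp a => (h U p hp a).trans k

theorem dense_div {d : ℕ} {Z : Mf d} {G : Set Z.X} {O : Bd Z.X} {σ : O.ι → Z.X → ℂ}
    (h : IsDiv d G O σ) : Dense {y | NZ O σ y} :=
  (P277Z.Slc.Dv.dense_compl h.ex).mono fun y k a ha => mt (h.leq a y ha).mem.1 k

theorem core_of (nf : ∀ T : CT, T.OK → ∀ (V : Mf 3) (L : Bd V.X), V.Prj → IsLB 3 L → Tp.Nf V L →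
      Nf T V (T.c1 V L)) (nfc : ∀ (V Y : Mf 3) (π : Y.X → V.X) (L : Bd V.X), HolM 3 3 π → V.Prj →
      IsLB 3 L → Tp.Nf V L → Tp.Nf Y (pull π L))
    (md : MDSN) (snk : SNK) (dup : DUP) (cov : COV) (mm1 : MM1) (mm2 : MM2) (nuu : NUU)
    (nzu : NZU) (nuq : NUQ) (en : END) : CORE := by
  intro T hT κ ι _ A m N L h
  have cA : Cp A.Z := ⟨h.cw.ok.conn, h.cw.ok.prj⟩
  have := cA.conn
  refine snk T hT κ ι A m N L h (md T hT 3 A.Z _ 2 cA (by omega)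
    (nf T hT _ L cA.prj h.lb h.nef) fun D s hD hs hd => by_contra fun hn => ?_)
  have c0 : Cov T A.Z (T.c1 A.Z L) {x | ¬ NZ D s x} := by
    rintro U p hp a _ ⟨x, rfl⟩ k
    exact hn ⟨2, U, p, hp, a, x, k⟩
  obtain ⟨κ₁, _, A₁, m₁, π₁, S₁, hπ₁, h₁, ho⟩ := dup T hT κ ι A m N L D s h hD hs hd.nonempty
  have n₁ := nf T hT _ _ h₁.cw.ok.prj h₁.lb h₁.nef
  have c1 := cov.up T hT _ _ π₁ S₁ _ hπ₁ _ subset_union_right (c0.mono subset_union_left)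
  rw [← hT.c1.pull hπ₁.hol _ h.lb] at c1
  have c2 := cov.one T hT κ₁ ι A₁ m₁ N _ h₁.cw n₁
    (c1.mono fun y a b => a.elim (fun a => a (ho y b).2) (ho y b).1)
  obtain ⟨C, hC⟩ := mm1 T hT κ₁ ι A₁ m₁ N _ h₁
  have l₀ := hC.md.hol.lb h₁.lb
  have f₀ := nfc _ _ C.π _ hC.md.hol h₁.cw.ok.prj h₁.lb h₁.nef
  have e₀ := hT.c1.pull hC.md.hol _ h₁.lb
  have n₀ := nf T hT _ _ hC.cw.ok.prj l₀ f₀
  have c3 := (cov.up T hT _ _ C.π _ _ hC.md _ subset_rfl c2).mono fun y a => (hC.sp y).1 a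
  obtain ⟨C', hC', δ, D', s', d0, d1, d2, d3, d4⟩ := mm2 T hT _ _ C.B C.m C.N _ C.Λ C.Q C.Φ hC.cw l₀
    f₀ hC.neg hC.fb hC.lbQ hC.rig
  have := hC'.cw.ok.conn
  have n' := nf_pull hT hC'.md.hol n₀
  have nq := nf T hT _ _ hC'.cw.ok.prj hC'.lbQ hC'.nfQ
  have d5 : Dense {y | NZ D' s' y} := (snc_dense_off hC'.cw.ok.snc).mono
    fun y (a : y ∈ off C'.B.G) => d3 y fun ⟨l, _, b⟩ => a l b
  have ef : Ef T _ (T.c1 _ D') := ⟨D', s', d1, d2, d5, rfl⟩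
  have z₀ : Sp C.B C.Φ ⊆ Nz T C.B (T.c1 _ (pull C.π (pull π₁ L)) ^ 2) := fun y ⟨j, j0, hj⟩ =>
    ⟨j, fun O σ hO => by
      rw [e₀, ← map_pow]
      exact nzu 2 T hT κ₁ ι A₁ m₁ N _ C.π _ hC.md _ O σ h₁.cw.ok hC.cw.ok.prj (n₁.mn.pow 2)
        (dg_pow hT (nf_dg hT n₁) 2) hO.lb hO.sec (dense_div hO) fun y a => .inr ((hC.sp y).2
          ⟨j, j0, by_contra fun b => a fun c hc e => b ((hO.leq c y hc).mem.1 e)⟩), hj⟩
  have z' := nzu 2 T hT _ _ C.B C.m C.N _ C'.π _ hC'.md _ D' s' hC.cw.ok hC'.cw.ok.prj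
    (n₀.mn.pow 2) (dg_pow hT (nf_dg hT n₀) 2) d1 d2 d5 fun y a =>
      .inr (z₀ ((hC'.sp y).2 (by_contra fun b => a (d3 y b))))
  rw [map_pow] at z'
  rw [← e₀] at c3
  rw [d4] at nq
  refine en T hT _ _ C'.B C'.m C'.N C'.Q C'.Λ C'.Φ hC'.cw hC'.lbQ hC'.nfQ ?_ ?_ hC'.neg hC'.fb
    hC'.rig ?_
  all_goals rw [d4]
  · refine nuq T hT _ _ _ δ ⟨hC'.cw.ok.conn, hC'.cw.ok.prj⟩ n' ?_ d0 ef z' nq
    refine nuu.nu T hT 3 2 _ _ _ _ hC'.md _ ⟨hC.cw.ok.conn, hC.cw.ok.prj⟩ hC'.cw.ok.prj n₀ ?_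
    rw [e₀]
    exact nuu.nu T hT 3 2 _ _ _ _ hC.md _ ⟨h₁.cw.ok.conn, h₁.cw.ok.prj⟩ hC.cw.ok.prj n₁ h₁.nu
  · refine nuu.te T hT 3 _ _ _ δ n' d0 ef (nuu.tr T hT 3 _ _ _ _ hC'.md _ ?_)
    rw [e₀]
    exact nuu.tr T hT 3 _ _ _ _ hC.md _ h₁.tr
  · exact cov.two T hT _ _ δ D' s' _ n' d0 d1 d2 d3 nq
      ((cov.up T hT _ _ C'.π _ _ hC'.md _ subset_rfl c3).mono fun y a => (hC'.sp y).1 a)

end Vale.Agent.P270G
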