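import Vale.Agent.P270G.Defs2
import Vale.Agent.P270G.D30
import Vale.Agent.P285S.Tp.Nvk
import Vale.Agent.P285S.Tp.Thr

/-!
# P270G, row EFQ: non vanishing for the data of the statement
-/

open Set Filter
open Vale.Agent.P272.K Vale.Agent.P285.H281.FD Vale.Agent.P281Z
open Vale.Agent.P277Z.Slc (IsDiv lin)
open Vale.Agent.P277.HD (pull)
open Vale.Agent.P285N Vale.Agent.P285N.Tp
open Vale.Agent.P285S.Tp (ef_add ef_smul ef_pull sec_cls nf_comp desc)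

noncomputable section

namespace Vale.Agent.P270G

namespace EfqH

theorem ef_of {n : ℕ} {Z : Mf n} {L : Bd Z.X} {s : L.ι → Z.X → ℂ} (hL : IsLB n L)
    (hs : IsSec n L s) (h : P285Z.St.NonZero L s) : P285S.Ef Z (cls n L) :=
  let ⟨_, x, h1, h2⟩ := h
  ⟨L, s, hL, rfl, hs, x, (nz_iff hL (fun a b => hs.change a b x) h1).2 h2⟩

theorem untw {d : ℕ} {κ ι : Type} [Fintype κ] {m : κ → ℤ} {N : ℕ} {A : Pr d κ ι} (hA : A.Ok m N)
    (hH : HC A m) {O : κ → Bd A.Z.X} {σ : ∀ l, (O l).ι → A.Z.X → ℂ}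
    (hO : ∀ l, IsDiv d (A.G l) (O l) (σ l))
    (h : Eff d (A.P.mul (lin O fun l => ((-m l).toNat : ℕ)))) : Eff d A.P := by
  obtain ⟨a, ha, s, s1, s2⟩ := h
  have lO := fun l => (hO l).lb
  have lC := lb_mul hA.lb (lb_lin lO fun l => ((-m l).toNat : ℕ))
  have hE := lb_lin lO fun l => ((a * (-m l).toNat : ℕ) : ℤ)
  have l1 := lb_pow hA.lb a
  obtain ⟨u, u1, ⟨b, c⟩, x, hx, u2⟩ := sec_cls (lb_mul l1 hE) (lb_pow lC a) (by
    rw [cls_mul l1 hE, cls_pow lC, cls_pow hA.lb, cls_mul hA.lb (lb_lin lO _), cls_lin lO,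
      cls_lin lO, smul_add, Finset.smul_sum]
    exact congrArg _ (Finset.sum_congr rfl fun l _ => by
      rw [Nat.cast_mul, mul_smul, natCast_zsmul])) s1 s2
  obtain ⟨v, v1, v2⟩ := SecP.untwist (i := id) (c := fun _ => 0) holM_id hO l1 isOpen_univ
    (secP_of_sec continuous_id u1 fun _ => le_rfl)
  obtain ⟨w, w1, w2⟩ := (hH a v (Xc.PolW.pol (j := a) (v1.mono continuous_id fun l => by
    rw [zero_add, Int.cast_natCast]))).isSec hA.snc l1 fun _ => one_pos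
  obtain ⟨y, y1, y2, y3⟩ := (((Hyp.of_div hO).freq x).and_eventually
    ((lb_near (lb_mul l1 hE) hx).and ((sec_hol u1 hx).ne_near u2))).exists
  exact ⟨a, ha, w, w1, b, y, y2.1, fun k => y3 ((v2 b c y trivial y2.1 y2.2 y1).trans
    (by rw [← w2 b y y2.1 y1, k, zero_mul]))⟩

end EfqH

open EfqH

theorem efq_of (hH : HCG) (n : ℕ) (hN : P285S.Mm.Ps.NVS n) : EFQ n := by
  intro V Q D t q C M hQ K hC lM nM ⟨τ, i1, i2⟩
  have r := hQ.bir.res
  obtain ⟨p, R, -, hR, lt, -⟩ := lrk2 n V Q D t q C Q.E 1 (fun _ => Q.s) hQ K r.lbE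
    (fun _ => r.secE) ⟨0, r.nzE⟩
  obtain ⟨H, c, h1, h2, hF⟩ := rgq n V Q C _ R hQ hR
  obtain ⟨B, hM⟩ := hR.md
  have hπ := hM.hol
  have ok := hR.ok
  have := ok.conn
  obtain ⟨O, σ, hO⟩ := (Hyp.of_snc ok.snc).exists_div
  have lO := fun l => (hO l).lb
  have dv := Tp.div_mon hO fun l => (-R.m l).toNat
  have lP := lb_mul ok.lb dv.lb
  have lL := hπ.lb r.lbL
  have cP : cls n R.A.P = R.k • hπ.pic (cls n C) := by
    rw [← cls_pull hπ K.lb]
    exact cls_pow (hπ.lb K.lb) _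
  have cL : cls n Q.L = cls n C + cls n M := by
    rw [← cls_mul K.lb lM, cls_eq r.lbL (lb_mul K.lb lM)]
    exact ⟨τ, fun a b x ha hb e he => (i1 a b e x he ha hb).1.analyticAt,
      fun a b x ha hb => (i1 a b _ x (P277Z.at_chart x) ha hb).2, i2⟩
  have lt' : ∀ l, (((R.m l).toNat : ℕ) : ℤ) < R.N := fun l => by
    have := lt l
    have := ok.pos
    omega
  obtain ⟨Ω, ok'⟩ := P285S.Mm.mkpr n _ R.Y R.G O σ _ (fun l => (R.m l).toNat) R.N this ok.prj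
    ok.snc hO lP ok.pos ok.even (fun l => (lt' l).le) (by
      rw [cls_mul ok.lb dv.lb, Xc.cls_eq n _ _ _ _ R.A O σ ok hO, cls_lin lO, add_assoc,
        ← Finset.sum_add_distrib]
      refine congrArg _ (Finset.sum_congr rfl fun l _ => ?_)
      rw [← add_smul]
      exact congrArg (· • _) (by omega))
  obtain ⟨A, lA, pA⟩ := hQ.prj
  suffices h : Eff n R.A.P by
    obtain ⟨a, ha, w, w1, b, y, w2, w3⟩ := h
    obtain ⟨u, u1, u2⟩ := desc hM (lb_pow K.lb (R.k * a)) (s := w)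
      ⟨w1.holo, fun a b z ha hb => (w1.change a b z ha hb).trans
        (congrArg (· * _) (pow_mul _ _ _).symm)⟩
    exact ⟨_, mul_pos hR.kp ha, u, u1, b, _, w2, u2 b y w2 ▸ w3⟩
  refine untw ok (hH n _ _ R.m R.N R.A H ((pull R.π Q.L).pow R.k)
    ok ⟨⟨h1, lb_pow lL _, fun i j M' m1 m2 => ?_⟩, c, fun k i j M' s m1 m2 => hF k (i * R.k) j M' s
      m1 (by rw [m2, cls_pow lL, mul_smul])⟩) hO (hN _ _ _ _ _ ok' (fun l => Int.natCast_nonneg _)
      (eq_empty_iff_forall_notMem.2 fun x ⟨l, hl, _⟩ => (lt' l).ne hl)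
      ⟨hπ.pic (cls n A), fun k => ?_⟩)
  · have l1 := lb_mul (lb_pow lL (i * R.k)) h1
    have l2 := lb_pow (hπ.lb lM) (j * R.k)
    refine Xc.piso n _ _ M' (lb_mul l2 l1) m1 ?_ (nf_comp hπ hQ.prj lM nM _ l1
      (nf_comp hπ hQ.prj r.lbL (D30H.nf hQ) H h1 h2 _) _)
    rw [m2, cls_mul l2 l1, cls_mul (lb_pow lL _) h1, cls_pow lL, cls_pow lL, cls_pow (hπ.lb lM), cP,
      cls_pull hπ r.lbL, cls_pull hπ lM, cL, map_add]
    module
  · obtain ⟨j, hj, s, s1, s2⟩ := hC A lA pA (k * R.k)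
    have l1 := lb_mul (lb_pow K.lb (k * R.k)) lA
    refine ⟨j, hj, (congrArg (P285S.Ef R.Y) ?_).mp (ef_add (ef_pull hM (ef_of (lb_pow l1 j) s1 s2))
      (ef_smul (ef_of dv.lb dv.sec dv.nz) (j * k)))⟩
    change _ = j • (k • cls n (R.A.P.mul _) + _)
    rw [cls_mul ok.lb dv.lb, cP, cls_pow l1, cls_mul (lb_pow K.lb _) lA, cls_pow K.lb, map_nsmul,
      map_add, map_nsmul]
    module

end Vale.Agent.P270G
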