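import Vale.Agent.P270G.Defs2
import Vale.Agent.P285N.Xc.Piso
import Vale.Agent.P285W.J.Scale

/-!
# P270G, row HCG: no poles for a good pair with a nef part
-/

open scoped Manifold ContDiff Topology
open Set Filter
open Vale.Agent.P272.K Vale.Agent.P285.H281.FD Vale.Agent.P281Z Vale.Agent.P285N

noncomputable section

namespace Vale.Agent.P270G

/-- row HCG -/
theorem hcg : HCG := by
  intro d κ ι _ m N A H L hA ⟨hN, C, hC⟩ i s hs
  obtain ⟨j, hj⟩ := Xc.polW_of hs
  obtain ⟨R, hR⟩ : ∃ R : ℕ, R = 2 * C * (Finset.univ.sup fun l => (-m l).toNat) + 1 := ⟨_, rfl⟩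
  have R1 : (0 : ℝ) < R := Nat.cast_pos.2 (hR ▸ Nat.succ_pos _)
  have lP := lb_pow hA.lb i
  have l1 := lb_mul hN.lbH (lb_pow hN.lbL (R * i))
  have l2 := lb_mul l1 (lb_zp hA.lb (-(R * i : ℕ)))
  have c2 : cls d ((H.mul (L.pow (R * i))).mul (zp A.P (-(R * i : ℕ)))) =
      cls d H + 0 • cls d L + (R * i) • (cls d L - cls d A.P) := by
    rw [cls_mul l1 (lb_zp hA.lb _), cls_mul hN.lbH (lb_pow hN.lbL _), cls_pow hN.lbL, cls_zp hA.lb,
      neg_smul, natCast_zsmul, smul_sub, zero_smul]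
    abel
  obtain ⟨r, r0, hr⟩ := P285W.J.ScaleX.ex_bpf l2 (hN.pos 0 (R * i) _ l2 c2)
  have h2 : SecP d d id univ (A.P.pow i) A.G (fun l => ((2 * C * (-m l).toNat : ℕ) : ℝ) / R) s := by
    refine ⟨hj.hol, hj.chg, fun a x hx ha => ?_⟩
    obtain ⟨u, u1, u2⟩ := hr x
    obtain ⟨q, hq⟩ := l2.cover x
    have h1 := hC r (r * (R * i)) (r * R * j) _ _ (lb_mul (lb_pow lP (r * R)) (lb_pow l2 r)) (by
      rw [cls_mul (lb_pow lP _) (lb_pow l2 r), cls_pow lP, cls_pow hA.lb, cls_pow l2, c2, zero_smul,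
        add_zero, mul_smul, mul_smul r, ← mul_smul R, ← smul_add, ← smul_add, smul_sub]
      refine congrArg _ ?_
      abel) (((hj.pow continuous_id (r * R)).mul continuous_id
      (secP_of_sec (c := fun _ => 0) continuous_id u1 fun _ => le_rfl)).mono continuous_id
      fun l => by rw [add_zero, ← Nat.cast_mul, mul_assoc (r * R)])
    refine BdP.of_pow (Nat.mul_pos r0 (Nat.cast_pos.1 R1)) ((((h1.bdP (a := (a, q)) trivial
      ⟨ha, hq⟩).cmul ((sec_hol u1 hq).inv (u2 q hq)).cont).congr ?_).mono continuousAt_id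
        fun l _ => ?_)
    · filter_upwards [(sec_hol u1 hq).ne_near (u2 q hq)] with y k1 _
      rw [mul_comm (s a y ^ (r * R)), inv_mul_cancel_left₀ k1]
    · rw [Nat.cast_mul r, mul_assoc (r : ℝ), mul_div_cancel₀ _ R1.ne', ← Nat.cast_mul, Nat.cast_le,
        ← mul_assoc]
      exact Nat.mul_le_mul_right _ ((Nat.mul_le_mul_left C (show r + 1 ≤ 2 * r by omega)).trans_eq
        (by ring))
  simpa using h2.floor (k := 0) hA.snc lP isOpen_univ fun l => by
    rw [div_lt_iff₀ R1, Pi.zero_apply, Int.cast_zero, zero_add, one_mul, hR]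
    exact_mod_cast Nat.lt_succ_of_le (Nat.mul_le_mul_left (2 * C)
      (Finset.le_sup (f := fun l => (-m l).toNat) (Finset.mem_univ l)))

end Vale.Agent.P270G
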