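import Vale.Agent.P270G.Defs
import Vale.Agent.P285S.Mp.Defs2

/-!
# P270G: the pseudo-effective case (rows)
-/

open Vale.Agent.P272.K Vale.Agent.P285.H281.FD Vale.Agent.P281Z Vale.Agent.P285N
open Vale.Agent.P285N.Tp (Rd Eff)
open Vale.Agent.P285N.St (SubPair Iso Psef)

namespace Vale.Agent.P270G

/-- **HCG**: no poles, for a good pair with a nef part -/
def HCG : Prop := ∀ (d : ℕ) (κ ι : Type) [Fintype κ] (m : κ → ℤ) (N : ℕ) (A : Pr d κ ι)
  (H L : Bd A.Z.X), A.Ok m N → Xc.Good A m H L → HC A m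

/-- **EFQ**: non vanishing for the data of the statement -/
def EFQ (n : ℕ) : Prop := ∀ (V : Mf n) (Q : Rd V) (D : Bd V.X) (t : D.ι → V.X → ℂ) (q : ℕ)
  (C M : Bd V.X), Q.Ok → SubPair n Q.E Q.s D t q C → Psef n C → IsLB n M → Tp.Nf V M →
  Iso n Q.L (C.mul M) → Eff n C

end Vale.Agent.P270G
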