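import Vale.Agent.P270G.Top
import Vale.Agent.P270G.Defs2

/-!
# P270G: the final statements for pseudo-effective pairs
-/

open Vale.Agent.P272.K Vale.Agent.P285.H281.FD Vale.Agent.P281Z Vale.Agent.P280Z
open Vale.Agent.P285Z (St.logCan St.Divisor)
open Vale.Agent.P285N
open Vale.Agent.P285N.Tp (Rd Rows Wf)
open Vale.Agent.P285N.St (SubPair Iso Psef)

namespace Vale.Agent.P270G

/-- generalised abundance for effective data in the dimension `n` -/
def GA (n : ℕ) : Prop := ∀ (V : Mf n) (Q : Rd V) (D : Bd V.X) (t : D.ι → V.X → ℂ) (q : ℕ)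
  (C M : Bd V.X), Gq Q D t q C M → NumSemiample n Q.L

variable {T : CT} {n : ℕ} {V : Mf n} {Q : Rd V} {D : Bd V.X} {t : D.ι → V.X → ℂ} {q : ℕ}
  {C M : Bd V.X} {w : Wf V}

theorem gp1 (R : Rows T) (g : GA n) (e : EFQ n) (hQ : Q.Ok) (hw : IsKahler w)
    (h : SubPair n Q.E Q.s D t q C) (hC : Psef n C) (hM : IsLB n M) (hn : Nef w M)
    (hi : Iso n Q.L (C.mul M)) : NumSemiample n Q.L :=
  have k : Tp.Nf V M := (R.nefp n n V V (fun x => x) _ contMDiff_id hM).1 w hw hn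
  g V Q D t q C M ⟨hQ, h, e V Q D t q C M hQ h hC hM k hi, hM, k, hi⟩

theorem gp0 (R : Rows T) (g : GA n) (e : EFQ n) (hc : ConnectedSpace V.X) (hP : V.Prj)
    (hw : IsKahler w) (hD : St.Divisor n D t) (hq : 1 ≤ q) (hk : Klt n q D t)
    (hC : Psef n (St.logCan n q D)) (hM : IsLB n M) (hm : Nef w M)
    (hn : Nef w ((St.logCan n q D).mul M)) : NumSemiample n ((St.logCan n q D).mul M) := by
  have hL := lb_mul (lb_mul (lb_pow (P277Z.Slc.isLB_can (n := n)) q) hD.lb) hM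
  obtain ⟨⟨A, N, S, hQ⟩, h⟩ := R.smo n V w _ hc hP hw hL hn
  exact gp1 R g e hQ hw (h D t q hD hq hk) hC hM hm (Tp.iso_refl hL)

theorem R3.ga (H : R3 T) : GA 3 := fun _ _ _ _ _ _ _ h => H.main h

end Vale.Agent.P270G
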