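import Vale.Agent.P270G.All
import Vale.Agent.P270G.Top2
import Vale.Agent.P270G.Hcg
import Vale.Agent.P270G.Efq
import Vale.Agent.P285S.Mp.All
import Vale.Agent.P285S.Tp.All4

/-!
# P270G: pseudo-effective pairs in dimension three
-/

open Vale.Agent.P285S

namespace Vale.Agent.P270G

theorem efq3 : EFQ 3 :=
  efq_of hcg 3 (Mm.Ps.nvs 3 (by omega) fun d κ ι _ A m N hA hd => Tp.As.nv3 d κ ι A m N hA hd.le)

theorem ga3 : GA 3 := r3.ga

end Vale.Agent.P270G
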