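import Vale.Agent.P270G.Defs4
import Vale.Agent.P270G.Gdf
import Vale.Agent.P270G.Cov
import Vale.Agent.P270G.Rgn
import Vale.Agent.P270G.Nz
import Vale.Agent.P285N.Tp.Har2
import Vale.Agent.P285N.Xc.Tw

/-!
# P270G, row DN0: the data above a given model
-/

open Set Filter
open Vale.Agent.P272.K Vale.Agent.P285.H281.FD Vale.Agent.P281Z Vale.Agent.P280Z
open Vale.Agent.P277Z.Slc (IsDiv lin triv isLB_triv)
open Vale.Agent.P277.HD (pull)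
open Vale.Agent.P285N Vale.Agent.P285N.Tp Vale.Agent.P285N.Tp.Lr
open Vale.Agent.P285W Vale.Agent.P285S.Ca

noncomputable section

namespace Vale.Agent.P270G

namespace Dn0H

variable {n : ℕ} {V : Mf n} {Q : Rd V} {P : Bd V.X} {κ : Type} [Fintype κ] {R : LR V P κ}

theorem mu (hQ : Q.Ok) : Q.Mu Q.L 1 1 := ⟨hQ, hQ.bir.res.lbL, one_pos, N2.refl hQ.bir.res.lbL⟩

theorem nf (hQ : Q.Ok) : Tp.Nf V Q.L :=
  let ⟨w, hw⟩ := hQ.prj.kah
  (nefp n n V V (fun x => x) _ holM_id hQ.bir.res.lbL).1 w hw (N2.nefL Q hQ hw)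

theorem c1_iso {T : CT} (hT : T.OK) {C D : Bd V.X} (hC : IsLB n C) (hD : IsLB n D)
    (h : St.Iso n C D) : T.c1 V C = T.c1 V D :=
  let ⟨u, h1, h2⟩ := h
  (Ld.iso V C D u hC hD ⟨fun a b x ha hb e he => (h1 a b e x he ha hb).1.analyticAt,
    fun a b x ha hb => (h1 a b _ x (P277Z.at_chart x) ha hb).2, h2⟩).1 T hT.c1

theorem rig (hQ : Q.Ok) (hR : R.Ok2 Q) (k : ℕ) :
    Xc.Rig R.A R.m ((pull R.π Q.A).pow k) (pull R.π Q.L) := by
  rintro k' i M t m1 m2 ⟨j, m3⟩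
  have a1 := hQ.bir.res.lbA
  have lL := hQ.bir.res.lbL
  obtain ⟨Z, hM⟩ := hR.md
  have hπ := hM.hol
  have hL := hπ.lb lL
  have e := lb_mul (lb_pow lL i) (lb_pow a1 (k' * k))
  refine Xc.secP_of_cls hR.ok.snc (hπ.lb e) m1 ?_ (fun t' ht => ?_) m3
  · rw [m2, cls_pow (hπ.lb a1), ← mul_smul, ← cls_pow (hπ.lb a1), ← cls_pow hL, add_comm,
      ← cls_mul (lb_pow hL _) (lb_pow (hπ.lb a1) _)]
    rfl
  · obtain ⟨u, u1, u2⟩ := har2 n V R.Y Q R.π Z κ R.G _ _ t' hQ hM hR.ok.snc e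
      (rg n V Q _ 1 1 (Dn0H.mu hQ) _ _).2
      (fun l hl => hR.exc l (by by_contra h; simp [h] at hl)) ht
    exact (secP_of_sec continuous_id (hπ.sec u1) fun _ => le_rfl).congr (hπ.lb e) isOpen_univ
      (Hyp.of_snc hR.ok.snc).isOpen fun a y _ ha hy => u2 a y ha hy

theorem fb (hQ : Q.Ok) (hR : R.Ok2 Q) : ∃ k, Fb R.Y ((pull R.π Q.A).pow k) := by
  obtain ⟨H, h1, h2⟩ := hR.ok.prj
  have hr := hQ.bir.res
  obtain ⟨Z, hM⟩ := hR.md
  obtain ⟨k, s, s1, s2⟩ := kodp2 n V R.Y Q R.π Z _ hQ hR.ok.conn hM (lb_zp h1 (-1))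
  have hΛ := lb_pow (hM.hol.lb hr.lbA) k
  have hT := lb_mul hΛ (lb_zp h1 (-1))
  refine ⟨k, hΛ, fun y => ?_, H, h1, h2, _, s, hT,
    by rw [cls_mul hΛ (lb_zp h1 _), cls_zp h1, neg_one_zsmul, sub_eq_add_neg], s1,
    GdfH.nz hT s1 s2⟩
  obtain ⟨c, hc⟩ := hr.lbA.cover (R.π y)
  obtain ⟨a, ha⟩ := hr.free c _ hc
  have k1 := hM.hol.sec (hr.sec a)
  exact ⟨fun b x => Q.S a b (R.π x) ^ k, ⟨fun b e x he hb => (k1.holo b e x he hb).pow k,
    fun b b' x hb hb' => (congrArg (· ^ k) (k1.change b b' x hb hb')).trans (mul_pow _ _ _)⟩,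
    fun b hb => pow_ne_zero k
      ((nz_iff hr.lbA (fun b c => (hr.sec a).change b c _) hc).2 ha b hb)⟩

end Dn0H

theorem dn0_of (hU : NUU) (hG : GEN) (hR : RGN) (hZ : ZNL) : DN0 := by
  intro d T hT V Q D t q C M g ν V' e S hν hN he pV'
  have hQ := g.ok
  have K := g.sub
  have := hQ.conn
  have := he.conn
  have r := hQ.bir.res
  obtain ⟨a, a0, u, u1, u2⟩ := g.eff
  have lC := lb_pow K.lb a
  have hC := ((he.thin.union (EfH.thin_nz K.div.lb K.div.sec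
    (GdfH.nz K.div.lb K.div.sec K.div.nz))).union (EfH.thin_nz r.lbE r.secE
    (GdfH.nz r.lbE r.secE r.nzE))).union (EfH.thin_nz lC u1 (GdfH.nz lC u1 u2))
  have hB := he.pre_thin hC
  obtain ⟨I, hI, -⟩ := Rs.idl (d + 1) V' _ hB.1
  rw [← hI] at hB
  obtain ⟨R⟩ := Rs.res (d + 1) (d + 1) V' univ I an_univ
    (subM_open (by rw [← compl_eq_univ_sdiff]; exact hB.closed.isOpen_compl))
  have h1 : Modif (d + 1) R.π _ := ⟨hB, R.ovr⟩
  have hM := he.comp rem h1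
  have hπ := hM.hol
  have ho : ∀ y ∈ off R.G, R.π y ∉ I.Z := fun y hy k => ((R.bad y).1 k).elim hy
  have pY := R.prj pV'
  have cY := hM.conn
  obtain ⟨m, Ω, k1, k2⟩ := Lr.core hQ K hM pY R.snc R.conn
    (fun y hy => .comp (he.hol.at _) (h1.hol.at _)
      (he.imm fun c => ho y hy (hI ▸ .inl (.inl (.inl c)))) (h1.imm (ho y hy)))
    (fun y hy => not_not.1 fun c => ho y hy (hI ▸ .inl (.inr c)))
    fun y hy => not_not.1 fun c => ho y hy (hI ▸ .inl (.inl (.inr c)))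
  have t1 : ∀ y ∈ off R.G, NZ (C.pow a) u (e (R.π y)) := fun y hy =>
    not_not.1 fun c => ho y hy (hI ▸ .inr c)
  obtain ⟨f, hf⟩ := ordu _ R.V _ R.G _ _ R.snc R.conn (hπ.lb lC) (hπ.sec u1) t1
  have hy := Hyp.of_snc R.snc
  obtain ⟨O, σ, hO⟩ := hy.exists_div
  have lO := fun l => (hO l).lb
  have c1 : cls (d + 1) ((pull (fun x => e (R.π x)) C).pow a) = ∑ l, (f l : ℤ) • cls _ (O l) :=
    (P285S.Mm.RefH.cls_unit hy.dense (hπ.lb lC) (lb_lin lO _) (hπ.sec u1)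
      (sec_mon (fun l => (hO l).sec) f) (fun _ _ hb k => mon_ne hO f hb fun l _ => k l)
      fun a b x ha hb => hf a x ha _ fun l => (hO l).leq _ x (hb l)).trans (cls_lin lO _)
  have c2 := (cls_pow (hπ.lb K.lb) 2).symm.trans (Xc.cls_eq _ _ _ m _ _ O σ k1.ok hO)
  rw [cls_pow (hπ.lb K.lb)] at c1
  have lt : ∀ l, a * m l - 2 * f l < (a * (2 * q) : ℕ) := fun l => by
    have := mul_lt_mul_of_pos_left (k2 l) (Int.natCast_pos.2 a0)
    push_cast at this ⊢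
    linarith [Int.natCast_nonneg (f l)]
  obtain ⟨Ω', ok⟩ := P285S.Mm.mkpr _ _ R.V R.G O σ (triv _) (fun l => a * m l - 2 * f l)
    (a * (2 * q)) cY pY R.snc hO isLB_triv (mul_pos a0 k1.ok.pos) (k1.ok.even.mul_left a)
    (fun l => (lt l).le) (by
      simp only [cls_triv, sub_smul, mul_smul, Finset.sum_sub_distrib, ← Finset.smul_sum]
      rw [← c1, natCast_zsmul, ← add_sub_assoc, ← smul_add, ← mul_smul 2 q, ← c2]
      module)
  have cw : Cw _ _ _ := ⟨ok, lt, R.conn, 1, one_pos, (one_smul _ _).trans cls_triv⟩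
  obtain ⟨k, hΛ⟩ := Dn0H.fb hQ k1
  have lL := hπ.lb r.lbL
  have fL := P285S.Tp.nf_comp hπ hQ.prj r.lbL (Dn0H.nf hQ)
  have nu : P285S.B2.Nu T R.V (T.c1 R.V (pull (fun x => e (R.π x)) Q.L)) ν :=
    hT.c1.pull hπ _ r.lbL ▸ hU.nu T hT _ ν V R.V _ _ hM _ ⟨hQ.conn, hQ.prj⟩ pY
      (J.nf_of hT hQ.prj r.lbL (Dn0H.nf hQ)) hN
  refine ⟨_, _, inferInstance, _, _, _, R.π, _, _, h1, cw, lL, fL, nu, hΛ, fun l hl => ?_⟩
  by_cases h : m l < 0
  · have k3 := hR d T hT _ _ _ _ _ _ _ _ l (d - ν) ν k1.ok hΛ lL fL (Dn0H.rig hQ k1 k) h (by omega)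
    rw [mul_comm (_ ^ (d - ν))] at k3
    exact k3
  have mΛ := (J.bf_nf hT ⟨_, hΛ.lb, hΛ.bpf, rfl⟩).mn.pow (d - ν)
  have m2 := ((J.nf_of hT pY lL fL).mn.pow ν).mul mΛ
  have k3 := nu.2 _ mΛ
  rw [pow_succ', mul_assoc] at k3
  obtain ⟨y, y1, y2⟩ := hG _ R.V _ R.G l R.snc (R.conn l).nonempty
  obtain ⟨j, j1, j2⟩ := hZ _ T hT _ _ _ _ _ _ _ _ cw (hπ.lb lC) (hπ.sec u1) t1 m2 (by
    have k4 := J.ef_int hT ⟨_, _, hπ.lb lC, hπ.sec u1, hy.dense.mono t1, rfl⟩ m2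
    have k5 := J.mn_int hT ((J.nf_pull hT hπ (J.nf_of hT hQ.prj g.lb g.nef)).mn.mul m2)
    generalize (_ ^ ν * _ : T.H R.V) = z at k3 k4 k5 ⊢
    rw [hT.c1.pull hπ _ r.lbL, Dn0H.c1_iso hT r.lbL (lb_mul K.lb g.lb) g.iso,
      hT.c1.mul V _ _ K.lb g.lb, map_add, add_mul, map_add] at k3
    rw [hT.c1.pull hπ _ lC, hT.c1.pow V _ _ K.lb, map_smul, smul_mul_assoc, map_smul,
      smul_eq_mul] at k4 ⊢
    nlinarith [mul_nonneg a.cast_nonneg k5]) y fun hz => by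
      obtain ⟨b, hb⟩ := lC.cover (e (R.π y))
      obtain ⟨ζ, hζ, -⟩ := R.snc y
      obtain ⟨v, -, -, v3⟩ := hf b y hb ζ hζ
      refine hz b hb (v3.self_of_nhds.trans (mul_eq_zero_of_right _
        (Finset.prod_eq_zero (Finset.mem_univ l) ?_)))
      rw [(hζ l).mem.2 y1, zero_pow]
      rintro h0
      have := mul_nonneg (Int.natCast_nonneg a) (not_lt.1 h)
      simp only [h0] at hl
      omega
  obtain rfl : j = l := by_contra fun c => y2 j c j2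
  exact j1

/-- row DN0 -/
theorem dn0 : DN0 := dn0_of nuu gen rgn znl

end Vale.Agent.P270G
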