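import Vale.Agent.P270G.Defs5
import Vale.Agent.P270G.End
import Vale.Agent.P270G.Fy
import Vale.Agent.P270F.Mg.Slice
import Vale.Agent.P270F.Tk.Hdg

/-!
# P270G: the step of the induction
-/

open Set
open Vale.Agent.P272.K Vale.Agent.P285.H281.FD Vale.Agent.P281Z Vale.Agent.P280Z
open Vale.Agent.P277.HD (pull)
open Vale.Agent.P285N Vale.Agent.P285W Vale.Agent.P285W.J Vale.Agent.P285W.Bs
open Vale.Agent.P285S.B2 (Zr Nu)
open Vale.Agent.P270F.Tk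
open Vale.Agent.P285S.E3.HilH (nf_t1)

namespace Vale.Agent.P270G

namespace Fyn49

theorem dm {T : CT} (hT : T.OK) {n : ℕ} {Z : Mf n} (hc : ConnectedSpace Z.X) {Λ : Bd Z.X}
    (h : Fb Z Λ) : Nq T Z (T.c1 Z Λ) ∧ Dm T Z (T.c1 Z Λ) :=
  let ⟨b, a, k, e⟩ := EndH.big hT hc h
  ⟨nq_bf hT b, a, k, le_of_ef hT zero_le_one (by rwa [one_smul])⟩

end Fyn49

theorem fyn49_of (ru : RFU) (nu : NUU) (fu : FBU) (sl : P270F.Mg.SLT) : FYN := by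
  rintro d - T hT κ ι _ A m N L Λ ν α S hν h r ⟨κ₁, ι₁, _, B, m₁, N₁, r₁, Λ₁, π, S₁, hπ, k⟩
  obtain ⟨j, rfl⟩ := Nat.exists_eq_add_of_le hν
  have cA : Cp A.Z := ⟨h.cw.ok.conn, h.cw.ok.prj⟩
  have cB : Cp B.Z := ⟨k.ok.conn, k.ok.prj⟩
  have := cB.conn
  obtain ⟨c, c0, fb⟩ := fu _ A.Z B.Z π S₁ Λ cB.conn cB.prj hπ h.fb
  obtain ⟨hg, hb⟩ := Fyn49.dm hT cB.conn fb
  have eg := hT.c1.pow B.Z _ c (hπ.hol.lb h.fb.lb)
  rw [hT.c1.pull hπ.hol _ h.fb.lb] at eg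
  have nl := nf_of hT cA.prj h.lb h.nef
  have lL := hπ.hol.lb h.lb
  have fL := P285S.Tp.nf_comp hπ.hol cA.prj h.lb h.nef
  have el := hT.c1.pull hπ.hol _ h.lb
  have u := nu.nu T hT _ _ _ _ π _ hπ _ cA cB.prj nl h.nu
  have rf := ru T hT _ _ _ _ π _ hπ _ α S cA cB.prj r
  have sc : ∀ e, T.int B.Z (e * T.pull hπ.hol (zz T A.Z L Λ (ν + 1))) = 0 →
      T.int B.Z (e * (T.c1 B.Z (pull π L) ^ (ν + 1) * T.c1 B.Z ((pull π Λ).pow c) ^ j)) = 0 :=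
    fun e he => by
    rw [map_mul (T.pull _), map_pow, map_pow, show ν + j + 1 - (ν + 1) = j by omega] at he
    rw [el, eg, smul_pow, mul_smul_comm, mul_smul_comm, map_smul, he, smul_zero]
  rw [← el] at u rf
  have hl : Nq T B.Z _ := ⟨nf_of hT cB.prj lL fL, _, lL, rfl⟩
  have lW := lb_pow k.ok.lb r₁
  have eW := hT.c1.pow B.Z _ r₁ k.ok.lb
  have hh := bf_nf hT ⟨_, lW, k.bpf, rfl⟩
  have dl := fun i => dg_mul hT (nf_dg hT hh) (dg_pow hT (nf_dg hT hl.1) i)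
  have h0 : T.int B.Z (T.c1 B.Z (B.P.pow r₁) * _) = 0 :=
    sc _ (by rw [eW, smul_mul_assoc, map_smul, k.nul, smul_zero])
  have h1 := zr_dm hT hg.1 hb (hh.mn.mul (hl.1.mn.pow (ν + 1))) (dl _) (j := j) (by omega)
    (by rwa [mul_assoc])
  have h2 := sq_zero hT cB hl hh u (by omega) h1
  have my := (hl.mz.pow ν).mul (hg.mz.pow j)
  have p1 := pos_dm hT hg.1 hb (hh.mn.mul (hl.1.mn.pow ν)) (dl _) (j := j + 1) (by omega)
    fun q => k.ne ((smul_eq_zero_iff_right (Nat.cast_pos.2 k.pos).ne').1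
      (eW ▸ eq_zero hT cB hl hh (by omega) u.1 q))
  have p2 := pos_dm hT hg.1 hb ((hl.1.mn.pow (ν + 1)).mul rf.nef.mn)
    (dg_mul hT (dg_pow hT (nf_dg hT hl.1) _) (nf_dg hT rf.nef)) (j := j) (by omega) rf.ne
  have p3 := prp hT cB my (hl.t1 hT) (nf_t1 hT hh) (nf_t1 hT rf.nef) (hg.t1 hT)
    (by rw [← u.2 _ (hg.1.mn.pow j)]; congr 1; ring)
    (by rw [← h1 _ (hg.1.mn.pow j)]; congr 1; ring)
    (by rw [← h2 _ (hg.1.mn.pow j), mul_assoc _ (_ ^ ν)])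
  obtain ⟨H, hH, pH, D, τ, hD, eD, hτ, x₀, hx⟩ := fb.big
  obtain ⟨κ', ι', _, C, m', N', i, hi, cw, im, ng, ps, le, nn⟩ := sl _ T hT κ₁ ι₁ B m₁ N₁
    (B.P.pow r₁) r₁ 1 (π ⁻¹' S ∪ {x | ¬ NZ D τ x})
    (T.c1 B.Z (pull π L) ^ ν * T.pull hπ.hol α * T.c1 B.Z ((pull π Λ).pow c) ^ j) k.ok k.klt lW
    k.bpf k.pos (by rw [one_smul, cls_pow k.ok.lb]) (rf.neg.union
      ((Un.an_z hD hτ).thin fun k => (k ▸ mem_univ x₀ : x₀ ∈ {x | ¬ NZ D τ x}) hx).neg)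
    ((mn_int hT (hh.mn.mul (((hl.1.mn.pow ν).mul rf.nef.mn).mul (hg.1.mn.pow j)))).lt_of_ne'
      fun q => (mul_pos p2 p1).ne' (by
        refine .trans ?_ (p3.trans (mul_eq_zero_of_right _ (.trans ?_ q)))
        · congr 2 <;> ring
        · congr 1; ring))
  have := cw.ok.conn
  obtain ⟨y, hy⟩ := ng.dense.nonempty
  have fb' : Fb C.Z (pull i ((pull π Λ).pow c)) := ⟨hi.lb fb.lb, Un.bpf_pull hi fb.bpf, pull i H,
    hi.lb hH, hT.kp _ _ (hi.lb hH) (hT.c1.pull hi H hH ▸ kc_pull hT hi im (hT.c1.pos _ H hH pH)),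
    pull i D, _, hi.lb hD, by rw [cls_pull hi hD, eD, map_sub, cls_pull hi fb.lb, cls_pull hi hH],
    hi.sec hτ, y, not_not.1 fun k => hy (Or.inr k)⟩
  obtain ⟨hg', hb'⟩ := Fyn49.dm hT cw.ok.conn fb'
  have e1 := hT.c1.pull hi _ lL
  have e2 := hT.c1.pull hi _ fb.lb
  have n1 := nf_pull hT hi hl.1
  have nα := nf_pull hT hi rf.nef
  have ne : ¬ Zr T C.Z (T.pull hi (T.c1 B.Z (pull π L)) ^ ν * T.pull hi (T.pull hπ.hol α)) :=
    fun q => ps.ne' (by simpa only [map_mul, map_pow, e2] using q _ (hg'.1.mn.pow j))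
  refine ⟨κ', ι', inferInstance, C, m', N', pull i (pull π L), _, _, i ⁻¹' (π ⁻¹' S),
    ⟨cw, hi.lb lL, P285S.Tp.nf_comp hi cB.prj lL fL, ?_, fb', fun a ha => ?_⟩, nα, e1 ▸ ne,
    ng.mono fun _ q => .inl q, fun a b U p hp x e cU g1 g2 g3 => ?_⟩
  · rw [e1]
    refine ⟨fun q => ne (zr_mul q nα.mn), zr_dm hT hg'.1 hb' (n1.mn.pow _)
      (dg_pow hT (nf_dg hT n1) _) (j := j) (by omega) ((mn_int hT ((n1.mn.pow _).mul
        (hg'.1.mn.pow j))).antisymm' ?_)⟩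
    simpa only [map_mul, map_pow, e2, h0] using le _ ((hl.1.mn.pow (ν + 1)).mul (hg.1.mn.pow j))
  · rw [e1, e2, Nat.add_sub_cancel_left, ← map_pow, ← map_pow, ← map_mul]
    exact nn _ my.mn (by rw [← h2 _ (hg.1.mn.pow j)]; congr 1; ring) (fun b hb' O σ hO =>
      weak hT cB hl hg hb hh u (by omega) h1 ⟨hT.tp.c1 _ _ hO.lb, hT.c1.deg _ _⟩
        (sc _ ((k.neg b hb').1 O σ hO))) a ha
  · have q := hT.rg.pull_comp hp hi (hi.comp hp) fun _ => rfl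
    rw [e1, ← q] at g3
    rw [← q]
    exact rf.nt a b U _ _ x e cU g1 g2 g3

end Vale.Agent.P270G
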