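import Vale.Agent.P270G.Defs5
import Vale.Agent.P270G.End
import Vale.Agent.P270G.Sf
import Vale.Agent.P270F.Nh43
import Vale.Agent.P270F.Tk.Hdg

/-!
# P270G: the two programs, in dimension at most four
-/

open Set
open Vale.Agent.P272.K Vale.Agent.P285.H281.FD Vale.Agent.P281Z Vale.Agent.P280Z
open Vale.Agent.P277.HD (pull)
open Vale.Agent.P285N Vale.Agent.P285W.J Vale.Agent.P285W.Bs
open Vale.Agent.P285S.B2 (Nh MDSN)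
open Vale.Agent.P285S.Mm (Sp)
open Vale.Agent.P270F

namespace Vale.Agent.P270G.M43

theorem zz_mn {T : CT} (hT : T.OK) {d ν : ℕ} {κ ι : Type} [Fintype κ] {A : Pr (d + 1) κ ι}
    {m : κ → ℤ} {N : ℕ} {L Λ : Bd A.Z.X} (h : Dn T A m N L Λ ν) (hν : ν ≤ d) :
    Mn T A.Z (zz T A.Z L Λ ν) ∧ T.Dg A.Z d (zz T A.Z L Λ ν) :=
  ⟨((nf_of hT h.cw.ok.prj h.lb h.nef).mn.pow ν).mul
    ((bf_nf hT ⟨Λ, h.fb.lb, h.fb.bpf, rfl⟩).mn.pow _), by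
    simpa only [Nat.add_sub_cancel' hν] using dg_mul hT (dg_pow hT (hT.c1.deg A.Z L) ν)
      (dg_pow hT (hT.c1.deg A.Z Λ) (d - ν))⟩

theorem dun (up : UP) (nuu : NUU) (nzu : NZU) (fbu : FBU) : DUN := by
  intro d T hT κ ι _ A m N L Λ D s ν hν h lD sD nz
  obtain ⟨κ', _, A', m', π, S, hπ, c, k1, k2⟩ := up _ T hT κ ι A m N D s h.cw lD sD nz
  obtain ⟨k, k0, fb⟩ := fbu _ A.Z A'.Z π S Λ c.ok.conn c.ok.prj hπ h.fb
  have o := h.cw.ok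
  have nl := nf_of hT o.prj h.lb h.nef
  have e := hT.c1.pull hπ.hol L h.lb
  have c0 : (0 : ℝ) < k ^ (d - ν) := by positivity
  have ez : zz T A'.Z (pull π L) ((pull π Λ).pow k) ν =
      (k : ℝ) ^ (d - ν) • T.pull hπ.hol (zz T A.Z L Λ ν) := by
    rw [zz, e, hT.c1.pow _ _ k (hπ.hol.lb h.fb.lb), hT.c1.pull hπ.hol Λ h.fb.lb, smul_pow,
      mul_smul_comm, map_mul, map_pow, map_pow]
  refine ⟨κ', inferInstance, A', m', π, S, _, hπ, _, ⟨c, hπ.hol.lb h.lb,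
    tp_of_nf hT (hπ.hol.lb h.lb) (e ▸ nf_pull hT hπ.hol nl),
    e ▸ nuu.nu T hT _ _ _ _ π S hπ _ ⟨o.conn, o.prj⟩ c.ok.prj nl h.nu, fb,
    fun l hl O σ hO => ?_⟩, k1, c0, ez, ?_⟩
  · rw [← zz, ez, mul_smul_comm, map_smul, nzu d T hT κ ι A m N A'.Z π S hπ _ O σ o c.ok.prj
      (zz_mn hT h hν).1 (zz_mn hT h hν).2 hO.lb hO.sec (dense_div hO) fun y hy =>
        (k2 l hl y (not_not.1 fun k => hy fun a ha => mt (hO.leq a y ha).mem.1 k)).imp_right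
          fun ⟨j, j1, j2⟩ => ⟨j, h.neg j j1, j2⟩, smul_zero]
  · rintro ⟨κ₂, ι₂, _, B, m₂, N₂, r, Λ₂, u, S₂, hu, F⟩
    have hc := hπ.comp rem hu
    have q : ∀ x, T.int B.Z (x * T.pull hu.hol (zz T A'.Z (pull π L) ((pull π Λ).pow k) ν)) = 0 →
        T.int B.Z (x * T.pull hc.hol (zz T A.Z L Λ ν)) = 0 := fun x hx => by
      rw [ez, map_smul, mul_smul_comm, map_smul,
        ← hT.rg.pull_comp hu.hol hπ.hol hc.hol fun _ => rfl] at hx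
      exact (smul_eq_zero.1 hx).resolve_left c0.ne'
    exact ⟨κ₂, ι₂, _, B, m₂, N₂, r, Λ₂, _, _, hc, F.ok, F.klt, F.conn, F.pos, F.bpf, F.ne, F.fb,
      q _ F.nul, fun j hj => ⟨fun O σ hO => q _ ((F.neg j hj).1 O σ hO), (F.neg j hj).2⟩⟩

theorem mach (dun : DUN) (snf : SNF) (md : MDSN) (mm1 : Mg.MM1) (mm2 : Tg.MM2N) (en : ENN)
    (nuu : NUU) (nzu : NZU) (fbu : FBU) : MACH := by
  intro d hd T hT κ ι _ A m N hF L Λ ν n0 n1 h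
  have cA : Cp A.Z := ⟨h.cw.ok.conn, h.cw.ok.prj⟩
  have := cA.conn
  by_contra hfr
  refine hfr (snf d hd T hT κ ι A m N L Λ ν n0 n1 h (md T hT _ A.Z _ ν cA (by omega)
    (nf_of hT cA.prj h.lb h.nef) fun D s hD hs hd' => by_contra fun hn => ?_))
  obtain ⟨κ₁, _, A₁, m₁, π₁, S₁, Λ₁, hπ₁, -, h₁, ho, -, -, down⟩ :=
    dun d T hT κ ι A m N L Λ D s ν n1 h hD hs hd'.nonempty
  have o₁ := h₁.cw.ok
  have n₁ := nf_of hT o₁.prj h₁.lb h₁.nef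
  have g₁ := bf_nf hT ⟨Λ₁, h₁.fb.lb, h₁.fb.bpf, rfl⟩
  obtain ⟨z1, z2⟩ := zz_mn hT h₁ n1
  have c2 : Cv T A₁.Z (T.c1 _ (pull π₁ L)) ν (Nz T A₁ (zz T A₁.Z (pull π₁ L) Λ₁ ν)) := by
    intro e U p hp hN
    obtain rfl : d = e := Nat.succ_injective hN.dim
    refine nh_one hT o₁ h₁.cw.conn hN ?_ (g₁.mn.pow _)
    rintro _ ⟨x, rfl⟩ k
    rw [hT.c1.pull hπ₁.hol L h.lb] at hN
    exact hn ⟨_, U, _, _, nh_up hT hπ₁ hN (ho _ k).1, x, (ho _ k).2⟩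
  obtain ⟨C, hC⟩ := (mm1 d hd T hT κ₁ ι A₁ m₁ N _ h₁.cw z1 z2 h₁.neg).resolve_right
    fun F => hfr (down F)
  have w := hC.md
  have l₀ := w.hol.lb h₁.lb
  have e₀ := hT.c1.pull w.hol _ h₁.lb
  have n₀ := nf_pull hT w.hol n₁
  obtain ⟨C', hC', δ, D', s', d0, d1, d2, d3, d4, nc⟩ := mm2 (d + 1) (by omega) T hT _ _ C.B C.m
    C.N _ C.Λ C.Q C.Φ hC.cw l₀ (tp_of_nf hT l₀ (e₀ ▸ n₀)) hC.neg hC.fb hC.lbQ hC.rig
  have w' := hC'.md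
  have o := hC.cw.ok
  have o' := hC'.cw.ok
  have nq := nf_of hT o'.prj hC'.lbQ hC'.nfQ
  have d5 : Dense {y | NZ D' s' y} := (snc_dense_off o'.snc).mono
    fun y (a : y ∈ off C'.B.G) => d3 y fun ⟨l, _, b⟩ => a l b
  have z' := nzu d T hT _ _ C.B C.m C.N _ C'.π _ w' _ D' s' o o'.prj (mn_pull hT w.hol z1)
    (dg_pull hT w.hol z2) d1 d2 d5 fun y a => .inr (by
      obtain ⟨j, j0, hj⟩ := (hC'.sp y).2 (by_contra fun b => a (d3 y b))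
      exact ⟨j, fun O σ hO => nzu d T hT κ₁ ι A₁ m₁ N _ C.π _ w _ O σ o₁ o.prj z1 z2 hO.lb
        hO.sec (dense_div hO) fun y a => .inr ((hC.sp y).2
          ⟨j, j0, by_contra fun b => a fun c hc e => b ((hO.leq c y hc).mem.1 e)⟩), hj⟩)
  obtain ⟨k, -, fb⟩ := fbu _ _ _ C.π _ Λ₁ o.conn o.prj w h₁.fb
  obtain ⟨k', -, fb'⟩ := fbu _ _ _ C'.π _ _ o'.conn o'.prj w' fb
  obtain ⟨-, a, ka, bg⟩ := EndH.big hT o'.conn fb'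
  rw [hT.c1.pow _ _ k' (w'.hol.lb fb.lb), hT.c1.pull w'.hol _ fb.lb,
    hT.c1.pow _ _ k (w.hol.lb h₁.fb.lb), hT.c1.pull w.hol _ h₁.fb.lb, map_smul, smul_smul] at bg
  simp only [zz, map_mul, map_pow] at z'
  rw [e₀] at d4
  have n' := nf_pull hT w'.hol n₀
  refine en d hd T hT _ _ C'.B C'.m C'.N hF C'.Q C'.Λ C'.Φ ν n0 n1 hC'.cw hC'.lbQ hC'.nfQ ?_
    hC'.neg hC'.fb hC'.rig ?_ nc
  · rw [d4]
    exact Tk.nuq hT ⟨o'.conn, o'.prj⟩ ((Tk.Nq.pull hT ⟨n₁, _, h₁.lb, rfl⟩ w.hol).pull hT w'.hol)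
      (nf_pull hT w'.hol (nf_pull hT w.hol g₁)) ⟨a, ka, le_of_ef hT (by positivity) bg⟩
      (nuu.nu T hT _ ν _ _ _ _ w' _ ⟨o.conn, o.prj⟩ o'.prj n₀
        (nuu.nu T hT _ ν _ _ _ _ w _ ⟨o₁.conn, o₁.prj⟩ o.prj n₁ h₁.nu)) (by omega) d0
      ⟨D', s', d1, d2, d5, rfl⟩ z' ⟨d4 ▸ nq, _, hC'.lbQ, d4⟩
  · rintro e U p hp hN _ ⟨x, rfl⟩
    by_contra b
    rw [d4] at hN nq
    have b1 := mt (hC'.sp _).1 b
    have b2 := mt (hC.sp _).1 b1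
    exact b2 (c2 e U _ _ (nh_up hT w (nh_up hT w' (nh_two hT n' d0 d1 d2 nq hN (d3 _ b)) b1) b2)
      ⟨x, rfl⟩)

end Vale.Agent.P270G.M43
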