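import Vale.Agent.P270G.Defs5
import Vale.Agent.P285S.Bs2.Ends

/-!
# P270G: the start of the induction
-/

open Set
open Vale.Agent.P272.K Vale.Agent.P285.H281.FD Vale.Agent.P281Z Vale.Agent.P280Z
open Vale.Agent.P285W.J Vale.Agent.P285W.Bs

namespace Vale.Agent.P270G

theorem rf0 : RF0 := by
  intro T hT d Z l α S cZ h r
  obtain ⟨-, g, kg, bg⟩ := negl.kah _ Z cZ.prj T hT
  have k := r.nt (d + 1) d Z _ holM_id _ (add_comm d 1) cZ.conn r.neg (mb_pow bg d) (by
    rw [hT.rg.pull_id, ← pow_one l]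
    exact h _ ((kc_nf hT kg).mn.pow d))
  rw [hT.rg.pull_id] at k
  exact r.ne (by
    simpa using P285S.B2.zr_of hT (e := 1) (k := 1) (j := d) kg
      (fun y hy => by simpa using mn_int hT hy) r.nef.mn (by simpa using nf_dg hT r.nef)
      (add_comm 1 d) (by rwa [one_mul]))

end Vale.Agent.P270G
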