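import Vale.Agent.P270G.Defs4
import Vale.Agent.P270G.Kd
import Vale.Agent.P270G.Cov
import Vale.Agent.P270F.Tk.Hdg

/-!
# P270G: the nef reduction (row RFK)
-/

open scoped Manifold ContDiff Topology
open Set Filter Function
open Vale.Agent.P272.K Vale.Agent.P285.H281.FD Vale.Agent.P281Z Vale.Agent.P280Z
open Vale.Agent.P285N Vale.Agent.P285W Vale.Agent.P285W.J Vale.Agent.P285W.Bs
open Vale.Agent.P285S.B2 (Zr Nu Ba)

noncomputable section

namespace Vale.Agent.P270G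

namespace RfkH

theorem nf_zero {T : CT} (hT : T.OK) {d : ℕ} {B : Mf (d + 1)} (hc : ConnectedSpace B.X)
    {w x : T.H B} (hw : T.Kc B w) (hx : Nf T B x) (h : T.int B (x * w ^ d) = 0) : x = 0 := by
  cases d with
  | zero =>
    exact top hT inferInstance ((hT.po.kah B).2 ⟨w, hw⟩) (nf_dg hT hx) (by simpa using h)
  | succ d =>
    exact hod hT hc hw (nf_ty hT hx) (nf_dg hT hx) h
      (mn_int hT ((hx.mn.mul hx.mn).mul ((kc_nf hT hw).mn.pow d)))

end RfkH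

open KdH RfkH

/-- **row RFK** -/
theorem rfk : RFK := by
  intro n T hT V Q D t q₀ C M h ν ν0 νn hν
  have cV : Cp V := ⟨h.ok.conn, h.ok.prj⟩
  have := cV.conn
  have lL := h.ok.bir.res.lbL
  have lM := h.lb
  have lC := h.sub.lb
  obtain ⟨w, hw⟩ := P285S.B2.kah_of hT cV.prj
  have nL : Tp.Nf V Q.L := (Tp.nefp n n V V (fun x => x) _ contMDiff_id lL).1 w hw
    (Tp.N2.nefL Q h.ok hw)
  have hl := nf_of hT cV.prj lL nL
  have hμ := nf_of hT cV.prj lM h.nef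
  obtain ⟨H, lH, pH⟩ := id cV.prj
  by_cases hTr : Neg n (Tr T V (T.c1 V Q.L))
  · have kH := hT.c1.pos V H lH pH
    refine .inr ⟨V, _, _, modif_id, T.c1 V H, Tr T V (T.c1 V Q.L), cV.prj, ?_⟩
    rw [hT.rg.pull_id]
    refine ⟨kc_nf hT kH, fun k => hν.1 (P270F.Tk.zr_dm hT (kc_nf hT kH) (P270F.Tk.dm_kc kH)
      (hl.mn.pow ν) (dg_pow hT (nf_dg hT hl) ν) (j := n - (ν + 1) + 1) (by omega) ?_), hTr,
      nt_of Ct.cuts T hT n V _ _ hl (hT.c1.deg V H)⟩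
    rw [pow_succ', ← mul_assoc]
    exact k _ ((kc_nf hT kH).mn.pow _)
  obtain ⟨q, q0, q1, q2, q3⟩ := DescX.scale hT lL lH (nL H lH pH)
  have q4 : (q : ℝ) ≠ 0 := Nat.cast_ne_zero.2 q0.ne'
  have eq := hT.c1.pow V Q.L q lL
  have l2 : T.c1 V Q.L ^ ν ≠ 0 := fun k => hν.1 fun y _ => by rw [k, zero_mul, map_zero]
  obtain ⟨b, d, F, D', H', δ, e, d0, hD, g2⟩ := P285S.B2.red hT
    (⟨cV.conn, lb_pow lL q, lb_pow lH q, q1, q2, q3⟩ : Ba V _ _)
    (by rw [eq]; exact smul_ne_zero q4 fun k => l2 (by rw [k, zero_pow ν0.ne']))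
    fun k => hTr (k.mono fun y ⟨c, f, hf, a1, a2, a3, a4⟩ =>
      ⟨c, f, hf, a1, a2, a3, by rw [eq, map_smul, map_smul, a4, smul_zero]⟩)
  obtain ⟨S, hS⟩ := hD.md
  have := F.cZ.conn
  have := F.cV.conn
  rcases lt_trichotomy b ν with k | rfl | k
  · have h1 := congrArg (T.pull F.fq.hol) (dg_zero hT (dg_pow hT (hT.c1.deg _ D') ν) k)
    rw [map_pow, hD.cls, map_zero, smul_pow, ← map_pow,
      smul_eq_zero_iff_right (pow_pos (Nat.cast_pos.2 hD.dpos) ν).ne'] at h1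
    have h2 := inj.inj T hT n n F.V V F.e F.he _ F.cV cV F.surj h1
    rw [eq, smul_pow, smul_eq_zero_iff_right (pow_ne_zero ν q4)] at h2
    exact (l2 h2).elim
  · left
    obtain ⟨d, rfl⟩ := Nat.exists_eq_succ_of_ne_zero d0.ne'
    obtain ⟨a, a0, s, hs, i₀, x₀, s1, s2⟩ := h.eff
    have lCa := lb_pow lC a
    have th := Ps.thin_z lCa hs (KodA.dense_nz lCa hs s1 s2)
    obtain ⟨t₀, ht⟩ := (F.fq.thin.neg.union
      (negf n b F.V F.Z F.π F.Q _ F.fq (hS.pre_neg th.neg)).1).dense.nonempty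
    rw [mem_compl_iff, mem_union, not_or] at ht
    obtain ⟨x, hx, hx'⟩ := not_subset.1 ht.2
    obtain ⟨B, i, hi⟩ := fib_emb (d := d + 1) (y := t₀) e F.fq.hol
      fun x k => F.fq.sbm x (k ▸ ht.1)
    have cB : Cp B := ⟨hi.conn.2 (F.fq.conn t₀ ht.1), prj_of_imm hT hi.hol hi.imm F.cV.prj⟩
    have := cB.conn
    obtain ⟨v, hv⟩ := (hT.po.kah B).1 (P285S.B2.kah_of hT cB.prj)
    have mv := (kc_nf hT hv).mn.pow d
    have hp := F.he.comp hi.hol
    have pc : ∀ y, T.pull hp y = T.pull hi.hol (T.pull F.he y) :=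
      hT.rg.pull_comp hi.hol F.he hp fun _ => rfl
    have z1 : T.pull hp (T.c1 V Q.L) = 0 := by
      have := (congrArg (T.pull hp) eq).symm.trans
        ((pc _).trans (F.tv t₀ ht.1 _ B i hi.hol cB hi.rng.le))
      rwa [map_smul, smul_eq_zero_iff_right q4] at this
    obtain ⟨y, rfl⟩ : x ∈ range i := hi.rng ▸ hx
    have z2 := ef_int hT (ef_pull hT hp lCa hs (Thin.pre_of_ex th.an hp ⟨y, hx'⟩).neg) mv
    have z3 := congrArg (fun u => T.int B (T.pull hp u * v ^ d))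
      ((Tp.HodH.c1_iso hT lL (lb_mul lC lM) h.iso).trans (hT.c1.mul V _ _ lC lM))
    have z4 := mn_int hT ((nf_pull hT hp hμ).mn.mul mv)
    rw [hT.c1.pow V _ _ lC, map_smul, smul_mul_assoc, map_smul, smul_eq_mul,
      mul_nonneg_iff_of_pos_left (Nat.cast_pos.2 a0)] at z2
    simp only [z1, map_zero, map_add, zero_mul, add_mul] at z3
    have z5 : T.pull hp (T.c1 V M) = 0 := nf_zero hT cB.conn hv (nf_pull hT hp hμ) (by linarith)
    have eX := hT.c1.mul V _ _ lL lM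
    have nX : Nf T V (T.c1 V (Q.L.mul M)) := eX ▸ nf_add hT hl hμ
    obtain ⟨F', D₁, H₁, δ₁, hD₁⟩ := desc T hT n b _ V (Q.L.mul M) H
      ⟨F.V, F.Z, F.π, F.e, F.Q, F.cV, F.cZ, F.fq, F.he, F.surj,
        prop_of cur2 lam T hT n b _ F.V F.Z F.π F.Q _ t₀ e d0 F.cV.prj F.cZ F.fq
          (nf_pull hT F.he nX) ht.1 (hi.rng ▸ tvs.rng T hT _ n B F.V i hi.hol _ cB (by
            rw [← pc, eX, map_add, z1, z5, add_zero]))⟩ S e d0 cV (lb_mul lL lM) lH
      (pos hT cV.prj lL lM lH pH nL h.nef) hS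
    obtain ⟨_, ⟨E, σ, e1, e2, e3, rfl⟩, h2⟩ := core hT F'.cZ.conn hD₁.lD hD₁.lH hD₁.pos
      fun k => hν.1 (zr hT hl hμ fun y _ => by
        rw [← eX, P285S.B2.pow_zero_of hT hD₁ cV k, zero_mul, map_zero])
    obtain ⟨S', hS'⟩ := hD₁.md
    have := F'.cV.conn
    refine ⟨F'.V, F'.e, S', hS', _, F'.cV.prj, ef_pull hT F'.fq.hol e1 e2
      ((Ps.thin_z e1 e2 e3).pre_surj F'.fq.hol (DescX.surj F'.fq)).neg, fun j => ?_⟩
    obtain ⟨c, r, u, u1, u2, u3⟩ := h2 j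
    refine ⟨c * δ₁, r, _, u1.trans_le (Nat.le_mul_of_pos_right _ hD₁.dpos),
      bf_pull hT F'.fq.hol u2, ?_⟩
    have k := congrArg (T.pull F'.fq.hol) u3
    rw [map_add, map_smul, map_smul, hD₁.cls, smul_smul, ← Nat.cast_mul] at k
    exact (congrArg (fun z => ((c * δ₁ : ℕ) : ℝ) • T.pull F'.he z) eX).symm.trans k
  · have kH : T.Kc F.Z (T.c1 F.Z H') := by simpa using DescX.kc hT hD.lD hD.lH (hD.pos 0)
    have nα := nf_pull hT F.fq.hol (kc_nf hT kH)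
    have g3 := ntb_of nim c1p fpm fpc negf T hT _ _ d V _ F D' H' δ e hD g2
    subst e
    refine .inr ⟨F.V, F.e, S, hS, _, F.π ⁻¹' Tr T F.Z (T.c1 F.Z D'), F.cV.prj, nα, fun z => ?_,
      g3.pre fun _ z => z.pre_surj F.fq.hol (DescX.surj F.fq), fun m j U p hp y e hU h1 h2 h3 => ?_⟩
    · have nD := DescX.nef hT hD.lD hD.lH hD.pos
      have nl := nf_pull hT F.he hl
      have c1 : (1 : ℝ) ≤ δ * q := by exact_mod_cast Nat.mul_pos hD.dpos q0
      have e1 : T.pull F.fq.hol (T.c1 F.Z D') = ((δ : ℝ) * q) • T.pull F.he (T.c1 V Q.L) := by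
        rw [hD.cls, congrArg (T.pull F.he) eq, map_smul, smul_smul]
      replace z := (P270F.Tk.nu_dom hT F.cV (P270F.Tk.Nq.pull hT ⟨hl, _, lL, rfl⟩ F.he)
        (P270F.Tk.Nq.pull hT ⟨kc_nf hT kH, _, hD.lH, rfl⟩ F.fq.hol)
        ((le_of_nf hT zero_le_one (by
          have := nf_smul hT (sub_nonneg.2 c1) nl
          rwa [sub_smul, ← e1, one_smul, ← one_smul ℝ (T.pull F.fq.hol _)] at this)).trans
          (le_kc_pull hT F.fq.hol kH nD))
        (nuu.nu T hT _ ν V F.V F.e S hS _ cV F.cV.prj hl hν) (by rwa [mul_comm] at z)).2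
      obtain ⟨v, hv⟩ := (hT.po.kah F.V).1 (P285S.B2.kah_of hT F.cV.prj)
      obtain ⟨r, r0, hr⟩ := inj.pos T hT b d F.V F.Z F.π F.fq.hol v F.cV F.cZ (DescX.surj F.fq) hv
      have := z _ ((nα.mn.pow (b - (ν + 1))).mul ((kc_nf hT hv).mn.pow d))
      rw [← mul_assoc, ← pow_add, Nat.add_sub_cancel' k, ← map_pow, hr] at this
      exact (mul_pos r0 (kc_pos hT kH)).ne' this
    · have pc : ∀ z, T.pull (F.fq.hol.comp hp) z = T.pull hp (T.pull F.fq.hol z) :=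
        hT.rg.pull_comp hp F.fq.hol _ fun _ => rfl
      rw [← pc]
      refine nt_of Ct.cuts T hT b F.Z _ _ (DescX.nef hT hD.lD hD.lH hD.pos) (hT.c1.deg _ H') m j U
        _ _ y e hU h1 h2 ?_
      rw [pc, hD.cls, congrArg (T.pull F.he) eq, map_smul, map_smul, map_smul, smul_mul_assoc,
        smul_mul_assoc, map_smul, map_smul, h3, smul_zero, smul_zero]

end Vale.Agent.P270G
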