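import Vale.Agent.P270G.Defs4
import Vale.Agent.P285S.Bs2.Ends

/-!
# P270G: the bound for the nef dimension goes up
-/

open Set
open Vale.Agent.P272.K Vale.Agent.P285.H281.FD Vale.Agent.P281Z Vale.Agent.P280Z
open Vale.Agent.P285W.J Vale.Agent.P285W.Bs

namespace Vale.Agent.P270G

theorem rfu : RFU := by
  intro T hT n ν Z Y π B hπ l α S cZ pY h
  have := cZ.conn
  refine ⟨nf_pull hT hπ.hol h.nef, fun k => h.ne (P285S.B2.zr_down hT hπ.hol ⟨hπ.conn, pY⟩ cZ
    hπ.surj (by rwa [map_mul, map_pow])), hπ.pre_neg h.neg, fun m d U p hp b e cU ng mb h0 => ?_⟩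
  have q := hT.rg.pull_comp hp hπ.hol (hπ.hol.comp hp) fun _ => rfl
  rw [← q] at h0 ⊢
  exact h.nt m d U _ _ b e cU ng mb h0

end Vale.Agent.P270G
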