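import Vale.Agent.P270G.Defs5
import Vale.Agent.P270G.End

/-!
# P270G: a relation between null divisors, in dimension at most four
-/

open scoped Manifold ContDiff Topology
open Set Filter Function
open Vale.Agent.P272.K Vale.Agent.P285.H281.FD Vale.Agent.P281Z Vale.Agent.P280Z
open Vale.Agent.P277.HD (pull)
open Vale.Agent.P285N Vale.Agent.P285W.J Vale.Agent.P285W.Bs
open Vale.Agent.P285S.B2 (Zr Nu Ba Nh SN NEG0)
open Vale.Agent.P285S.Mm (Sp)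

noncomputable section

namespace Vale.Agent.P270G

namespace SnfH

variable {T : CT} (hT : T.OK) {n ν : ℕ}

include hT

theorem fin1 (h : NEG0) {V : Mf (n + 1)} (cV : Cp V) {l Λ a : T.H V} (hl : Nf T V l)
    (h0 : ¬ Zr T V (l ^ (ν + 1))) (bf : Bf T V Λ) (kc : T.Kc V a) (big : Ef T V (Λ - a))
    {M₁ M₂ : Bd V.X} {s₁ : M₁.ι → V.X → ℂ} {s₂ : M₂.ι → V.X → ℂ} {α : ℝ} (l1 : IsLB (n + 1) M₁)
    (l2 : IsLB (n + 1) M₂) (t1 : IsSec (n + 1) M₁ s₁) (t2 : IsSec (n + 1) M₂ s₂)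
    (d1 : Dense {x | NZ M₁ s₁ x}) (d2 : Dense {x | NZ M₂ s₂ x})
    (e : T.c1 V M₁ - T.c1 V M₂ = α • l) (z1 : T.int V (T.c1 V M₁ * Λ ^ n) = 0)
    (z2 : T.int V (T.c1 V M₂ * Λ ^ n) = 0) (k : α ≠ 0 ∨ ∃ x, ¬ NZ M₁ s₁ x ∧ NZ M₂ s₂ x) :
    False := by
  have a0 : α = 0 := by
    by_contra c
    have h1 : T.int V (Λ ^ n * l) = 0 := by
      have := congrArg (fun x => T.int V (x * Λ ^ n)) e
      simp only [sub_mul, map_sub, z1, z2, sub_self, smul_mul_assoc, map_smul, smul_eq_mul] at this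
      exact mul_comm l _ ▸ (mul_eq_zero.1 this.symm).resolve_left c
    have h2 := domp hT (le_of_ef hT zero_le_one (by rwa [one_smul])) (kc_nf hT kc) (bf_nf hT bf) n
      hl.mn h1
    have h3 := P285S.B2.zr_of hT (e := 1) kc (fun y hy => by simpa using mn_int hT hy) hl.mn
      (by simpa using nf_dg hT hl) (add_comm 1 n) (by rwa [one_mul, mul_comm])
    exact h0 fun y hy => by
      rw [pow_succ', mul_assoc, ← one_mul l]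
      exact h3 _ (by simpa using (hl.mn.pow ν).mul hy)
  obtain ⟨x, x1, x2⟩ := k.resolve_left fun c => c a0
  exact x1 (h T hT n V M₁ M₂ s₁ s₂ Λ a cV l1 l2 t1 t2 d1 d2
    (sub_eq_zero.1 (by rw [e, a0, zero_smul])) bf kc big z1 x x2)

end SnfH

open EndH SnfH in
/-- **SNF** -/
theorem snf_of (h1 : DUN) (h2 : ZNL) (h3 : P270F.Mg.MM1) (h4 : RGN) (h5 : NZU) (h6 : NEG0) :
    SNF := by
  intro d hd T hT κ ι _ A m N L Λ ν n0 nd hD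
    ⟨M₁, M₂, s₁, s₂, c, l1, l2, t1, t2, d1, d2, e, z1, z2, k⟩
  have cA : Cp A.Z := ⟨hD.cw.ok.conn, hD.cw.ok.prj⟩
  have q1 := Ps.thin_z l1 t1 d1
  have q2 := Ps.thin_z l2 t2 d2
  have nz : ∀ x, NZ (M₁.mul M₂) (fun i y => s₁ i.1 y * s₂ i.2 y) x → NZ M₁ s₁ x ∧ NZ M₂ s₂ x :=
    fun x hx => by
    obtain ⟨a, ha⟩ := l1.cover x
    obtain ⟨b, hb⟩ := l2.cover x
    exact ⟨fun i hi => left_ne_zero_of_mul (hx (i, b) ⟨hi, hb⟩),
      fun i hi => right_ne_zero_of_mul (hx (a, i) ⟨ha, hi⟩)⟩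
  obtain ⟨x₀, hx₀⟩ := have := cA.conn; (q1.union q2).dense.nonempty
  obtain ⟨κ', _, A', m', π, S, Λ', hπ, γ, hD', ho, -, eZ, dw⟩ := h1 d T hT κ ι A m N L Λ
    (M₁.mul M₂) (fun i y => s₁ i.1 y * s₂ i.2 y) ν nd hD (lb_mul l1 l2)
    ⟨fun i e y he hi => (t1.holo _ e y he hi.1).mul (t2.holo _ e y he hi.2), fun i j y hi hj => by
      rw [t1.change _ _ y hi.1 hj.1, t2.change _ _ y hi.2 hj.2]
      exact mul_mul_mul_comm _ _ _ _⟩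
    ⟨x₀, fun i hi => mul_ne_zero (not_not.1 (fun c => hx₀ (.inl c) : ¬ ¬ NZ M₁ s₁ x₀) _ hi.1)
      (not_not.1 (fun c => hx₀ (.inr c) : ¬ ¬ NZ M₂ s₂ x₀) _ hi.2)⟩
  have cA' : Cp A'.Z := ⟨hD'.cw.ok.conn, hD'.cw.ok.prj⟩
  have nl := nf_of hT cA'.prj hD'.lb hD'.nef
  have eL := hT.c1.pull hπ.hol L hD.lb
  have mz : Mn T A'.Z (zz T A'.Z (pull π L) Λ' ν) :=
    (nl.mn.pow ν).mul ((bf_nf hT (big hT cA'.conn hD'.fb).1).mn.pow _)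
  have dz := dg_mul hT (dg_pow hT (hT.c1.deg A'.Z (pull π L)) ν)
    (dg_pow hT (hT.c1.deg A'.Z Λ') (d - ν))
  rw [Nat.add_sub_cancel' nd] at dz
  refine dw ((h3 d hd T hT κ' ι A' m' N _ hD'.cw mz dz hD'.neg).resolve_left fun ⟨C, hC⟩ => ?_)
  have cV : Cp C.B.Z := ⟨hC.cw.ok.conn, hC.cw.ok.prj⟩
  have := cV.conn
  have hw := hC.md
  obtain ⟨bf, a, kc, bg⟩ := big hT cV.conn hC.fb
  have mΛ := (bf_nf hT bf).mn.pow d
  have dn : ∀ {M : Bd A.Z.X} {s : M.ι → A.Z.X → ℂ}, Thin (d + 1) {x | ¬ NZ M s x} →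
      Dense {x | NZ (pull C.π (pull π M)) (fun i y => s i (π (C.π y))) x} := fun q =>
    (hw.pre_thin (hπ.pre_thin q)).2.mono fun _ => not_not.1
  have key : ∀ {M : Bd A.Z.X} {s : M.ι → A.Z.X → ℂ}, IsLB (d + 1) M → IsSec (d + 1) M s →
      Thin (d + 1) {x | ¬ NZ M s x} → Zr T A.Z (T.c1 A.Z M * T.c1 A.Z L ^ ν) →
      (∀ y ∈ off A'.G, NZ M s (π y)) →
      T.int C.B.Z (T.c1 C.B.Z (pull C.π (pull π M)) * T.c1 C.B.Z C.Λ ^ d) = 0 :=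
    fun {M s} a1 a2 a3 a4 a5 => by
    obtain ⟨r, r1, -⟩ := Ps.fub1 hT cA.conn (kah hT cA.prj) hπ.hol
    have b1 := h2 (d + 1) T hT κ' ι A' m' N (pull π M) (fun i y => s i (π y)) _ hD'.cw
      (hπ.hol.lb a1) (hπ.hol.sec a2) a5 mz (by
        rw [hT.c1.pull hπ.hol M a1, eZ, mul_smul_comm, ← map_mul, map_smul, r1, ← mul_assoc _ (_ ^ ν),
          a4 _ ((bf_nf hT (big hT cA.conn hD.fb).1).mn.pow _), mul_zero, smul_zero])
    have b2 := h5 d T hT C.κ' C.ι' C.B C.m C.N C.B.Z _ _ modif_id _ (pull C.π (pull π M))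
      (fun i y => s i (π (C.π y))) hC.cw.ok cV.prj mΛ (dg_pow hT (hT.c1.deg _ _) d)
      (hw.hol.lb (hπ.hol.lb a1)) (hw.hol.sec (hπ.hol.sec a2)) (dn a3) fun y hy => .inr (by
        obtain ⟨j, j1, j2⟩ := (hC.sp y).1 (b1 _ hy)
        refine ⟨j, ?_, j2⟩
        simpa using h4 d T hT C.κ' C.ι' C.B C.m C.N _ C.Λ C.Q j d 0 hC.cw.ok hC.fb hC.lbQ hC.nfQ
          hC.rig (by omega) rfl)
    rwa [hT.rg.pull_id] at b2
  obtain ⟨ν, rfl⟩ : ∃ k, ν = k + 1 := ⟨ν - 1, by omega⟩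
  refine fin1 hT (ν := ν) (α := c) h6 cV (nf_pull hT hw.hol nl)
    (fun q => hD'.nu.1 (zr_down hT hw cA' (by rwa [map_pow]))) bf kc bg
    (hw.hol.lb (hπ.hol.lb l1)) (hw.hol.lb (hπ.hol.lb l2)) (hw.hol.sec (hπ.hol.sec t1))
    (hw.hol.sec (hπ.hol.sec t2)) (dn q1) (dn q2) ?_
    (key l1 t1 q1 z1 fun y hy => (nz _ (ho y hy).2).1)
    (key l2 t2 q2 z2 fun y hy => (nz _ (ho y hy).2).2)
    (k.imp (fun q => (Nat.cast_pos.2 q).ne') fun ⟨x, hx⟩ => ?_)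
  · rw [hT.c1.pull hw.hol _ (hπ.hol.lb l1), hT.c1.pull hw.hol _ (hπ.hol.lb l2), ← map_sub,
      hT.c1.pull hπ.hol _ l1, hT.c1.pull hπ.hol _ l2, ← map_sub, e, map_smul, map_smul, ← eL]
  · obtain ⟨y, rfl⟩ := hπ.surj x
    obtain ⟨y, rfl⟩ := hw.surj y
    exact ⟨y, hx⟩

end Vale.Agent.P270G
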