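import Vale.Agent.P270G.Defs4
import Vale.Agent.P270F.Tg.Defs

/-!
# P270G: the induction in dimension at most four (rows)
-/

open Set
open Vale.Agent.P272.K Vale.Agent.P285.H281.FD Vale.Agent.P281Z Vale.Agent.P280Z
open Vale.Agent.P277.HD (pull)
open Vale.Agent.P285N Vale.Agent.P285W.J Vale.Agent.P285W.Bs
open Vale.Agent.P285N.Tp (FLC)
open Vale.Agent.P285S.B2 (Zr Nu Ba Nh SN MV)
open Vale.Agent.P285S.Mm (Sp)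
open Vale.Agent.P270F.Mg (Frm)
open Vale.Agent.P270F.Tg (Nc)

namespace Vale.Agent.P270G

/-- all the null hypersurfaces are in `S` -/
def Cv (T : CT) {n : ℕ} (Z : Mf n) (l : T.H Z) (ν : ℕ) (S : Set Z.X) : Prop :=
  ∀ (d : ℕ) (U : Mf d) (p : U.X → Z.X) (hp : HolM d n p), Nh T Z l ν U hp → range p ⊆ S

/-- the test class -/
abbrev zz (T : CT) {d : ℕ} (Z : Mf (d + 1)) (L Λ : Bd Z.X) (ν : ℕ) : T.H Z :=
  T.c1 Z L ^ ν * T.c1 Z Λ ^ (d - ν)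

/-- **DUN**: the data go up, the output goes down -/
def DUN : Prop := ∀ d, ForP (d + 1) fun T _ ι _ A m N => ∀ (L Λ D : Bd A.Z.X)
  (s : D.ι → A.Z.X → ℂ) (ν : ℕ), ν ≤ d → Dn T A m N L Λ ν → IsLB (d + 1) D → IsSec (d + 1) D s →
  (∃ x, NZ D s x) → ∃ (κ' : Type) (_ : Fintype κ') (A' : Pr (d + 1) κ' ι) (m' : κ' → ℤ)
    (π : A'.Z.X → A.Z.X) (S : Set A.Z.X) (Λ' : Bd A'.Z.X) (hπ : Modif (d + 1) π S) (c : ℝ),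
    Dn T A' m' N (pull π L) Λ' ν ∧ (∀ y ∈ off A'.G, π y ∉ S ∧ NZ D s (π y)) ∧ 0 < c ∧
    zz T A'.Z (pull π L) Λ' ν = c • T.pull hπ.hol (zz T A.Z L Λ ν) ∧
    (Frm T A'.Z (zz T A'.Z (pull π L) Λ' ν) → Frm T A.Z (zz T A.Z L Λ ν))

/-- **SNF**: a relation between null divisors -/
def SNF : Prop := ∀ d ≤ 3, ForP (d + 1) fun T _ _ _ A m N => ∀ (L Λ : Bd A.Z.X) (ν : ℕ), 0 < ν →
  ν ≤ d → Dn T A m N L Λ ν → SN T A.Z (T.c1 A.Z L) ν → Frm T A.Z (zz T A.Z L Λ ν)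

/-- **CF3**: families of surfaces, numerical dimension three -/
def CF3 : Prop := ∀ T : CT, T.OK → ∀ (Y : Mf 4) (L H : Bd Y.X), Ba Y L H →
  Neg 4 (Tr T Y (T.c1 Y L)) → P285S.Ob.CF T Y (T.c1 Y L) (T.c1 Y H) 2 1 → MV T Y (T.c1 Y L) 3

/-- **EN0**: the end, if all the null hypersurfaces are contracted -/
def EN0 : Prop := ∀ T : CT, T.OK → FLC T → ∀ d ≤ 3, ∀ (Z : Mf (d + 1)) (L H Λ : Bd Z.X) (ν : ℕ),
  0 < ν → ν ≤ d → Ba Z L H → KX Z L H → Nu T Z (T.c1 Z L) ν → Fb Z Λ →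
  (∀ (e : ℕ) (U : Mf e) (p : U.X → Z.X) (hp : HolM e (d + 1) p), Nh T Z (T.c1 Z L) ν U hp →
    ∀ j k : ℕ, T.int U (T.pull hp (T.c1 Z L ^ j * T.c1 Z Λ ^ k)) = 0) →
  (d = 3 → ν = 2 → Neg (d + 1) (Tr T Z (T.c1 Z L)) →
    P285S.Ob.CF T Z (T.c1 Z L) (T.c1 Z H) 2 1 → MV T Z (T.c1 Z L) 2) → False

/-- **ENN** -/
def ENN : Prop := ∀ d ≤ 3, ForP (d + 1) fun T κ _ _ A m N => FLC T → ∀ (Q Λ : Bd A.Z.X)
  (Φ : κ → ℕ) (ν : ℕ), 0 < ν → ν ≤ d → Cw A m N → IsLB (d + 1) Q → Tp.Nf A.Z Q →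
  Nu T A.Z (T.c1 A.Z Q) ν → (∀ j, m j < 0 → Φ j ≠ 0) → Fb A.Z Λ →
  Xc.Rig A (fun j => -(Φ j : ℤ)) Λ Q → Cv T A.Z (T.c1 A.Z Q) ν (Sp A Φ) →
  Nc T A.Z (T.c1 A.Z Q) → False

/-- **MACH** -/
def MACH : Prop := ∀ d ≤ 3, ForP (d + 1) fun T _ _ _ A m N => FLC T → ∀ (L Λ : Bd A.Z.X) (ν : ℕ),
  0 < ν → ν ≤ d → Dn T A m N L Λ ν → Frm T A.Z (zz T A.Z L Λ ν)

/-- **RF0**: the start of the induction -/
def RF0 : Prop := ∀ T : CT, T.OK → ∀ (d : ℕ) (Z : Mf (d + 1)) (l α : T.H Z) (S : Set Z.X), Cp Z →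
  Zr T Z (l ^ 1) → ¬ Rf T Z l 0 α S

/-- **FYN**: the step of the induction -/
def FYN : Prop := ∀ d ≤ 2, ForP (d + 1 + 1) fun T _ _ _ A m N => ∀ (L Λ : Bd A.Z.X) (ν : ℕ)
  (α : T.H A.Z) (S : Set A.Z.X), ν ≤ d → Dn T A m N L Λ (ν + 1) →
  Rf T A.Z (T.c1 A.Z L) (ν + 1) α S → Frm T A.Z (zz T A.Z L Λ (ν + 1)) →
  ∃ (κ' ι' : Type) (_ : Fintype κ') (B : Pr (d + 1) κ' ι') (m' : κ' → ℤ) (N' : ℕ)
    (L' Λ' : Bd B.Z.X) (α' : T.H B.Z) (S' : Set B.Z.X), Dn T B m' N' L' Λ' ν ∧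
    Rf T B.Z (T.c1 B.Z L') ν α' S'

theorem corn_of (h0 : RF0) (h1 : MACH) (h2 : FYN) : CORN 3 := by
  have key : ∀ ν, ∀ d ≤ 3, ForP (d + 1) fun T _ _ _ A m N => FLC T → ∀ (L Λ : Bd A.Z.X)
      (α : T.H A.Z) (S : Set A.Z.X), ν ≤ d → Dn T A m N L Λ ν →
      ¬ Rf T A.Z (T.c1 A.Z L) ν α S := fun ν => by
    induction ν with
    | zero =>
      intro d _ T hT κ ι _ A m N _ L Λ α S _ h
      exact h0 T hT d _ _ α S ⟨h.cw.ok.conn, h.cw.ok.prj⟩ h.nu.2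
    | succ ν ih =>
      intro d hd T hT κ ι _ A m N hF L Λ α S hν h r
      obtain ⟨d, rfl⟩ : ∃ e, d = e + 1 := ⟨d - 1, by omega⟩
      obtain ⟨κ', ι', _, B, m', N', L', Λ', α', S', k1, k2⟩ := h2 d (by omega) T hT κ ι A m N L Λ ν α
        S (by omega) h r (h1 _ hd T hT κ ι A m N hF L Λ _ ν.succ_pos hν h)
      exact ih d (by omega) T hT κ' ι' B m' N' hF L' Λ' α' S' (by omega) k1 k2
  exact fun T hT κ ι _ A m N hF L Λ ν α S _ h2 => key ν 3 le_rfl T hT κ ι A m N hF L Λ α S h2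

end Vale.Agent.P270G
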