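import Vale.Agent.P270G.Top4
import Vale.Agent.P270G.Defs5

/-!
# P270G: the assembly in dimension at most four
-/

open Set
open Vale.Agent.P272.K Vale.Agent.P285.H281.FD Vale.Agent.P281Z Vale.Agent.P280Z
open Vale.Agent.P285N Vale.Agent.P285W.J Vale.Agent.P285W.Bs
open Vale.Agent.P285N.Tp (Eff Rows O1G FLC)

namespace Vale.Agent.P270G

theorem corn_le (h0 : RF0) (h1 : MACH) (h2 : FYN) (d : ℕ) (hd : d ≤ 3) : CORN d := by
  have key : ∀ ν, ∀ d ≤ 3, ForP (d + 1) fun T _ _ _ A m N => FLC T → ∀ (L Λ : Bd A.Z.X)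
      (α : T.H A.Z) (S : Set A.Z.X), ν ≤ d → Dn T A m N L Λ ν →
      ¬ Rf T A.Z (T.c1 A.Z L) ν α S := fun ν => by
    induction ν with
    | zero =>
      intro d _ T hT κ ι _ A m N _ L Λ α S _ h
      exact h0 T hT d _ _ α S ⟨h.cw.ok.conn, h.cw.ok.prj⟩ h.nu.2
    | succ ν ih =>
      intro d hd T hT κ ι _ A m N hF L Λ α S hν h r
      obtain ⟨d, rfl⟩ : ∃ e, d = e + 1 := ⟨d - 1, by omega⟩
      obtain ⟨κ', ι', _, B, m', N', L', Λ', α', S', k1, k2⟩ := h2 d (by omega) T hT κ ι A m N L Λ ν α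
        S (by omega) h r (h1 _ hd T hT κ ι A m N hF L Λ _ ν.succ_pos hν h)
      exact ih d (by omega) T hT κ' ι' B m' N' hF L' Λ' α' S' (by omega) k1 k2
  exact fun T hT κ ι _ A m N hF L Λ ν α S _ h2 => key ν d hd T hT κ ι A m N hF L Λ α S h2

theorem ga_le {T : CT} (R : Rows T) (o : O1G T) (co : ∀ d ≤ 3, CORN d) (rk : RFK) (ru : RFU)
    (dn : DN0) (k3 : KD3) (gd : GDF) (sa : P270F.Mg.SAE) (ns : NSD) : ∀ n ≤ 4, GA n
  | 0, _ => fun V Q _ _ _ _ _ h => h.one R o fun y _ => by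
    rw [dg_zero R.ok (dg_pow R.ok (R.ok.c1.deg V Q.L) 2) two_pos, zero_mul, map_zero]
  | d + 1, hn => ga_of R o (co d (by omega)) rk ru dn k3 gd
    (fun e κ ι _ A m N hA h => sa e κ ι A m N hA ⟨h.1.trans hn, h.2⟩) ns

end Vale.Agent.P270G
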