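import Vale.Agent.P270G.All
import Vale.Agent.P270G.Top5
import Vale.Agent.P270G.Hcg
import Vale.Agent.P270G.Efq
import Vale.Agent.P270G.Rfk
import Vale.Agent.P270G.Rfu
import Vale.Agent.P270G.Rf0
import Vale.Agent.P270G.Dn0
import Vale.Agent.P270G.Fyn49
import Vale.Agent.P270G.Mach43
import Vale.Agent.P270G.Snf
import Vale.Agent.P270F.EndnA
import Vale.Agent.P270F.Sf.All
import Vale.Agent.P270F.Tg.Bir2
import Vale.Agent.P285S.Mp.All
import Vale.Agent.P285S.Tp.All5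

/-!
# P270G: everything in dimension at most four
-/

open Vale.Agent.P285S

namespace Vale.Agent.P270G

theorem fyn : FYN := fyn49_of rfu nuu fbu (P270F.Mg.slt_of bern (P270F.Mg.slice_of bern gen))

theorem dun : DUN := M43.dun up nuu nzu fbu

theorem enn : ENN := fun d hd T hT κ ι _ A m N hF Q Λ Φ ν n0 n1 cw lQ nQ nu =>
  P270F.endn d hd T hT κ ι A m N hF Q Λ Φ ν cw lQ nQ nu n0 n1

theorem mach : MACH :=
  M43.mach dun (snf_of dun znl P270F.Mg.mm1 rgn nzu B2.neg0) B2.mdsn P270F.Mg.mm1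
    (P270F.Tg.mm2n P270F.Sf.sfc) enn nuu nzu fbu

theorem ga4 : ∀ n ≤ 4, GA n :=
  ga_le P285N.Tp.rows P285N.Tp.o1g (corn_le rf0 mach fyn) rfk rfu dn0 kd3 (gdf_of rgq fpf)
    P270F.Mg.sae nsd

theorem efq4 (n : ℕ) (hn : n ≤ 4) : EFQ n :=
  efq_of hcg n (Mm.Ps.nvs n hn fun d κ ι _ A m N hA h => Tp.As.nv4 d κ ι A m N hA (h.le.trans hn))

end Vale.Agent.P270G
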