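import Vale.Agent.P285S.Mg.Defs2
import Vale.Agent.P285S.Bs2.Defs3
import Vale.Agent.P285S.Sf.Defs

/-!
# P270G: generalised abundance on threefolds (definitions, rows)
-/

open scoped Manifold ContDiff Topology
open Set Filter Function
open Vale.Agent.P272.K Vale.Agent.P285.H281.FD Vale.Agent.P281Z Vale.Agent.P280Z
open Vale.Agent.P277Z.Slc (IsDiv Snc)
open Vale.Agent.P277.HD (pull)
open Vale.Agent.P285N Vale.Agent.P285W.J Vale.Agent.P285W.Bs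
open Vale.Agent.P285N.Tp (LR Rd Eff NumEff)
open Vale.Agent.P285N.St (SubPair Iso)
open Vale.Agent.P285S (SA)
open Vale.Agent.P285S.B2 (Zr Nu Ba Nh SN)
open Vale.Agent.P285S.Mm (Sp)
open Vale.Agent.P285S.Mm.Gp (ForI Dt)

noncomputable section

namespace Vale.Agent.P270G

variable {d : ℕ} {κ ι : Type}

/-- klt pairs with connected components and a torsion adjoint class -/
structure Cw [Fintype κ] (A : Pr d κ ι) (m : κ → ℤ) (N : ℕ) : Prop where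
  ok : A.Ok m N
  klt : ∀ l, m l < N
  conn : ∀ l, IsConnected (A.G l)
  tor : ∃ t : ℕ, 0 < t ∧ t • cls d A.P = 0

/-- the component `k` is killed by `z` -/
def Nl (T : CT) (A : Pr d κ ι) (k : κ) (z : T.H A.Z) : Prop :=
  ∀ (O : Bd A.Z.X) (σ : O.ι → A.Z.X → ℂ), IsDiv d (A.G k) O σ → T.int A.Z (T.c1 A.Z O * z) = 0

/-- the union of the components which are killed by `z` -/
def Nz (T : CT) (A : Pr d κ ι) (z : T.H A.Z) : Set A.Z.X := {x | ∃ k, Nl T A k z ∧ x ∈ A.G k}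

/-- free and big -/
structure Fb (Z : Mf d) (Λ : Bd Z.X) : Prop where
  lb : IsLB d Λ
  bpf : Bpf d Λ
  big : ∃ H, IsLB d H ∧ Pos d H ∧ P285S.Ef Z (cls d Λ - cls d H)

/-- all the null surfaces are in `S` -/
def Cov (T : CT) (Z : Mf 3) (l : T.H Z) (S : Set Z.X) : Prop :=
  ∀ (U : Mf 2) (p : U.X → Z.X) (hp : HolM 2 3 p), Nh T Z l 2 U hp → range p ⊆ S

/-- the data which will be shown to be contradictory -/
structure D3 (T : CT) [Fintype κ] (A : Pr 3 κ ι) (m : κ → ℤ) (N : ℕ) (L : Bd A.Z.X) : Prop where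
  cw : Cw A m N
  lb : IsLB 3 L
  nef : Tp.Nf A.Z L
  nu : Nu T A.Z (T.c1 A.Z L) 2
  tr : Neg 3 (Tr T A.Z (T.c1 A.Z L))
  neg : ∀ k, m k < 0 → Nl T A k (T.c1 A.Z L ^ 2)

/-- a model on which divisors are contracted -/
structure Ct (Z : Mf 3) : Type 1 where
  κ' : Type
  [ft : Fintype κ']
  ι' : Type
  B : Pr 3 κ' ι'
  m : κ' → ℤ
  N : ℕ
  π : B.Z.X → Z.X
  Φ : κ' → ℕ
  Λ : Bd B.Z.X
  Q : Bd B.Z.X

attribute [instance] Ct.ft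

/-- the preimage of `S` is the support of `Φ`, which is rigid -/
structure Ct.Ok {Z : Mf 3} (C : Ct Z) (S : Set Z.X) : Prop where
  cw : Cw C.B C.m C.N
  md : Modif 3 C.π S
  neg : ∀ j, C.m j < 0 → C.Φ j ≠ 0
  sp : ∀ y, C.π y ∈ S ↔ y ∈ Sp C.B C.Φ
  fb : Fb C.B.Z C.Λ
  lbQ : IsLB 3 C.Q
  nfQ : Tp.Nf C.B.Z C.Q
  rig : Xc.Rig C.B (fun j => -(C.Φ j : ℤ)) C.Λ C.Q

/-- on a model, `x` is free up to an arbitrarily small multiple of a fixed divisor -/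
def Kd (T : CT) {n : ℕ} (V : Mf n) (x : T.H V) : Prop :=
  ∃ (V' : Mf n) (e : V'.X → V.X) (S : Set V.X) (he : Modif n e S) (e₀ : T.H V'), V'.Prj ∧
    Ef T V' e₀ ∧ ∀ j : ℕ, ∃ (a r : ℕ) (w : T.H V'), j * r < a ∧ Bf T V' w ∧
      (a : ℝ) • T.pull he.hol x = w + (r : ℝ) • e₀

/-- abundance for good pairs of dimension at most two -/
def SA2 : Prop := SA fun d _ _ => d < 3

/-- abundance for effective good pairs of dimension at most three -/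
def SAE : Prop := SA fun d _ L => d ≤ 3 ∧ Eff d L

/-- **NV2**: non vanishing in dimension at most two -/
def NV2 : Prop := P285S.NV fun d _ _ => d < 3

/-- a statement for all pairs -/
def ForP (d : ℕ) (P : ∀ (T : CT) (κ ι : Type) [Fintype κ], Pr d κ ι → (κ → ℤ) → ℕ → Prop) : Prop :=
  ∀ T : CT, T.OK → ∀ (κ ι : Type) [Fintype κ] (A : Pr d κ ι) (m : κ → ℤ) (N : ℕ), P T κ ι A m N

/-! ### models -/

/-- **GEN**: general points of a component -/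
def GEN : Prop := ∀ (d : ℕ) (Z : Mf d) (κ : Type) [Fintype κ] (G : κ → Set Z.X) (j : κ),
  Snc d G → (G j).Nonempty → ∃ y ∈ G j, ∀ i, i ≠ j → y ∉ G i

/-- **CREP**: the crepant pull back -/
def CREP : Prop := ∀ d, ForP d fun _ _ _ _ A m N => ∀ (Y : Mf d) (π : Y.X → A.Z.X)
  (S : Set A.Z.X) (κ' : Type) [Fintype κ'] (G : κ' → Set Y.X), Cw A m N → Modif d π S → Y.Prj →
  Snc d G → (∀ l, IsConnected (G l)) → (∀ y ∈ off G, π y ∉ S ∧ π y ∈ off A.G) →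
  ∃ m' Ω, Cw (LR.mk Y π G m' N 1 Ω : LR A.Z A.P κ').A m' N ∧
    ∀ l, m' l < 0 → ∀ y ∈ G l, ¬ Imm d d π y ∨ ∃ k, m k < 0 ∧ π y ∈ A.G k

/-- **UP**: the log resolution of a section -/
def UP : Prop := ∀ d, ForP d fun _ _ ι _ A m N => ∀ (D : Bd A.Z.X) (s : D.ι → A.Z.X → ℂ),
  Cw A m N → IsLB d D → IsSec d D s → (∃ x, NZ D s x) →
  ∃ (κ' : Type) (_ : Fintype κ') (A' : Pr d κ' ι) (m' : κ' → ℤ) (π : A'.Z.X → A.Z.X)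
    (S : Set A.Z.X), Modif d π S ∧ Cw A' m' N ∧ (∀ y ∈ off A'.G, π y ∉ S ∧ NZ D s (π y)) ∧
    ∀ l, m' l < 0 → ∀ y ∈ A'.G l, ¬ Imm d d π y ∨ ∃ k, m k < 0 ∧ π y ∈ A.G k

/-- **FBU**: free and big bundles pull back -/
def FBU : Prop := ∀ (d : ℕ) (Z Y : Mf d) (π : Y.X → Z.X) (S : Set Z.X) (Λ : Bd Z.X),
  ConnectedSpace Y.X → Y.Prj → Modif d π S → Fb Z Λ → ∃ k, 0 < k ∧ Fb Y ((pull π Λ).pow k)

/-- **TOPB**: bounded poles, for arbitrary weights -/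
def TOPB : Prop := ∀ d, ForP d fun _ κ _ _ A m N => ∀ (m' m'' : κ → ℤ) (Λ L : Bd A.Z.X),
  A.Ok m N → Fb A.Z Λ → IsLB d L → Xc.Rig A m' Λ L → (∀ l, m'' l < 0 → m' l < 0) →
  ∃ (H : Bd A.Z.X) (C : ℕ), IsLB d H ∧ Pos d H ∧ Xc.Fp A m'' H L C

/-- **NUU**: the numerical dimension and the trivial curves -/
structure NUU : Prop where
  nu : ∀ T : CT, T.OK → ∀ (n ν : ℕ) (Z Y : Mf n) (π : Y.X → Z.X) (S : Set Z.X) (hπ : Modif n π S)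
    (l : T.H Z), Cp Z → Y.Prj → Nf T Z l → Nu T Z l ν → Nu T Y (T.pull hπ.hol l) ν
  tr : ∀ T : CT, T.OK → ∀ (n : ℕ) (Z Y : Mf n) (π : Y.X → Z.X) (S : Set Z.X) (hπ : Modif n π S)
    (l : T.H Z), Neg n (Tr T Z l) → Neg n (Tr T Y (T.pull hπ.hol l))
  te : ∀ T : CT, T.OK → ∀ (n : ℕ) (Z : Mf n) (l e : T.H Z) (δ : ℝ), Nf T Z l → 0 < δ → Ef T Z e →
    Neg n (Tr T Z l) → Neg n (Tr T Z (δ • l + e))

/-- **NZU**: divisors over the null components are null -/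
def NZU : Prop := ∀ d, ForP (d + 1) fun T _ _ _ A m N => ∀ (W : Mf (d + 1)) (π : W.X → A.Z.X)
  (S : Set A.Z.X) (hπ : Modif (d + 1) π S) (z : T.H A.Z) (D : Bd W.X) (s : D.ι → W.X → ℂ),
  A.Ok m N → W.Prj → Mn T A.Z z → T.Dg A.Z d z → IsLB (d + 1) D → IsSec (d + 1) D s →
  Dense {y | NZ D s y} → (∀ y, ¬ NZ D s y → ¬ Imm (d + 1) (d + 1) π y ∨ π y ∈ Nz T A z) →
  T.int W (T.c1 W D * T.pull hπ.hol z) = 0

/-- **INS**: hypersurfaces inside the null components -/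
def INS : Prop := ∀ d, ForP (d + 1) fun T _ _ _ A m N => ∀ (U : Mf d) (p : U.X → A.Z.X)
  (hp : HolM d (d + 1) p) (z : T.H A.Z), A.Ok m N → Cp U → Mn T A.Z z → T.Dg A.Z d z →
  range p ⊆ Nz T A z → T.int U (T.pull hp z) = 0

/-- **ZNL**: the zeros of a null section -/
def ZNL : Prop := ∀ d, ForP d fun T _ _ _ A m N => ∀ (D : Bd A.Z.X) (s : D.ι → A.Z.X → ℂ)
  (z : T.H A.Z), Cw A m N → IsLB d D → IsSec d D s → (∀ x ∈ off A.G, NZ D s x) → Mn T A.Z z →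
  T.int A.Z (T.c1 A.Z D * z) = 0 → ∀ x, ¬ NZ D s x → x ∈ Nz T A z

/-- **DUP** -/
def DUP : Prop := ForP 3 fun T _ ι _ A m N => ∀ (L D : Bd A.Z.X) (s : D.ι → A.Z.X → ℂ),
  D3 T A m N L → IsLB 3 D → IsSec 3 D s → (∃ x, NZ D s x) →
  ∃ (κ' : Type) (_ : Fintype κ') (A' : Pr 3 κ' ι) (m' : κ' → ℤ) (π : A'.Z.X → A.Z.X)
    (S : Set A.Z.X), Modif 3 π S ∧ D3 T A' m' N (pull π L) ∧
    ∀ y ∈ off A'.G, π y ∉ S ∧ NZ D s (π y)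

/-- **COV**: null surfaces -/
structure COV : Prop where
  up : ∀ T : CT, T.OK → ∀ (Z Y : Mf 3) (π : Y.X → Z.X) (B S : Set Z.X) (hπ : Modif 3 π B)
    (l : T.H Z), B ⊆ S → Cov T Z l S → Cov T Y (T.pull hπ.hol l) (π ⁻¹' S)
  one : ForP 3 fun T _ _ _ A m N => ∀ l : T.H A.Z, Cw A m N → Nf T A.Z l →
    Cov T A.Z l (off A.G)ᶜ → Cov T A.Z l (Nz T A (l ^ 2))
  two : ∀ T : CT, T.OK → ∀ (Z : Mf 3) (l : T.H Z) (δ : ℝ) (D : Bd Z.X) (s : D.ι → Z.X → ℂ)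
    (S : Set Z.X), Nf T Z l → 0 < δ → IsLB 3 D → IsSec 3 D s → (∀ x ∉ S, NZ D s x) →
    Nf T Z (δ • l + T.c1 Z D) → Cov T Z l S → Cov T Z (δ • l + T.c1 Z D) S

/-! ### rigidity -/

/-- **RGN**: rigid components are contracted -/
def RGN : Prop := ∀ d, ForP (d + 1) fun T κ _ _ A m N => ∀ (m' : κ → ℤ) (Λ L : Bd A.Z.X) (k : κ)
  (a b : ℕ), A.Ok m N → Fb A.Z Λ → IsLB (d + 1) L → Tp.Nf A.Z L → Xc.Rig A m' Λ L → m' k < 0 →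
  a + b = d → Nl T A k (T.c1 A.Z Λ ^ a * T.c1 A.Z L ^ b)

/-- **RIG2**: the converse on a surface -/
def RIG2 : Prop := ForP 2 fun T _ _ _ A m N => ∀ Λ L : Bd A.Z.X, A.Ok m N →
  (∀ l, IsConnected (A.G l)) → Fb A.Z Λ → IsLB 2 L →
  (∀ k, m k < 0 → Nl T A k (T.c1 A.Z Λ) ∧ Nl T A k (T.c1 A.Z L)) → Xc.Rig A m Λ L

/-- **KXC**: the domination of the canonical bundle -/
def KXC : Prop := ∀ d, ForP d fun _ _ _ _ A m N => ∀ (L H : Bd A.Z.X) (C : ℕ), Cw A m N →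
  IsLB d L → Tp.Nf A.Z L → IsLB d H → Pos d H → Xc.Fp A m H L C →
  ∃ (r : ℕ) (H' : Bd A.Z.X), 0 < r ∧ Ba A.Z (L.pow r) H' ∧ KX A.Z (L.pow r) H'

/-- **CONTR**: the rigid components are in the base locus -/
def CONTR : Prop := ∀ d, ForP d fun _ κ _ _ A m N => ∀ (O : κ → Bd A.Z.X)
  (σ : ∀ l, (O l).ι → A.Z.X → ℂ) (Φ φ : κ → ℕ) (H L L' : Bd A.Z.X) (C : ℕ), A.Ok m N →
  (∀ l, IsDiv d (A.G l) (O l) (σ l)) → IsLB d H → Pos d H → IsLB d L →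
  Xc.Fp A (fun l => -(Φ l : ℤ)) H L' C → (∀ l, φ l ≠ 0 → Φ l ≠ 0) →
  ∃ j : ℕ, 0 < j ∧ ∀ (x y : ℕ) (M : Bd A.Z.X) (s : M.ι → A.Z.X → ℂ), 0 < x → y ≤ x → IsLB d M →
    cls d M = x • (cls d L + ∑ l, (j * φ l) • cls d (O l)) + y • cls d H → IsSec d M s →
    ∀ z ∈ Sp A φ, ¬ NZ M s z

/-- **FPF**: flat twists and one more component -/
def FPF : Prop := ∀ d, ForP d fun T κ _ _ A m N => ∀ (H L L' : Bd A.Z.X) (C a : ℕ)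
  (Δ : Set A.Z.X) (m' : Option κ → ℤ) (ι' : Type) U g Ω, A.Ok m N → IsLB d H → Pos d H →
  IsLB d L → IsLB d L' → T.c1 A.Z L' = (a : ℝ) • T.c1 A.Z L →
  (Snc d fun o : Option κ => o.elim Δ A.G) → 0 ≤ m' none → (∀ l, m' (some l) < 0 ↔ m l < 0) →
  Xc.Fp A m H L C →
  ∃ C', Xc.Fp (⟨A.Z, fun o => o.elim Δ A.G, U, g, Ω⟩ : Pr d (Option κ) ι') m' H L' C'

/-! ### the surface -/

/-- **BERN**: the theorem of Bertini, off a negligible set -/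
def BERN : Prop := ∀ (d : ℕ) (X : Mf (d + 1)) (A : Bd X.X) (κ : Type) [Fintype κ]
  (G : κ → Set X.X) (S : Set X.X), IsLB (d + 1) A → Bpf (d + 1) A → Snc (d + 1) G →
  Neg (d + 1) S → ∃ Δ σ, IsDiv (d + 1) Δ A σ ∧ (Snc (d + 1) fun o : Option κ => o.elim Δ G) ∧
    ∀ (Y : Mf d) (i : Y.X → X.X), Emb d (d + 1) i (range i) → range i ⊆ Δ → Neg d (i ⁻¹' S)

/-- the hypotheses on the surface -/
structure S2 (T : CT) [Fintype κ] (A : Pr 2 κ ι) (m : κ → ℤ) (N : ℕ) (L Λ : Bd A.Z.X) : Prop where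
  cw : Cw A m N
  lb : IsLB 2 L
  nef : Tp.Nf A.Z L
  sq : T.int A.Z (T.c1 A.Z L ^ 2) = 0
  fb : Fb A.Z Λ
  neg : ∀ k, m k < 0 → Nl T A k (T.c1 A.Z Λ) ∧ Nl T A k (T.c1 A.Z L)

/-- **SF1**: non vanishing on the surface -/
def SF1 : Prop := ForP 2 fun T _ _ _ A m N => ∀ L Λ : Bd A.Z.X, S2 T A m N L Λ →
  ∃ a : ℕ, 0 < a ∧ Ef T A.Z ((a : ℝ) • T.c1 A.Z L)

/-- **SF2**: abundance on the surface -/
def SF2 : Prop := ForP 2 fun T _ _ _ A m N => ∀ (L Λ : Bd A.Z.X) (a : ℕ), S2 T A m N L Λ →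
  0 < a → Ef T A.Z ((a : ℝ) • T.c1 A.Z L) → ∃ (W : Mf 2) (π : W.X → A.Z.X) (S : Set A.Z.X)
    (hπ : Modif 2 π S) (c : ℝ), W.Prj ∧ 0 < c ∧ Bf T W (c • T.pull hπ.hol (T.c1 A.Z L))

/-- **FY1**: a free null class -/
def FY1 : Prop := ∀ T : CT, T.OK → ∀ (Z : Mf 3) (l h : T.H Z), Cp Z → Nf T Z l → Nu T Z l 2 →
  Neg 3 (Tr T Z l) → Bf T Z h → h ≠ 0 → T.int Z (h * l ^ 2) = 0 →
  Zr T Z (h ^ 2) ∧ (∀ w, T.Kc Z w → 0 < T.int Z (h * (l * w))) ∧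
    ∀ y, y ∈ T.Ty Z → T.Dg Z 1 y → T.int Z (y * l ^ 2) = 0 → T.int Z (y * (h * l)) = 0

/-- **FY2**: a component of a general member -/
def FY2 : Prop := ForP 3 fun T _ _ _ A m N => ∀ (r : ℕ) (S : Set A.Z.X) (z : T.H A.Z), A.Ok m N →
  (∀ l, m l < N) → 0 < r → Bpf 3 (A.P.pow r) → Zr T A.Z (T.c1 A.Z (A.P.pow r) ^ 2) → Neg 3 S →
  0 < T.int A.Z (T.c1 A.Z (A.P.pow r) * z) →
  ∃ (κ' ι' : Type) (_ : Fintype κ') (B : Pr 2 κ' ι') (m' : κ' → ℤ) (N' : ℕ)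
    (i : B.Z.X → A.Z.X) (hi : HolM 2 3 i), Cw B m' N' ∧ (∀ y, Imm 2 3 i y) ∧ Neg 2 (i ⁻¹' S) ∧
    0 < T.int B.Z (T.pull hi z) ∧
    (∀ y, Mn T A.Z y → T.int B.Z (T.pull hi y) ≤ T.int A.Z (T.c1 A.Z (A.P.pow r) * y)) ∧
    ∀ k, m' k < 0 → ∃ j, m j < 0 ∧ ∀ y, Nf T A.Z y →
      Nl T A j (T.c1 A.Z (A.P.pow r) * y) → Nl T B k (T.pull hi y)

/-- **FY**: a semiample null adjoint class vanishes -/
def FY : Prop := ForP 3 fun T _ _ _ A m N => ∀ L Λ : Bd A.Z.X, A.Ok m N → (∀ l, m l < N) →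
  Semiample 3 A.P → IsLB 3 L → Tp.Nf A.Z L → Nu T A.Z (T.c1 A.Z L) 2 →
  Neg 3 (Tr T A.Z (T.c1 A.Z L)) → Fb A.Z Λ → T.int A.Z (T.c1 A.Z A.P * T.c1 A.Z L ^ 2) = 0 →
  (∀ k, m k < 0 → Nl T A k (T.c1 A.Z L ^ 2) ∧ Nl T A k (T.c1 A.Z Λ * T.c1 A.Z A.P)) →
  T.c1 A.Z A.P = 0

/-- **AVG**: the average of two pairs -/
def AVG : Prop := ∀ d, ForP d fun _ κ _ _ A m N => ∀ (ι' : Type) U g Ω (m' : κ → ℤ) (N' : ℕ)
  (Φ : κ → ℕ), Cw A m N → (⟨A.Z, A.G, U, g, Ω⟩ : Pr d κ ι').Ok m' N' →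
  (∀ j, m' j < 0 → Φ j ≠ 0) → (∀ j, m j < 0 → Φ j ≠ 0 ∨ m' j = N') →
  ∃ (c N'' : ℕ) (m'' : κ → ℤ), 0 < c ∧ (∀ j, m'' j < N'') ∧ (∀ j, m'' j < 0 → Φ j ≠ 0) ∧
    ∃ Ω', (⟨A.Z, A.G, U, fun a b x => g a b x ^ c, Ω'⟩ : Pr d κ ι').Ok m'' N''

/-! ### the minimal model programs -/

/-- **RFN**: connected components in the output -/
def RFN : Prop := ∀ d, ForI d fun _ _ _ A m N φ c L Q => ∀ (R : Dt A) H Ψ, R.Ok m N φ c L Q →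
  R.Zd Q H Ψ → ∃ (R' : Dt A) (Ψ' : R'.κ' → ℕ), R'.Ok m N φ c L Q ∧ R'.Zd Q H Ψ' ∧
    ∀ l, IsConnected (R'.B.G l)

/-- **ZC** -/
def ZC : Prop := ForI 3 fun _ _ _ A m N φ c L Q => (∀ l, IsConnected (A.G l)) →
  ∀ H, IsLB 3 H → Pos 3 H → ∃ (R : Dt A) (Ψ : R.κ' → ℕ), R.Ok m N φ c L Q ∧ R.Zd Q H Ψ ∧ R.Gr ∧
    ∀ l, IsConnected (R.B.G l)

/-- **MM1**: the null components are contracted -/
def MM1 : Prop := ForP 3 fun T _ _ _ A m N => ∀ L : Bd A.Z.X, D3 T A m N L →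
  ∃ C : Ct A.Z, C.Ok (Nz T A (T.c1 A.Z L ^ 2))

/-- **MM2**: the null components are contracted on a model of `L` -/
def MM2 : Prop := ForP 3 fun T κ _ _ A m N => ∀ (L Λ Q : Bd A.Z.X) (Φ : κ → ℕ), Cw A m N →
  IsLB 3 L → Tp.Nf A.Z L → (∀ j, m j < 0 → Φ j ≠ 0) → Fb A.Z Λ → IsLB 3 Q →
  Xc.Rig A (fun j => -(Φ j : ℤ)) Λ Q →
  ∃ (C : Ct A.Z) (h : C.Ok (Sp A Φ)) (δ : ℝ) (D : Bd C.B.Z.X) (s : D.ι → C.B.Z.X → ℂ), 0 < δ ∧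
    IsLB 3 D ∧ IsSec 3 D s ∧ (∀ y ∉ Sp C.B C.Φ, NZ D s y) ∧
    T.c1 C.B.Z C.Q = δ • T.pull h.md.hol (T.c1 A.Z L) + T.c1 C.B.Z D

/-- **SNK** -/
def SNK : Prop := ForP 3 fun T _ _ _ A m N => ∀ L : Bd A.Z.X, D3 T A m N L →
  ¬ SN T A.Z (T.c1 A.Z L) 2

/-- **NUQ** -/
def NUQ : Prop := ∀ T : CT, T.OK → ∀ (Z : Mf 3) (l e : T.H Z) (δ : ℝ), Cp Z → Nf T Z l →
  Nu T Z l 2 → 0 < δ → Ef T Z e → T.int Z (e * l ^ 2) = 0 → Nf T Z (δ • l + e) →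
  Nu T Z (δ • l + e) 2

/-- **END0**: the dichotomy is impossible if all the null surfaces are contracted -/
def END0 : Prop := ∀ T : CT, T.OK → ∀ (Z : Mf 3) (L H Λ : Bd Z.X) (S : Set Z.X), Ba Z L H →
  KX Z L H → Nu T Z (T.c1 Z L) 2 → Neg 3 (Tr T Z (T.c1 Z L)) → Fb Z Λ → Neg 3 S →
  Cov T Z (T.c1 Z L) S → (∀ (U : Mf 2) (p : U.X → Z.X) (hp : HolM 2 3 p) (j k : ℕ), Cp U →
    range p ⊆ S → T.int U (T.pull hp (T.c1 Z L ^ j * T.c1 Z Λ ^ k)) = 0) → False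

/-- **END** -/
def END : Prop := ForP 3 fun T κ _ _ A m N => ∀ (Q Λ : Bd A.Z.X) (Φ : κ → ℕ), Cw A m N →
  IsLB 3 Q → Tp.Nf A.Z Q → Nu T A.Z (T.c1 A.Z Q) 2 → Neg 3 (Tr T A.Z (T.c1 A.Z Q)) →
  (∀ j, m j < 0 → Φ j ≠ 0) → Fb A.Z Λ → Xc.Rig A (fun j => -(Φ j : ℤ)) Λ Q →
  Cov T A.Z (T.c1 A.Z Q) (Sp A Φ) → False

/-- **CORE** -/
def CORE : Prop := ForP 3 fun T _ _ _ A m N => ∀ L : Bd A.Z.X, ¬ D3 T A m N L

/-! ### the data of the statement -/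

/-- the hypotheses of the final statement -/
structure Gq {n : ℕ} {V : Mf n} (Q : Rd V) (D : Bd V.X) (t : D.ι → V.X → ℂ) (q : ℕ)
    (C M : Bd V.X) : Prop where
  ok : Q.Ok
  sub : SubPair n Q.E Q.s D t q C
  eff : Eff n C
  lb : IsLB n M
  nef : Tp.Nf V M
  iso : Iso n Q.L (C.mul M)

/-- a statement for all such data -/
def ForQ (n : ℕ) (P : ∀ (T : CT) (V : Mf n), Rd V → Bd V.X → Bd V.X → Prop) : Prop :=
  ∀ T : CT, T.OK → ∀ (V : Mf n) (Q : Rd V) (D : Bd V.X) (t : D.ι → V.X → ℂ) (q : ℕ)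
    (C M : Bd V.X), Gq Q D t q C M → P T V Q C M

/-- **EXQ**: the exceptional divisor is null -/
def EXQ : Prop := ∀ T : CT, T.OK → ∀ (d : ℕ) (V : Mf (d + 1)) (Q : Rd V), Q.Ok →
  T.int V (T.c1 V Q.E * T.c1 V Q.L ^ d) = 0

/-- **D30** -/
def D30 : Prop := ForQ 3 fun T V Q _ _ => Nu T V (T.c1 V Q.L) 2 → Neg 3 (Tr T V (T.c1 V Q.L)) →
  ∃ (κ ι : Type) (_ : Fintype κ) (A : Pr 3 κ ι) (m : κ → ℤ) (N : ℕ) (L : Bd A.Z.X), D3 T A m N L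

/-- **KD2**: the case of a fibration -/
def KD2 : Prop := ForQ 3 fun T V Q _ M => Nu T V (T.c1 V Q.L) 2 →
  ¬ Neg 3 (Tr T V (T.c1 V Q.L)) → Kd T V (T.c1 V Q.L + T.c1 V M)

/-- **KD3**: the big case -/
def KD3 : Prop := ∀ T : CT, T.OK → ∀ (n : ℕ) (V : Mf n) (L M : Bd V.X), Cp V → IsLB n L →
  IsLB n M → Tp.Nf V L → Tp.Nf V M → ¬ Zr T V (T.c1 V L ^ n) → Kd T V (T.c1 V L + T.c1 V M)

/-- **RGQ**: bounded poles on a log resolution -/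
def RGQ : Prop := ∀ (n : ℕ) (V : Mf n) (Q : Rd V) (P : Bd V.X) (κ : Type) [Fintype κ]
  (R : LR V P κ), Q.Ok → R.Ok2 Q →
  ∃ (H : Bd R.Y.X) (C : ℕ), IsLB n H ∧ Pos n H ∧ Xc.Fp R.A R.m H (pull R.π Q.L) C

/-- **GDF**: an effective good pair in the class of a multiple of `L` -/
def GDF : Prop := ∀ n, ForQ n fun T V Q _ M => Kd T V (T.c1 V Q.L + T.c1 V M) →
  ∃ (κ ι : Type) (_ : Fintype κ) (A : Pr n κ ι) (m : κ → ℤ) (N : ℕ) (π : A.Z.X → V.X)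
    (S : Set V.X) (hπ : Modif n π S) (a : ℕ), P285S.Gd A m N ∧ Eff n A.P ∧ 0 < a ∧
    T.c1 A.Z A.P = (a : ℝ) • T.pull hπ.hol (T.c1 V Q.L)

/-- **FLB**: a free bundle in a pulled back class is pulled back -/
def FLB : Prop := ∀ T : CT, T.OK → ∀ (n : ℕ) (V Y : Mf n) (π : Y.X → V.X) (S : Set V.X)
  (hπ : Modif n π S) (W : Bd Y.X) (y : T.H V), Cp V → Y.Prj → IsLB n W → Bpf n W → T.Dg V 1 y →
  T.c1 Y W = T.pull hπ.hol y → ∃ W', IsLB n W' ∧ cls n W = cls n (pull π W')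

/-- **NSD**: the descent -/
def NSD : Prop := ∀ T : CT, T.OK → Tp.FLC T → ∀ (n : ℕ) (V Y : Mf n) (π : Y.X → V.X)
  (S : Set V.X) (hπ : Modif n π S) (L : Bd V.X) (P : Bd Y.X) (a : ℕ), Cp V → Y.Prj → IsLB n L →
  IsLB n P → Semiample n P → 0 < a → T.c1 Y P = (a : ℝ) • T.pull hπ.hol (T.c1 V L) →
  NumSemiample n L

end Vale.Agent.P270G
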