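import Vale.Agent.P270G.Top2

/-!
# P270G: the top of the proof in higher dimension (rows)
-/

open Set
open Vale.Agent.P272.K Vale.Agent.P285.H281.FD Vale.Agent.P281Z Vale.Agent.P280Z
open Vale.Agent.P277.HD (pull)
open Vale.Agent.P285N Vale.Agent.P285W.J Vale.Agent.P285W.Bs
open Vale.Agent.P285N.Tp (FLC)
open Vale.Agent.P285S.B2 (Zr Nu)

namespace Vale.Agent.P270G

/-- the nef dimension of `l` is larger than `ν` -/
structure Rf (T : CT) {n : ℕ} (Z : Mf n) (l : T.H Z) (ν : ℕ) (α : T.H Z) (S : Set Z.X) : Prop where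
  nef : Nf T Z α
  ne : ¬ Zr T Z (l ^ ν * α)
  neg : Neg n S
  nt : NTp T Z l α S

/-- the data on a Calabi-Yau pair -/
structure Dn (T : CT) {d : ℕ} {κ ι : Type} [Fintype κ] (A : Pr (d + 1) κ ι) (m : κ → ℤ) (N : ℕ)
    (L Λ : Bd A.Z.X) (ν : ℕ) : Prop where
  cw : Cw A m N
  lb : IsLB (d + 1) L
  nef : Tp.Nf A.Z L
  nu : Nu T A.Z (T.c1 A.Z L) ν
  fb : Fb A.Z Λ
  neg : ∀ k, m k < 0 → Nl T A k (T.c1 A.Z L ^ ν * T.c1 A.Z Λ ^ (d - ν))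

/-- **CORN**: the nef dimension is the numerical dimension -/
def CORN (d : ℕ) : Prop := ForP (d + 1) fun T _ _ _ A m N => FLC T → ∀ (L Λ : Bd A.Z.X) (ν : ℕ)
  (α : T.H A.Z) (S : Set A.Z.X), 2 ≤ ν → ν ≤ d → Dn T A m N L Λ ν →
  ¬ Rf T A.Z (T.c1 A.Z L) ν α S

/-- **RFK**: the nef reduction -/
def RFK : Prop := ∀ n, ForQ n fun T V Q _ M => ∀ ν : ℕ, 0 < ν → ν < n →
  Nu T V (T.c1 V Q.L) ν → Kd T V (T.c1 V Q.L + T.c1 V M) ∨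
    ∃ (V' : Mf n) (e : V'.X → V.X) (B : Set V.X) (he : Modif n e B) (α : T.H V') (S : Set V'.X),
      V'.Prj ∧ Rf T V' (T.pull he.hol (T.c1 V Q.L)) ν α S

/-- **RFU**: it goes up -/
def RFU : Prop := ∀ T : CT, T.OK → ∀ (n ν : ℕ) (Z Y : Mf n) (π : Y.X → Z.X) (B : Set Z.X)
  (hπ : Modif n π B) (l α : T.H Z) (S : Set Z.X), Cp Z → Y.Prj → Rf T Z l ν α S →
  Rf T Y (T.pull hπ.hol l) ν (T.pull hπ.hol α) (π ⁻¹' S)

/-- **DN0**: the data above a given model -/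
def DN0 : Prop := ∀ d, ForQ (d + 1) fun T V Q _ _ => ∀ (ν : ℕ) (V' : Mf (d + 1)) (e : V'.X → V.X)
  (B : Set V.X), ν ≤ d → Nu T V (T.c1 V Q.L) ν → Modif (d + 1) e B → V'.Prj →
  ∃ (κ ι : Type) (_ : Fintype κ) (A : Pr (d + 1) κ ι) (m : κ → ℤ) (N : ℕ) (π : A.Z.X → V'.X)
    (S : Set V'.X) (Λ : Bd A.Z.X), Modif (d + 1) π S ∧ Dn T A m N (pull π (pull e Q.L)) Λ ν

end Vale.Agent.P270G
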