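import Vale.Agent.P270G.Defs5
import Vale.Agent.P270G.Nz
import Vale.Agent.P281Z.Rs.All

/-!
# P270G: the data go up, the output goes down (row DUN)
-/

open Set
open Vale.Agent.P272.K Vale.Agent.P285.H281.FD Vale.Agent.P281Z Vale.Agent.P280Z
open Vale.Agent.P277.HD (pull)
open Vale.Agent.P285N Vale.Agent.P285W.J Vale.Agent.P285W.Bs
open Vale.Agent.P270F.Mg (Frm)

noncomputable section

namespace Vale.Agent.P270G

namespace DunH

variable {T : CT} {d : ℕ} {Z Y : Mf (d + 1)} {π : Y.X → Z.X} {S : Set Z.X}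

theorem z0 {V : Mf d} {c : ℝ} (hc : 0 < c) {a z : T.H V} (h : T.int V (a * c • z) = 0) :
    T.int V (a * z) = 0 := by
  rw [mul_smul_comm, map_smul, smul_eq_mul] at h
  exact (mul_eq_zero.1 h).resolve_left hc.ne'

theorem down (hT : T.OK) (hπ : Modif (d + 1) π S) {c : ℝ} (hc : 0 < c) {z : T.H Z}
    (h : Frm T Y (c • T.pull hπ.hol z)) : Frm T Z z := by
  obtain ⟨κ, ι, _, B, m, N, r, Λ, p, S', hp, k⟩ := h
  have hw := hπ.comp rem hp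
  rw [map_smul, ← hT.rg.pull_comp hp.hol hπ.hol hw.hol fun _ => rfl] at k
  exact ⟨κ, ι, inferInstance, B, m, N, r, Λ, _, _, hw, k.ok, k.klt, k.conn, k.pos, k.bpf, k.ne,
    k.fb, z0 hc k.nul, fun j hj => ⟨fun O σ hO => z0 hc ((k.neg j hj).1 O σ hO), (k.neg j hj).2⟩⟩

end DunH

theorem dun_of (h1 : UP) (h2 : NUU) (h3 : NZU) (h4 : FBU) : DUN := by
  intro d T hT κ ι _ A m N L Λ D s ν hν h lD sD nz
  obtain ⟨κ', _, A', m', π, S, hπ, c, k1, k2⟩ := h1 _ T hT κ ι A m N D s h.cw lD sD nz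
  obtain ⟨k, k0, fb⟩ := h4 _ _ _ π S Λ c.ok.conn c.ok.prj hπ h.fb
  have o := h.cw.ok
  have l1 := nf_of hT o.prj h.lb h.nef
  have l2 : Nf T A.Z (T.c1 A.Z Λ) := bf_nf hT ⟨Λ, h.fb.lb, h.fb.bpf, rfl⟩
  have e := hT.c1.pull hπ.hol L h.lb
  have hc : 0 < (k : ℝ) ^ (d - ν) := by positivity
  have e' : zz T A'.Z (pull π L) ((pull π Λ).pow k) ν =
      (k : ℝ) ^ (d - ν) • T.pull hπ.hol (zz T A.Z L Λ ν) := by
    rw [zz, e, hT.c1.pow _ _ k (hπ.hol.lb h.fb.lb), hT.c1.pull hπ.hol Λ h.fb.lb, smul_pow,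
      mul_smul_comm, map_mul, map_pow, map_pow]
  have dz := dg_mul hT (dg_pow hT (nf_dg hT l1) ν) (dg_pow hT (nf_dg hT l2) (d - ν))
  rw [Nat.add_sub_cancel' hν] at dz
  refine ⟨κ', inferInstance, A', m', π, S, _, hπ, _, ⟨c, hπ.hol.lb h.lb,
    P285S.Tp.nf_comp hπ.hol o.prj h.lb h.nef,
    e ▸ h2.nu T hT _ _ _ _ π S hπ _ ⟨o.conn, o.prj⟩ c.ok.prj l1 h.nu, fb,
    fun l hl O σ hO => ?_⟩, k1, hc, e', fun f => DunH.down hT hπ hc (e' ▸ f)⟩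
  refine (congrArg (fun x => T.int _ (_ * x)) e').trans ?_
  rw [mul_smul_comm, map_smul, h3 d T hT κ ι A m N A'.Z π S hπ _ O σ o c.ok.prj
    ((l1.mn.pow ν).mul (l2.mn.pow _)) dz hO.lb hO.sec (NzH.dn hO) fun y hy =>
      (k2 l hl y (not_not.1 fun k => hy fun a ha => mt (hO.leq a y ha).mem.1 k)).imp_right
        fun ⟨j, j1, j2⟩ => ⟨j, h.neg j j1, j2⟩, smul_zero]

end Vale.Agent.P270G
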