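import Vale.Agent.P270G.Hcg
import Vale.Agent.P270G.D30
import Vale.Agent.P285S.Mp.Nvso

/-!
# P270G, row EFQ: non vanishing for the data of the statement
-/

open Set Filter
open Vale.Agent.P272.K Vale.Agent.P285.H281.FD Vale.Agent.P281Z Vale.Agent.P285N
open Vale.Agent.P277.HD (pull)
open Vale.Agent.P277Z.Slc (lin)
open Vale.Agent.P285S Vale.Agent.P285S.Mm.Ps Vale.Agent.P285S.Mm.Ps.Nvso
open Vale.Agent.P285S.Tp (ef_add ef_pull ef_smul nf_comp)

namespace Vale.Agent.P270G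

/-- row EFQ -/
theorem efq66 (n : ℕ) (h : NVS n) : EFQ n := by
  intro V Q D t q C M hQ K ps lM nM ⟨u, u1, u2⟩
  have hC := K.lb
  have lL := hQ.bir.res.lbL
  obtain ⟨H, h1, h2⟩ := id hQ.prj
  obtain ⟨p, R, -, hR, lt, -⟩ := P285N.Tp.lrk2 n V Q D t q C D 1 (fun _ => t) hQ K K.div.lb
    (fun _ => K.div.sec) ⟨0, K.div.nz⟩
  obtain ⟨B, hB⟩ := hR.md
  have hπ := hB.hol
  have ok := hR.ok
  have := ok.conn
  obtain ⟨O, σ, hO⟩ := (Hyp.of_snc ok.snc).exists_div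
  have lO := fun l => (hO l).lb
  have l0 := lb_lin lO fun l => ((-R.m l).toNat : ℤ)
  have l1 := lb_mul ok.lb l0
  have c0 : cls n R.A.P = R.k • cls n (pull R.π C) := cls_pow (hπ.lb hC) R.k
  have c1 := (cls_mul ok.lb l0).trans (congrArg _ (cls_mon hO fun l => (-R.m l).toNat))
  have lt' : ∀ l, R.m l + (-R.m l).toNat < R.N := fun l => by
    have := lt l
    have := ok.pos
    omega
  obtain ⟨Ω, ok'⟩ := Mm.mkpr n _ R.Y R.G O σ _ (fun l => R.m l + (-R.m l).toNat) R.N ok.conn ok.prj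
    ok.snc hO l1 ok.pos ok.even (fun l => (lt' l).le) (by
      rw [c1, Xc.cls_eq n _ _ R.m R.N R.A O σ ok hO, add_assoc, ← Finset.sum_add_distrib]
      simp only [add_smul, natCast_zsmul])
  obtain ⟨a, ha, h4⟩ := (eff_iff l1).1 (h _ _ _ _ _ ok' (fun l => by omega)
    (eq_empty_of_forall_notMem fun y ⟨l, e, _⟩ => (lt' l).ne e)
    ⟨hπ.pic (cls n H), fun k => by
      obtain ⟨j, hj, s, s1, b, x, hb, s2⟩ := ps H h1 h2 (k * R.k)
      have l2 := lb_mul (lb_pow hC (k * R.k)) h1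
      have e := ef_add (ef_pull (V := V) hB ⟨_, s, lb_pow l2 j, rfl, s1, x,
        (nz_iff (lb_pow l2 j) (fun a b => s1.change a b x) hb).2 s2⟩)
        (ef_smul (ef_smul (ef_mon hO fun l => (-R.m l).toNat) k) j)
      refine ⟨j, hj, ?_⟩
      rw [cls_pow l2, cls_mul (lb_pow hC _) h1, cls_pow hC, map_nsmul, map_add, map_nsmul,
        ← cls_pull hπ hC, ← smul_add, add_right_comm, mul_smul, ← c0, ← smul_add, ← c1] at e
      exact e⟩)
  have cL : cls n Q.L = cls n C + cls n M := ((cls_eq lL (lb_mul hC lM)).2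
    ⟨u, fun a b x ha hb e he => (u1 a b e x he ha hb).1.analyticAt,
      fun a b x ha hb => (u1 a b _ x (P277Z.at_chart x) ha hb).2, u2⟩).trans (cls_mul hC lM)
  have lL' := hπ.lb lL
  have lM' := hπ.lb lM
  have hc : HC R.A R.m := by
    obtain ⟨W, c, lW, pW, fp⟩ := rgq n V Q C _ R hQ hR
    refine hcg n _ _ R.m R.N R.A W _ ok ⟨⟨lW, lb_pow lL' R.k, fun i j N lN e => ?_⟩, c,
      fun k i j N s lN e => fp k (i * R.k) j N s lN (by rw [e, cls_pow lL', mul_smul])⟩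
    have l2 := lb_mul (lb_pow lL' (i * R.k)) lW
    refine Xc.piso n _ _ _ (lb_mul (lb_pow lM' (j * R.k)) l2) lN ?_ (nf_comp hπ hQ.prj lM nM _ l2
      (nf_comp hπ hQ.prj lL (D30H.nf hQ) W lW pW (i * R.k)) (j * R.k))
    rw [e, cls_mul (lb_pow lM' _) l2, cls_mul (lb_pow lL' _) lW, cls_pow lM', cls_pow lL',
      cls_pow lL', c0, cls_pull hπ lL, cls_pull hπ lM, cls_pull hπ hC, cL, map_add]
    module
  have hE := lb_lin lO fun l => ((a * (-R.m l).toNat : ℕ) : ℤ)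
  have l3 := lb_pow ok.lb a
  obtain ⟨s, x, s1, s2⟩ := ef_cls (lb_mul l3 hE) (by
    rw [cls_mul l3 hE, cls_pow ok.lb, cls_mon hO]
    simpa only [c1, smul_add, Finset.smul_sum, smul_smul] using h4)
  obtain ⟨⟨b, c⟩, hx⟩ := (lb_mul l3 hE).cover x
  obtain ⟨v, v1, v2⟩ := SecP.untwist (i := id) (c := fun _ => 0) holM_id hO l3 isOpen_univ
    (secP_of_sec continuous_id s1 fun _ => le_rfl)
  obtain ⟨w, w1, w2⟩ := (hc a v (Xc.PolW.pol (j := a) (v1.mono continuous_id fun l => by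
    rw [zero_add, Int.cast_natCast]))).isSec ok.snc l3 fun _ => one_pos
  obtain ⟨y, y1, y2, y3⟩ := (((Hyp.of_div hO).freq x).and_eventually
    ((lb_near (lb_mul l3 hE) hx).and ((sec_hol s1 hx).ne_near (s2 _ hx)))).exists
  refine (eff_iff (V := V) hC).2 ⟨_, Nat.mul_pos ha hR.kp, ef_desc hB ok.snc hO (fun _ => 0)
    (fun l c => absurd rfl c) hC _ ⟨_, w, l3, ?_, w1, y,
      (nz_iff l3 (fun a b => w1.change a b y) y2.1).2 fun k => y3
        ((v2 b c y trivial y2.1 y2.2 y1).trans (by rw [← w2 b y y2.1 y1, k, zero_mul]))⟩⟩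
  rw [cls_pow ok.lb, c0, mul_smul]
  simp only [zero_smul, Finset.sum_const_zero, add_zero]

end Vale.Agent.P270G
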