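import Vale.Agent.P270G.Defs5
import Vale.Agent.P270G.End

/-!
# P270G: the end of the proof in dimension at most four
-/

open scoped Manifold ContDiff Topology
open Set Filter Function
open Vale.Agent.P272.K Vale.Agent.P285.H281.FD Vale.Agent.P281Z Vale.Agent.P280Z
open Vale.Agent.P277.HD (pull)
open Vale.Agent.P285N Vale.Agent.P285W.J Vale.Agent.P285W.Bs
open Vale.Agent.P285S.B2 (Zr Nu Ba Nh MV)
open Vale.Agent.P285S.Mm (Sp)

noncomputable section

namespace Vale.Agent.P270G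

open EndH in
/-- **ENN** -/
theorem enn_of (h1 : EN0) (h2 : TOPB) (h3 : KXC) (h4 : RGN) (h5 : INS) : ENN := by
  intro d hd T hT κ ι _ A m N hF Q Λ Φ ν ν0 νd cw lQ nQ nu neg fb rig cov nc
  obtain ⟨H, C, a1, a2, a3⟩ := h2 _ T hT κ ι A m N _ m Λ Q cw.ok fb lQ rig fun l hl => by
    have := neg l hl
    omega
  obtain ⟨r, H', hr, ba, kx⟩ := h3 _ T hT κ ι A m N Q H C cw lQ nQ a1 a2 a3
  have r1 : (0 : ℝ) < r := Nat.cast_pos.2 hr
  have r0 := r1.ne'
  have eP := hT.c1.pow A.Z Q r lQ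
  have nq := nf_of hT cw.ok.prj lQ nQ
  have nΛ := bf_nf hT (big hT cw.ok.conn fb).1
  refine h1 T hT hF d hd A.Z _ H' Λ ν ν0 νd ba kx ?_ fb (fun e U p hp h j k => ?_)
    fun e3 e2 tr cf => ?_
  · rw [eP]
    exact ⟨mt (zr_smul r0 ν).1 nu.1, (zr_smul r0 _).2 nu.2⟩
  · rw [eP] at h
    have hS := cov e U p hp ⟨h.dim, h.cp, h.imm, fun y hy => by
      have := h.nul y hy
      rwa [smul_pow, smul_mul_assoc, map_smul, map_smul, smul_eq_mul, mul_eq_zero,
        or_iff_right (pow_ne_zero ν r0)] at this⟩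
    obtain rfl : d = e := Nat.succ_injective h.dim
    have dz := dg_mul hT (dg_pow hT (hT.c1.deg A.Z Λ) k) (dg_pow hT (hT.c1.deg A.Z Q) j)
    rw [eP, smul_pow, smul_mul_assoc, map_smul, map_smul, mul_comm]
    by_cases e : k + j = d
    · rw [h5 d T hT κ ι A m N U p hp _ cw.ok h.cp ((nΛ.mn.pow k).mul (nq.mn.pow j))
        (by rwa [e] at dz) fun x hx => ?_, smul_zero]
      obtain ⟨l, l1, l2⟩ := hS hx
      exact ⟨l, h4 d T hT κ ι A m N _ Λ Q l k j cw.ok fb lQ nQ rig (by omega) e, l2⟩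
    · rw [dg_int hT (dg_pull hT hp dz) e, smul_zero]
  · subst e3 e2
    have k := hT.c1.pos A.Z _ (lb_mul (lb_pow ba.lL 0) ba.lA) (ba.pos 0)
    rw [hT.c1.mul A.Z _ _ (lb_pow ba.lL 0) ba.lA, hT.c1.pow A.Z _ 0 ba.lL, Nat.cast_zero,
      zero_smul, zero_add] at k
    rw [eP] at tr cf ⊢
    replace tr : Neg (3 + 1) (Tr T A.Z (T.c1 A.Z Q)) := by
      refine tr.mono fun y ⟨C, f, hf, b1, b2, b3, b4⟩ => ⟨C, f, hf, b1, b2, b3, ?_⟩
      rw [map_smul, map_smul, b4, smul_zero]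
    intro S hS
    obtain ⟨e, U, p, hp, b1, b2, b3, b4, b5⟩ := nc r _ r1 k rfl nu tr cf S hS
    exact ⟨e, U, p, hp, b1, b2, b3, b4, fun y hy => by
      rw [smul_pow, smul_mul_assoc, map_smul, map_smul, b5 y hy, smul_zero]⟩

end Vale.Agent.P270G
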