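import Vale.Agent.P270G.Defs
import Vale.Agent.P285S.Ca.End1
import Vale.Agent.P285S.Tp.Br
import Vale.Agent.P281Z.En.Kap2
import Vale.Agent.P285W.Bs.All
import Vale.Agent.P285W.J.Cuts
import Vale.Agent.P285W.J.KodA
import Vale.Agent.P285W.J.Top
import Vale.Agent.P280Z.Ld.Ext
import Vale.Agent.P280Z.Ld.Iso

/-!
# P270G: the rows FLB and NSD
-/

open scoped Manifold ContDiff Topology
open Set Filter Function
open Vale.Agent.P272.K Vale.Agent.P285.H281.FD Vale.Agent.P281Z Vale.Agent.P280Z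
open Vale.Agent.P277Z (Hol)
open Vale.Agent.P277Z.Slc.Dv (eq_of_dense)
open Vale.Agent.P277.HD (pull)
open Vale.Agent.P285W Vale.Agent.P285W.J Vale.Agent.P285W.Bs

namespace Vale.Agent.P270G

namespace Flb2

variable {T : CT} {n : ℕ} {V Y : Mf n} {π : Y.X → V.X} {S : Set V.X}

/-- a section of a numerically trivial bundle has no zeros -/
theorem nz0 (hT : T.OK) (hV : Cp V) {D : Bd V.X} {s : D.ι → V.X → ℂ} (hD : IsLB n D)
    (hs : IsSec n D s) (h0 : T.c1 V D = 0) {x : V.X} (hx : NZ D s x) (y : V.X) : NZ D s y := by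
  have := hV.conn
  rcases Nat.eq_zero_or_pos n with rfl | hn
  · have : DiscreteTopology V.X := ChartedSpace.discreteTopology (Cm 0) V.X
    have : Subsingleton V.X := PreconnectedSpace.trivial_of_discrete
    exact Subsingleton.elim x y ▸ hx
  · obtain ⟨H, lH, pH⟩ := hV.prj
    obtain ⟨a, ha⟩ := hD.cover x
    exact ef_nz hT hD hs (KodA.dense_nz hD hs ha (hx a ha)) hn (hT.c1.pos V H lH pH) h0 y

/-- the zeros of the sections are unions of fibres -/
theorem fib (hT : T.OK) (hπ : Modif n π S) (pY : Y.Prj) {W : Bd Y.X} (lW : IsLB n W) {y : T.H V}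
    (hy : T.Dg V 1 y) (e : T.c1 Y W = T.pull hπ.hol y) {s : W.ι → Y.X → ℂ} (hs : IsSec n W s)
    {z z' : Y.X} (h : π z' = π z) (hz : NZ W s z) : NZ W s z' := by
  by_cases k : π z ∈ S
  swap
  · exact hπ.inj k h ▸ hz
  obtain ⟨U, g, g1, g2, g3, g4⟩ := P285S.Ca.E1.thp (hπ.thin_pre.sub ((an_point (π z)).pre hπ.hol)
    (preimage_mono (singleton_subset_iff.2 k))) pY
  choose J _ B j c1 c2 _ c4 _ using fun d => comps (U d)
  have hj : ∀ a : Σ d, J d, HolM a.1 n fun y => g a.1 (j a.1 a.2 y) := fun a =>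
    (g1 _).comp (c2 _ _).hol
  have key : ∀ (a : Σ d, J d) u v, NZ W s (g a.1 (j a.1 a.2 u)) → NZ W s (g a.1 (j a.1 a.2 v)) :=
    fun a u v q => nz0 hT ⟨c1 _ _, P301Z.Al.prj_imm (c2 _ _).hol (c2 _ _).imm (g3 _)⟩
      ((hj a).lb lW) ((hj a).sec hs) (by
        rw [hT.c1.pull (hj a) W lW, e, ← hT.rg.pull_comp (hj a) hπ.hol (hπ.hol.comp (hj a))
          fun _ => rfl]
        exact CutsH.pull_const hT _ (fun u v => (g4 _ _).trans (g4 _ _).symm) hy) (x := u) q v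
  have cl : ∀ P : (Σ d, J d) → Prop,
      IsClosed (⋃ a : {a // P a}, range fun u => g a.1.1 (j a.1.1 a.1.2 u)) := fun P =>
    isClosed_iUnion_of_finite fun a => (isCompact_range (hj a.1).cont).isClosed
  have cov : ∀ w ∈ π ⁻¹' {π z}, ∃ (a : Σ d, J d) (u : (B a.1 a.2).X), g a.1 (j a.1 a.2 u) = w :=
    fun w hw => by
      obtain ⟨d, y, rfl⟩ := g2 w hw
      obtain ⟨i, u, rfl⟩ := c4 d y
      exact ⟨⟨d, i⟩, u, rfl⟩
  by_contra c
  obtain ⟨w, -, w1, w2⟩ := isPreconnected_closed_iff.1 (hπ.conn_all (π z)).2 _ _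
    (cl fun a => ∀ u, NZ W s (g a.1 (j a.1 a.2 u))) (cl fun a => ∀ u, ¬ NZ W s (g a.1 (j a.1 a.2 u)))
    (fun w hw => by
      obtain ⟨a, u, rfl⟩ := cov w hw
      by_cases q : NZ W s (g a.1 (j a.1 a.2 u))
      · exact .inl (mem_iUnion.2 ⟨⟨a, fun v => key a u v q⟩, u, rfl⟩)
      · exact .inr (mem_iUnion.2 ⟨⟨a, fun v q' => q (key a v u q')⟩, u, rfl⟩))
    (by
      obtain ⟨a, u, rfl⟩ := cov z rfl
      exact ⟨_, rfl, mem_iUnion.2 ⟨⟨a, fun v => key a u v hz⟩, u, rfl⟩⟩)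
    (by
      obtain ⟨a, u, rfl⟩ := cov z' h
      exact ⟨_, h, mem_iUnion.2 ⟨⟨a, fun v q' => c (key a v u q')⟩, u, rfl⟩⟩)
  obtain ⟨a, u, rfl⟩ := mem_iUnion.1 w1
  obtain ⟨b, v, q⟩ := mem_iUnion.1 w2
  exact b.2 v ((congrArg (NZ W s) q).mpr (a.2 u))

/-- holomorphic functions descend -/
theorem fdesc (hπ : Modif n π S) {O : Set V.X} (hO : IsOpen O) {f : Y.X → ℂ}
    (hf : ∀ y, π y ∈ O → Hol n f y) :
    ∃ g, (∀ x ∈ O, Hol n g x) ∧ ∀ y, π y ∈ O → g (π y) = f y := by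
  obtain ⟨v, v1, v2, v3⟩ := hπ.inv
  have hc := hπ.hol.cont
  obtain ⟨g, g1, g2⟩ := En.riem n V S O (fun x => f (v x)) hπ.thin hO
    (fun x hx k => (v3 x k).1.hol (hf _ ((v1 x).symm ▸ hx))) fun x hx => by
      have k : ∀ y ∈ π ⁻¹' {x}, ContinuousAt f y := fun y hy => (hf y (hy.symm ▸ hx)).cont
      obtain ⟨C, hC⟩ := (isClosed_singleton.preimage hc).isCompact.exists_bound_of_continuousOn
        fun y hy => (k y hy).continuousWithinAt
      exact ⟨C + 1, (hc.isClosedMap.eventually_nhds_fiber (p := fun y => ‖f y‖ ≤ C + 1) x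
        fun y hy => (k y hy).norm.eventually_le_const ((hC y hy).trans_lt (lt_add_one C))).mono
          fun w hw _ => hw _ (v1 w)⟩
  refine ⟨g, g1, fun y hy => eq_of_dense hπ.thin_pre.dense (hπ.hol.hol (g1 _ hy)).cont
    (hf y hy).cont ?_⟩
  filter_upwards [(hO.preimage hc).mem_nhds hy] with z k1 k2
  rw [g2 _ k1 k2, v2 z k2]

end Flb2

open Flb2

theorem flb2 : FLB := by
  intro T hT n V Y π S hπ W y hV pY lW bW hy e
  choose s s1 s2 using bW
  have hc := hπ.hol.cont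
  have hne : ∀ a z c, z ∈ W.U c → (s a c z ≠ 0 ↔ NZ W (s a) z) := fun a z c k =>
    (nz_iff lW (fun p q => (s1 a).change p q z) k).symm
  let U : Y.X → Set V.X := fun a => {x | ∀ z, π z = x → NZ W (s a) z}
  have hU : ∀ a z, π z ∈ U a ↔ NZ W (s a) z := fun a z =>
    ⟨fun k => k z rfl, fun k z' h => fib hT hπ pY lW hy e (s1 a) h k⟩
  have oU : ∀ a, IsOpen (U a) := fun a => isOpen_iff_mem_nhds.2 fun x hx =>
    hc.isClosedMap.eventually_nhds_fiber (p := fun z => NZ W (s a) z) x fun z hz => by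
      obtain ⟨c, k⟩ := lW.cover z
      filter_upwards [lb_near lW k, (sec_hol (s1 a) k).ne_near (hx z hz c k)] with w k1 k2
        using (hne a w c k1).1 k2
  choose r hr using fun a b => glue lW (fun c z => s b c z / s a c z) (fun z => NZ W (s a) z)
    fun c c' z k k' _ => by
      rw [(s1 a).change c c' z k k', (s1 b).change c c' z k k',
        mul_div_mul_left _ _ (lW.ne_zero _ _ z k k')]
  choose g g1 g2 using fun a b => fdesc hπ ((oU a).inter (oU b)) (f := r a b) fun z hz => by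
    obtain ⟨c, k⟩ := lW.cover z
    have k0 := (hU a z).1 hz.1 c k
    refine ((sec_hol (s1 b) k).div (sec_hol (s1 a) k) k0).congr ?_
    filter_upwards [lb_near lW k, (sec_hol (s1 a) k).ne_near k0] with w k1 k2
      using (hr a b c w k1 ((hne a w c k1).1 k2)).symm
  have g3 : ∀ a b c z, z ∈ W.U c → π z ∈ U a → π z ∈ U b → g a b (π z) = s b c z / s a c z :=
    fun a b c z k ha hb => (g2 a b z ⟨ha, hb⟩).trans (hr a b c z k ((hU a z).1 ha))
  have lW' : IsLB n (⟨Y.X, U, g⟩ : Bd V.X) := by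
    refine ⟨oU, fun x => ?_, fun a b e x he ha hb => (g1 a b x ⟨ha, hb⟩ e he).contDiffAt,
      fun a b x ha hb => ?_, fun a b c x ha hb hc => ?_⟩
    all_goals obtain ⟨z, rfl⟩ := hπ.surj x
    · exact ⟨z, (hU z z).2 (s2 z)⟩
    all_goals obtain ⟨i, k⟩ := lW.cover z
    · exact (g3 a b i z k ha hb).trans_ne (div_ne_zero ((hU b z).1 hb i k) ((hU a z).1 ha i k))
    · show g a b (π z) * g b c (π z) = g a c (π z)
      rw [g3 a b i z k ha hb, g3 b c i z k hb hc, g3 a c i z k ha hc, mul_comm,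
        div_mul_div_cancel₀ ((hU b z).1 hb i k)]
  refine ⟨_, lW', (cls_eq lW (hπ.hol.lb lW')).2 ⟨fun c a z => s a c z,
    fun c a z k _ => sec_hol (s1 a) k, fun c a z k ha => (hU a z).1 ha c k,
    fun c c' a a' z k k' ha ha' => ?_⟩⟩
  show s a c z * g a a' (π z) = _
  rw [g3 a a' c z k ha ha', mul_div_cancel₀ _ ((hU a z).1 ha c k), (s1 a').change c c' z k k']

theorem nsd2_of (h : FLB) : NSD := by
  intro T hT hF n V Y π S hπ L P a hV pY lL lP ⟨k, hk, hb⟩ ha e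
  have := hV.conn
  have lk := lb_pow lL (k * a)
  obtain ⟨W, lW, c⟩ := h T hT n V Y π S hπ (P.pow k) (T.c1 V (L.pow (k * a))) hV pY (lb_pow lP k) hb
    (hT.c1.deg _ _) (by
      rw [hT.c1.pow Y P k lP, e, hT.c1.pow V L _ lL, map_smul, smul_smul, Nat.cast_mul])
  have bW : Bpf n W := fun x => by
    obtain ⟨y, rfl⟩ := hπ.surj x
    obtain ⟨s, s1, s2⟩ := Bpf.iso (hπ.hol.lb lW) (lb_pow lP k)
      ((cls_eq (hπ.hol.lb lW) (lb_pow lP k)).1 c.symm) hb y
    obtain ⟨u, u1, u2⟩ := P285S.Tp.desc hπ lW s1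
    exact ⟨u, u1, fun i hi => u2 i y hi ▸ s2 i hi⟩
  have lF := lb_mul lW (lb_zp lL (-(k * a : ℕ)))
  refine ⟨k * a, Nat.mul_pos hk ha, _, lF, (hF V _ hV.prj.kah lF).1 ?_,
    Bpf.iso (lb_mul lk lF) lW ((cls_eq (lb_mul lk lF) lW).1 ?_) bW⟩
  · refine Bs.inj.inj T hT n n Y V π hπ.hol _ ⟨hπ.conn, pY⟩ hV hπ.surj ?_
    rw [hT.c1.mul V _ _ lW (lb_zp lL _), c1_zp hT lL, map_add, map_neg, map_smul,
      ← hT.c1.pull hπ.hol W lW, ← Ld.Ext.c1_cls Ld.iso hT.c1 (lb_pow lP k) (hπ.hol.lb lW) c,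
      hT.c1.pow Y P k lP, e, smul_smul, Nat.cast_mul, add_neg_cancel]
  · rw [cls_mul lk lF, cls_mul lW (lb_zp lL _), cls_zp lL, cls_pow lL, neg_smul, natCast_zsmul]
    abel

end Vale.Agent.P270G
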