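import Vale.Agent.P270G.Defs5
import Vale.Agent.P270G.Nz
import Vale.Agent.P270F.Endn
import Vale.Agent.P270F.Nh43
import Vale.Agent.P270F.Tk.Hdg
import Vale.Agent.P281Z.Rs.All

/-!
# P270G: the row MACH
-/

open Set
open Vale.Agent.P272.K Vale.Agent.P285.H281.FD Vale.Agent.P281Z Vale.Agent.P280Z
open Vale.Agent.P277.HD (pull)
open Vale.Agent.P285N Vale.Agent.P285W.J Vale.Agent.P285W.Bs
open Vale.Agent.P285S.B2 (Zr Nu Nh SN NEG0 MDSN)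
open Vale.Agent.P285S.Mm (Sp)
open Vale.Agent.P270F (nh_up nh_one nh_two)
open Vale.Agent.P270F.Mg (Frm)
open Vale.Agent.P270G.EndH Vale.Agent.P270G.NzH

namespace Vale.Agent.P270G

namespace MachH

variable {T : CT} (hT : T.OK) {n d ν : ℕ}

include hT

theorem frm_down {Z Y : Mf (d + 1)} {π : Y.X → Z.X} {S : Set Z.X} (hπ : Modif (d + 1) π S)
    {z : T.H Z} (h : Frm T Y (T.pull hπ.hol z)) : Frm T Z z := by
  obtain ⟨κ, ι, _, B, m, N, r, Λ, π', S', h1, h2⟩ := h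
  refine ⟨κ, ι, inferInstance, B, m, N, r, Λ, _, _, hπ.comp rem h1, ?_⟩
  rwa [hT.rg.pull_comp h1.hol hπ.hol _ fun _ => rfl]

theorem cv_up {Z Y : Mf n} {π : Y.X → Z.X} {B S : Set Z.X} (hπ : Modif n π B) {l : T.H Z}
    (k : B ⊆ S) (h : Cv T Z l ν S) : Cv T Y (T.pull hπ.hol l) ν (π ⁻¹' S) := by
  rintro d U p hp a _ ⟨x, rfl⟩
  by_contra c
  exact c (h d U _ _ (nh_up hT hπ a fun b => c (k b)) ⟨x, rfl⟩)

theorem dm_up (fbu : FBU) {Z Y : Mf n} {π : Y.X → Z.X} {B : Set Z.X} (hπ : Modif n π B)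
    (cY : Cp Y) {Λ : Bd Z.X} (h : Fb Z Λ) : P270F.Tk.Dm T Y (T.pull hπ.hol (T.c1 Z Λ)) := by
  obtain ⟨k, -, hk⟩ := fbu n Z Y π B Λ cY.conn cY.prj hπ h
  obtain ⟨a, ha, he⟩ := hk.kc hT cY.conn
  rw [hT.c1.pow Y _ k (hπ.hol.lb h.lb), hT.c1.pull hπ.hol _ h.lb] at he
  exact ⟨a, ha, le_of_ef hT k.cast_nonneg he⟩

theorem fin1 (h : NEG0) {V : Mf (n + 1)} (cV : Cp V) {l Λ a : T.H V} (hl : Nf T V l) (n0 : 0 < ν)
    (h0 : ¬ Zr T V (l ^ ν)) (bf : Bf T V Λ) (kc : T.Kc V a) (big : Ef T V (Λ - a))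
    {M₁ M₂ : Bd V.X} {s₁ : M₁.ι → V.X → ℂ} {s₂ : M₂.ι → V.X → ℂ} {α : ℝ} (l1 : IsLB (n + 1) M₁)
    (l2 : IsLB (n + 1) M₂) (t1 : IsSec (n + 1) M₁ s₁) (t2 : IsSec (n + 1) M₂ s₂)
    (d1 : Dense {x | NZ M₁ s₁ x}) (d2 : Dense {x | NZ M₂ s₂ x})
    (e : T.c1 V M₁ - T.c1 V M₂ = α • l) (z1 : T.int V (T.c1 V M₁ * Λ ^ n) = 0)
    (z2 : T.int V (T.c1 V M₂ * Λ ^ n) = 0) (k : α ≠ 0 ∨ ∃ x, ¬ NZ M₁ s₁ x ∧ NZ M₂ s₂ x) :
    False := by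
  have a0 : α = 0 := by
    by_contra c
    have h1 : T.int V (l * Λ ^ n) = 0 := by
      have := congrArg (fun x => T.int V (x * Λ ^ n)) e
      simp only [sub_mul, map_sub, z1, z2, sub_self, smul_mul_assoc, map_smul, smul_eq_mul] at this
      exact (mul_eq_zero.1 this.symm).resolve_left c
    exact P270F.Tk.nz_le hl h0 n0 (by
      simpa using P270F.Tk.zr_dm hT (bf_nf hT bf)
        ⟨a, kc, le_of_ef hT zero_le_one (by rwa [one_smul])⟩ hl.mn (nf_dg hT hl) (add_comm 1 n) h1)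
  obtain ⟨x, x1, x2⟩ := k.resolve_left fun c => c a0
  exact x1 (h T hT n V M₁ M₂ s₁ s₂ Λ a cV l1 l2 t1 t2 d1 d2
    (sub_eq_zero.1 (by rw [e, a0, zero_smul])) bf kc big z1 x x2)

/-- resolve a section and contract the null components -/
theorem step (up : UP) (nzu : NZU) (mm : P270F.Mg.MM1) (hd : d ≤ 3) {κ ι : Type} [Fintype κ]
    {A : Pr (d + 1) κ ι} {m : κ → ℤ} {N : ℕ} {z : T.H A.Z} (cw : Cw A m N) (z1 : Mn T A.Z z)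
    (z2 : T.Dg A.Z d z) (neg : ∀ k, m k < 0 → Nl T A k z) (hn : ¬ Frm T A.Z z) {D : Bd A.Z.X}
    {s : D.ι → A.Z.X → ℂ} (lD : IsLB (d + 1) D) (sD : IsSec (d + 1) D s) (nz : ∃ x, NZ D s x) :
    ∃ (κ' : Type) (_ : Fintype κ') (A' : Pr (d + 1) κ' ι) (m' : κ' → ℤ) (π : A'.Z.X → A.Z.X)
      (S : Set A.Z.X) (hπ : Modif (d + 1) π S) (C : P270F.Mg.Ct A'.Z), Cw A' m' N ∧
      (∀ y ∈ off A'.G, π y ∉ S ∧ NZ D s (π y)) ∧ C.Ok (Nz T A' (T.pull hπ.hol z)) := by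
  obtain ⟨κ', _, A', m', π, S, hπ, c, k1, k2⟩ := up _ T hT κ ι A m N D s cw lD sD nz
  obtain ⟨C, hC⟩ := (mm d hd T hT κ' ι A' m' N _ c (mn_pull hT hπ.hol z1) (dg_pull hT hπ.hol z2)
    fun l hl O σ hO => nzu d T hT κ ι A m N A'.Z π S hπ _ O σ cw.ok c.ok.prj z1 z2 hO.lb hO.sec
      (dn hO) fun y hy => (k2 l hl y (not_not.1 fun k => hy fun a ha =>
        mt (hO.leq a y ha).mem.1 k)).imp_right fun ⟨j, j1, j2⟩ => ⟨j, neg j j1, j2⟩).resolve_right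
    fun k => hn (frm_down hT hπ k)
  exact ⟨κ', inferInstance, A', m', π, S, hπ, C, c, k1, hC⟩

end MachH

open MachH

theorem Dn.zz {T : CT} (hT : T.OK) {d ν : ℕ} {κ ι : Type} [Fintype κ] {A : Pr (d + 1) κ ι}
    {m : κ → ℤ} {N : ℕ} {L Λ : Bd A.Z.X} (h : Dn T A m N L Λ ν) (hν : ν ≤ d) :
    Mn T A.Z (zz T A.Z L Λ ν) ∧ T.Dg A.Z d (zz T A.Z L Λ ν) :=
  ⟨((nf_of hT h.cw.ok.prj h.lb h.nef).mn.pow ν).mul ((bf_nf hT (h.fb.bf T)).mn.pow _), by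
    simpa [hν] using dg_mul hT (dg_pow hT (hT.c1.deg A.Z L) ν) (dg_pow hT (hT.c1.deg A.Z Λ) (d - ν))⟩

theorem snf_of' (up : UP) (nzu : NZU) (mm : P270F.Mg.MM1) (h2 : ZNL) (h4 : RGN) (h6 : NEG0) :
    SNF := by
  intro d hd T hT κ ι _ A m N L Λ ν n0 n1 hD
    ⟨M₁, M₂, s₁, s₂, c, l1, l2, t1, t2, d1, d2, e, z1, z2, k⟩
  by_contra hn
  have cA : Cp A.Z := ⟨hD.cw.ok.conn, hD.cw.ok.prj⟩
  have q1 := Ps.thin_z l1 t1 d1
  have q2 := Ps.thin_z l2 t2 d2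
  obtain ⟨y1, y2⟩ := hD.zz hT n1
  have nz : ∀ x, NZ (M₁.mul M₂) (fun i y => s₁ i.1 y * s₂ i.2 y) x → NZ M₁ s₁ x ∧ NZ M₂ s₂ x :=
    fun x hx => by
    obtain ⟨a, ha⟩ := l1.cover x
    obtain ⟨b, hb⟩ := l2.cover x
    exact ⟨fun i hi => left_ne_zero_of_mul (hx (i, b) ⟨hi, hb⟩),
      fun i hi => right_ne_zero_of_mul (hx (a, i) ⟨ha, hi⟩)⟩
  obtain ⟨x₀, hx₀⟩ := have := cA.conn; (q1.union q2).dense.nonempty
  obtain ⟨κ', _, A', m', π, S, hπ, C, cw, ho, hC⟩ := step hT up nzu mm hd hD.cw y1 y2 hD.neg hn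
    (D := M₁.mul M₂) (s := fun i y => s₁ i.1 y * s₂ i.2 y) (lb_mul l1 l2)
    ⟨fun i e y he hi => (t1.holo _ e y he hi.1).mul (t2.holo _ e y he hi.2), fun i j y hi hj => by
      rw [t1.change _ _ y hi.1 hj.1, t2.change _ _ y hi.2 hj.2]
      exact mul_mul_mul_comm _ _ _ _⟩
    ⟨x₀, fun i hi => mul_ne_zero (not_not.1 (fun c => hx₀ (.inl c) : ¬ ¬ NZ M₁ s₁ x₀) _ hi.1)
      (not_not.1 (fun c => hx₀ (.inr c) : ¬ ¬ NZ M₂ s₂ x₀) _ hi.2)⟩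
  have cA' : Cp A'.Z := ⟨cw.ok.conn, cw.ok.prj⟩
  have nl := nf_of hT cA.prj hD.lb hD.nef
  have cV : Cp C.B.Z := ⟨hC.cw.ok.conn, hC.cw.ok.prj⟩
  have := cV.conn
  have := cA'.conn
  have hw := hC.md
  obtain ⟨bf, a, kc, bg⟩ := big hT cV.conn hC.fb
  have mΛ := (bf_nf hT bf).mn.pow d
  have dn : ∀ {M : Bd A.Z.X} {s : M.ι → A.Z.X → ℂ}, Thin (d + 1) {x | ¬ NZ M s x} →
      Dense {x | NZ (pull C.π (pull π M)) (fun i y => s i (π (C.π y))) x} := fun q =>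
    (hw.pre_thin (hπ.pre_thin q)).2.mono fun _ => not_not.1
  have key : ∀ {M : Bd A.Z.X} {s : M.ι → A.Z.X → ℂ}, IsLB (d + 1) M → IsSec (d + 1) M s →
      Thin (d + 1) {x | ¬ NZ M s x} → Zr T A.Z (T.c1 A.Z M * T.c1 A.Z L ^ ν) →
      (∀ y ∈ off A'.G, NZ M s (π y)) →
      T.int C.B.Z (T.c1 C.B.Z (pull C.π (pull π M)) * T.c1 C.B.Z C.Λ ^ d) = 0 :=
    fun {M s} a1 a2 a3 a4 a5 => by
    obtain ⟨r, r1, -⟩ := Ps.fub1 hT cA.conn (kah hT cA.prj) hπ.hol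
    have b1 := h2 _ T hT κ' ι A' m' N (pull π M) (fun i y => s i (π y)) _ cw (hπ.hol.lb a1)
      (hπ.hol.sec a2) a5 (mn_pull hT hπ.hol y1) (by
        rw [hT.c1.pull hπ.hol M a1, ← map_mul, r1, ← mul_assoc,
          a4 _ ((bf_nf hT (hD.fb.bf T)).mn.pow _), mul_zero])
    have b2 := nzu d T hT C.κ' C.ι' C.B C.m C.N C.B.Z _ _ modif_id _ (pull C.π (pull π M))
      (fun i y => s i (π (C.π y))) hC.cw.ok cV.prj mΛ (dg_pow hT (hT.c1.deg _ _) d)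
      (hw.hol.lb (hπ.hol.lb a1)) (hw.hol.sec (hπ.hol.sec a2)) (dn a3) fun y hy => .inr (by
        obtain ⟨j, j1, j2⟩ := (hC.sp y).1 (b1 _ hy)
        refine ⟨j, ?_, j2⟩
        simpa using h4 d T hT C.κ' C.ι' C.B C.m C.N _ C.Λ C.Q j d 0 hC.cw.ok hC.fb hC.lbQ hC.nfQ
          hC.rig (by omega) rfl)
    rwa [hT.rg.pull_id] at b2
  refine fin1 hT (α := c) h6 cV (nf_pull hT hw.hol (nf_pull hT hπ.hol nl)) n0
    (fun q => hD.nu.1 (zr_down hT hπ cA (zr_down hT hw cA' (by rwa [map_pow, map_pow])))) bf kc bg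
    (hw.hol.lb (hπ.hol.lb l1)) (hw.hol.lb (hπ.hol.lb l2)) (hw.hol.sec (hπ.hol.sec t1))
    (hw.hol.sec (hπ.hol.sec t2)) (dn q1) (dn q2) ?_
    (key l1 t1 q1 z1 fun y hy => (nz _ (ho y hy).2).1)
    (key l2 t2 q2 z2 fun y hy => (nz _ (ho y hy).2).2)
    (k.imp (fun q => (Nat.cast_pos.2 q).ne') fun ⟨x, hx⟩ => ?_)
  · rw [hT.c1.pull hw.hol _ (hπ.hol.lb l1), hT.c1.pull hw.hol _ (hπ.hol.lb l2), ← map_sub,
      hT.c1.pull hπ.hol _ l1, hT.c1.pull hπ.hol _ l2, ← map_sub, e, map_smul, map_smul]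
  · obtain ⟨y, rfl⟩ := hπ.surj x
    obtain ⟨y, rfl⟩ := hw.surj y
    exact ⟨y, hx⟩

/-- **MACH** -/
theorem mach_of (up : UP) (fbu : FBU) (nzu : NZU) (znl : ZNL) (rgn : RGN) (nuu : NUU) (ng : NEG0)
    (md : MDSN) (mm1 : P270F.Mg.MM1) (mm2 : P270F.Tg.MM2N) (en : P270F.ENDN) : MACH := by
  intro d hd T hT κ ι _ A m N hF L Λ ν n0 n1 h
  have cA : Cp A.Z := ⟨h.cw.ok.conn, h.cw.ok.prj⟩
  have := cA.conn
  have nl := nf_of hT cA.prj h.lb h.nef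
  have nΛ := bf_nf hT (h.fb.bf T)
  obtain ⟨y1, y2⟩ := h.zz hT n1
  by_contra hm
  refine hm (snf_of' up nzu mm1 znl rgn ng d hd T hT κ ι A m N L Λ ν n0 n1 h
    (md T hT _ A.Z _ ν cA (by omega) nl fun D s hD hs hs' => by_contra fun hn => ?_))
  have c0 : Cv T A.Z (T.c1 A.Z L) ν {x | ¬ NZ D s x} := by
    rintro u U p hp a _ ⟨x, rfl⟩ k
    exact hn ⟨u, U, p, hp, a, x, k⟩
  obtain ⟨κ₁, _, A₁, m₁, π₁, S₁, hπ₁, C, cw, ho, hC⟩ :=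
    step hT up nzu mm1 hd h.cw y1 y2 h.neg hm hD hs hs'.nonempty
  have c1 := cv_up hT hπ₁ subset_union_right fun u U p hp a =>
    (c0 u U p hp a).trans subset_union_left
  have c2 : Cv T A₁.Z (T.pull hπ₁.hol (T.c1 A.Z L)) ν
      (Nz T A₁ (T.pull hπ₁.hol (zz T A.Z L Λ ν))) := fun u U p hp a => by
    obtain rfl : d = u := Nat.succ_injective a.dim
    rw [map_mul, map_pow]
    exact nh_one hT cw.ok cw.conn a ((c1 _ U p hp a).trans fun y a b =>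
      a.elim (fun a => a (ho y b).2) (ho y b).1) (mn_pull hT hπ₁.hol (nΛ.mn.pow _))
  have hM := hπ₁.comp rem hC.md
  have eq : ∀ x, T.pull hM.hol x = T.pull hC.md.hol (T.pull hπ₁.hol x) :=
    hT.rg.pull_comp hC.md.hol hπ₁.hol _ fun _ => rfl
  have l₀ := hM.hol.lb h.lb
  have f₀ := P285S.Tp.nf_comp hM.hol cA.prj h.lb h.nef
  have e₀ := hT.c1.pull hM.hol _ h.lb
  have c3 := cv_up hT hC.md subset_rfl c2
  rw [← eq] at c3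
  obtain ⟨C', hC', δ, D', s', d0, d1, d2, d3, d4, nc⟩ := mm2 (d + 1) (by omega) T hT _ _ C.B C.m C.N
    _ C.Λ C.Q C.Φ hC.cw l₀ f₀ hC.neg hC.fb hC.lbQ hC.rig
  have cC : Cp C'.B.Z := ⟨hC'.cw.ok.conn, hC'.cw.ok.prj⟩
  have := cC.conn
  have hM' := hM.comp rem hC'.md
  have eq' : ∀ x, T.pull hM'.hol x = T.pull hC'.md.hol (T.pull hM.hol x) :=
    hT.rg.pull_comp hC'.md.hol hM.hol _ fun _ => rfl
  have n' := nf_pull hT hM'.hol nl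
  have nq := nf_of hT cC.prj hC'.lbQ hC'.nfQ
  have d5 : Dense {y | NZ D' s' y} := (snc_dense_off hC'.cw.ok.snc).mono
    fun y (a : y ∈ off C'.B.G) => d3 y fun ⟨l, _, b⟩ => a l b
  have ef : Ef T _ (T.c1 _ D') := ⟨D', s', d1, d2, d5, rfl⟩
  have z₀ : Sp C.B C.Φ ⊆ Nz T C.B (T.pull hM.hol (zz T A.Z L Λ ν)) := fun y ⟨j, j0, hj⟩ =>
    ⟨j, fun O σ hO => by
      rw [eq]
      exact nzu d T hT κ₁ ι A₁ m₁ N _ C.π _ hC.md _ O σ cw.ok hC.cw.ok.prj (mn_pull hT hπ₁.hol y1)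
        (dg_pull hT hπ₁.hol y2) hO.lb hO.sec (dn hO) fun y a => .inr ((hC.sp y).2
          ⟨j, j0, by_contra fun b => a fun c hc e => b ((hO.leq c y hc).mem.1 e)⟩), hj⟩
  have z' := nzu d T hT _ _ C.B C.m C.N _ C'.π _ hC'.md _ D' s' hC.cw.ok cC.prj
    (mn_pull hT hM.hol y1) (dg_pull hT hM.hol y2) d1 d2 d5 fun y a =>
      .inr (z₀ ((hC'.sp y).2 (by_contra fun b => a (d3 y b))))
  have c4 := cv_up hT hC'.md subset_rfl fun u U p hp a y b => (hC.sp y).1 (c3 u U p hp a b)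
  rw [← eq', map_mul (T.pull hM'.hol), map_pow, map_pow] at z'
  rw [← eq'] at c4
  rw [e₀, ← eq'] at d4
  refine en d hd T hT _ _ C'.B C'.m C'.N hF C'.Q C'.Λ C'.Φ ν hC'.cw hC'.lbQ hC'.nfQ ?_ n0 n1 hC'.neg
    hC'.fb hC'.rig ?_ nc
  · have hq : P270F.Tk.Nq T _ (T.c1 _ C'.Q) := ⟨nq, _, hC'.lbQ, rfl⟩
    rw [d4] at hq ⊢
    exact P270F.Tk.nuq hT cC (P270F.Tk.Nq.pull hT ⟨nl, L, h.lb, rfl⟩ hM'.hol)
      (nf_pull hT hM'.hol nΛ) (dm_up hT fbu hM' cC h.fb)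
      (nuu.nu T hT _ ν _ _ _ _ hM' _ cA cC.prj nl h.nu) (by omega) d0 ef z' hq
  · rw [d4] at nq ⊢
    rintro u U p hp a _ ⟨x, rfl⟩
    by_contra b
    exact b ((hC'.sp _).1 (c4 u U p hp (nh_two hT n' d0 d1 d2 nq a (d3 _ b)) ⟨x, rfl⟩))

end Vale.Agent.P270G
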