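import Vale.Agent.P270G.Sk
import Vale.Agent.P285N.Fin
import Vale.Agent.P285S.Tp.Thr
import Vale.Agent.P285S.Tp.Nvk
import Vale.Agent.P285W.J.Top

/-!
# P270G: the final statements from the rows
-/

open scoped Manifold ContDiff Topology
open Set Filter
open Vale.Agent.P272.K Vale.Agent.P285.H281.FD Vale.Agent.P281Z Vale.Agent.P280Z
open Vale.Agent.P285Z (St.NonZero St.logCan St.Divisor)
open Vale.Agent.P285N Vale.Agent.P285W.J Vale.Agent.P285W.Bs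
open Vale.Agent.P285N.Tp (Rd Eff Rows O1G A02 Wf Nu1)
open Vale.Agent.P285N.St (SubPair Iso Psef)
open Vale.Agent.P285S.B2 (Zr)

namespace Vale.Agent.P270G

variable {n : ℕ} {V : Mf n}

theorem psef_eff [ConnectedSpace V.X] {C : Bd V.X} (hC : IsLB n C) (h : Eff n C) : Psef n C := by
  intro H h1 h2 k
  obtain ⟨a, ha, s, s1, b, x, hb, s2⟩ := h
  have l1 := lb_pow hC a
  obtain ⟨j, r, u, hj, hu⟩ := Ld.va V _ h1 h2
  obtain ⟨v, v1, v2⟩ := hu.gen x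
  have l2 := lb_mul (lb_pow hC k) h1
  obtain ⟨D, t, d1, d2, d3, y, d4⟩ := P285S.Tp.ef_add (P285S.Tp.ef_smul (Y := V)
    ⟨_, s, l1, cls_pow hC a, s1, x, (nz_iff l1 (fun a b => s1.change a b x) hb).2 s2⟩ (j * k))
    (P285S.Tp.ef_smul (Y := V) ⟨_, v, hu.lb, cls_pow h1 j, v1, x, v2⟩ a)
  obtain ⟨c, hc⟩ := d1.cover y
  refine ⟨j * a, Nat.mul_pos hj ha, P285S.Tp.sec_cls (lb_pow l2 _) d1 ?_ d3 ⟨c, y, hc, d4 c hc⟩⟩
  rw [d2, cls_pow l2, cls_mul (lb_pow hC k) h1, cls_pow hC, smul_add, smul_smul, smul_smul,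
    smul_smul, mul_right_comm, mul_comm a j]

/-- the rows of the threefold case -/
structure R3 (T : CT) : Prop where
  rows : Rows T
  o1 : O1G T
  core : CORE
  d30 : D30
  kd2 : KD2
  kd3 : KD3
  gdf : GDF
  sae : SAE
  nsd : NSD

namespace R3

variable {T : CT} (H : R3 T) {V : Mf 3} {Q : Rd V} {D : Bd V.X} {t : D.ι → V.X → ℂ} {q : ℕ}
  {C M : Bd V.X} {w : Wf V}
include H

theorem main (h : Gq Q D t q C M) : NumSemiample 3 Q.L := by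
  have R := H.rows
  have hT := R.ok
  have hQ := h.ok
  have := hQ.conn
  have hL := hQ.bir.res.lbL
  have cV : Cp V := ⟨hQ.conn, hQ.prj⟩
  obtain ⟨w, hw⟩ := hQ.prj.kah
  have nL : Tp.Nf V Q.L :=
    (R.nefp 3 3 V V (fun x => x) _ contMDiff_id hL).1 w hw (R.nef hQ hw)
  by_cases h2 : Zr T V (T.c1 V Q.L ^ 2)
  · obtain ⟨A, lA, pA⟩ := hQ.prj
    have kA := hT.c1.pos V A lA pA
    have h1 : Nu1 T V Q.L := ⟨_, kA, fun j _ =>
      h2 _ ((kc_nf hT kA).mn.pow j)⟩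
    rcases R.hod T hT 3 V C M Q.L hQ.conn hQ.prj h.sub.lb h.lb hL h.iso (psef_eff h.sub.lb h.eff)
      h.nef nL h1 with k | ⟨a, b, hb, k⟩
    · exact Tp.numSemi_flat hL ((R.flc V _ hQ.prj.kah hL).1 k)
    · have h3 : Q.Mu C a b := ⟨hQ, h.sub.lb, hb, (R.prp V _ _ a b hQ.prj.kah h.sub.lb hL hb).2 k⟩
      exact Tp.numSemi_of hT R.flc R.prp R.nef2 R.pert R.n1 h3 h.sub h1
        (H.o1 3 V Q D t q _ a b h3 h.sub h1)
  have kd : Kd T V (T.c1 V Q.L + T.c1 V M) := by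
    by_cases h3 : Zr T V (T.c1 V Q.L ^ 3)
    · refine H.kd2 T hT V Q D t q C M h ⟨h2, h3⟩ fun k => ?_
      obtain ⟨κ, ι, _, A, m, N, L, k'⟩ := H.d30 T hT V Q D t q C M h ⟨h2, h3⟩ k
      exact H.core T hT κ ι A m N L k'
    · exact H.kd3 T hT 3 V _ M cV hL h.lb nL h.nef h3
  obtain ⟨κ, ι, _, A, m, N, π, S, hπ, a, g1, g2, g3, g4⟩ := H.gdf 3 T hT V Q D t q C M h kd
  exact H.nsd T hT R.flc 3 V A.Z π S hπ _ A.P a cV g1.ok.prj hL g1.ok.lb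
    (H.sae 3 κ ι A m N g1 ⟨le_rfl, g2⟩) g3 g4

theorem gab1 (hQ : Q.Ok) (hw : IsKahler w) (h : SubPair 3 Q.E Q.s D t q C) (hC : Eff 3 C)
    (hM : IsLB 3 M) (hn : Nef w M) (hi : Iso 3 Q.L (C.mul M)) : NumSemiample 3 Q.L :=
  H.main ⟨hQ, h, hC, hM, (H.rows.nefp 3 3 V V (fun x => x) _ contMDiff_id hM).1 w hw hn, hi⟩

theorem gab1' (a0 : A02) (hQ : Q.Ok) (hw : IsKahler w) (h : SubPair 3 Q.E Q.s D t q C)
    (hC : Eff 3 C ∨ Flat 3 C) (hM : IsLB 3 M) (hn : Nef w M) (hi : Iso 3 Q.L (C.mul M)) :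
    NumSemiample 3 Q.L := by
  refine H.gab1 hQ hw h (hC.elim id fun k => ?_) hM hn hi
  have hk := hQ.prj.kah
  refine a0 3 V Q D t q C 0 1 ⟨hQ, h.lb, one_pos, (H.rows.prp V _ _ 0 1 hk h.lb hQ.bir.res.lbL
    one_pos).2 (by rw [(H.rows.flc V _ hk h.lb).2 k, smul_zero, Nat.cast_zero, zero_smul])⟩ h ?_
  obtain ⟨a, ha, F, f1, f2, f3⟩ := Tp.numSemi_flat h.lb k
  have := hQ.conn
  obtain ⟨x⟩ : Nonempty V.X := inferInstance
  obtain ⟨s, s1, s2⟩ := f3 x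
  obtain ⟨c, hc⟩ := (lb_mul (lb_pow h.lb a) f1).cover x
  exact ⟨a, ha, F, f1, f2, s, s1, c, x, hc, s2 c hc⟩

theorem gab0 (a0 : A02) (hc : ConnectedSpace V.X) (hP : V.Prj) (hw : IsKahler w)
    (hD : St.Divisor 3 D t) (hq : 1 ≤ q) (hk : Klt 3 q D t)
    (hC : Eff 3 (St.logCan 3 q D) ∨ Flat 3 (St.logCan 3 q D)) (hM : IsLB 3 M) (hm : Nef w M)
    (hn : Nef w ((St.logCan 3 q D).mul M)) : NumSemiample 3 ((St.logCan 3 q D).mul M) := by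
  have hL := lb_mul (lb_mul (lb_pow (P277Z.Slc.isLB_can (n := 3)) q) hD.lb) hM
  obtain ⟨⟨A, N, S, hQ⟩, h⟩ := H.rows.smo 3 V w _ hc hP hw hL hn
  exact H.gab1' a0 hQ hw (h D t q hD hq hk) hC hM hm (Tp.iso_refl hL)

end R3

end Vale.Agent.P270G
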