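import Vale.Agent.P270G.Defs4

/-!
# P270G: the assembly in higher dimension
-/

open Set
open Vale.Agent.P272.K Vale.Agent.P285.H281.FD Vale.Agent.P281Z Vale.Agent.P280Z
open Vale.Agent.P285N Vale.Agent.P285W.J Vale.Agent.P285W.Bs
open Vale.Agent.P285N.Tp (Rd Eff Rows O1G Nu1)
open Vale.Agent.P285S.B2 (Zr Nu)

namespace Vale.Agent.P270G

variable {T : CT} {n : ℕ} {V : Mf n} {Q : Rd V} {D : Bd V.X} {t : D.ι → V.X → ℂ} {q : ℕ}
  {C M : Bd V.X}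

theorem Gq.nf (R : Rows T) (h : Gq Q D t q C M) : Tp.Nf V Q.L :=
  let ⟨w, hw⟩ := h.ok.prj.kah
  (R.nefp n n V V (fun x => x) _ contMDiff_id h.ok.bir.res.lbL).1 w hw (R.nef h.ok hw)

theorem Gq.one (R : Rows T) (o : O1G T) (h : Gq Q D t q C M) (h2 : Zr T V (T.c1 V Q.L ^ 2)) :
    NumSemiample n Q.L := by
  have hT := R.ok
  have hQ := h.ok
  have := hQ.conn
  have hL := hQ.bir.res.lbL
  obtain ⟨A, lA, pA⟩ := hQ.prj
  have kA := hT.c1.pos V A lA pA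
  have h1 : Nu1 T V Q.L := ⟨_, kA, fun j _ => h2 _ ((kc_nf hT kA).mn.pow j)⟩
  rcases R.hod T hT n V C M Q.L hQ.conn hQ.prj h.sub.lb h.lb hL h.iso (psef_eff h.sub.lb h.eff)
    h.nef (h.nf R) h1 with k | ⟨a, b, hb, k⟩
  · exact Tp.numSemi_flat hL ((R.flc V _ hQ.prj.kah hL).1 k)
  · have h3 : Q.Mu C a b := ⟨hQ, h.sub.lb, hb, (R.prp V _ _ a b hQ.prj.kah h.sub.lb hL hb).2 k⟩
    exact Tp.numSemi_of hT R.flc R.prp R.nef2 R.pert R.n1 h3 h.sub h1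
      (o n V Q D t q _ a b h3 h.sub h1)

theorem ga_of {d : ℕ} (R : Rows T) (o : O1G T) (co : CORN d) (rk : RFK) (ru : RFU) (dn : DN0)
    (k3 : KD3) (gd : GDF) (sa : P285S.SA fun e _ L => e ≤ d + 1 ∧ Eff e L) (ns : NSD) :
    GA (d + 1) := by
  intro V Q D t q C M h
  have hT := R.ok
  have hL := h.ok.bir.res.lbL
  have cV : Cp V := ⟨h.ok.conn, h.ok.prj⟩
  by_cases h2 : Zr T V (T.c1 V Q.L ^ 2)
  · exact h.one R o h2
  have kd : Kd T V (T.c1 V Q.L + T.c1 V M) := by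
    by_cases h3 : Zr T V (T.c1 V Q.L ^ (d + 1))
    swap
    · exact k3 T hT _ V _ M cV hL h.lb (h.nf R) h.nef h3
    classical
    have d2 : 2 ≤ d + 1 := by
      by_contra c
      obtain rfl : d = 0 := by omega
      exact h2 fun y hy => by
        rw [sq, mul_assoc, ← pow_one (T.c1 V Q.L)]
        exact h3 _ (((nf_of hT cV.prj hL (h.nf R)).mn.pow 1).mul hy)
    have ex : ∃ j, Zr T V (T.c1 V Q.L ^ (j + 2 + 1)) ∨ d + 1 ≤ j + 2 := ⟨d, .inr (by omega)⟩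
    have key : ∀ j ≤ Nat.find ex, ¬ Zr T V (T.c1 V Q.L ^ (j + 2)) ∧ j + 2 ≤ d + 1 := fun j hj => by
      induction j with
      | zero => exact ⟨h2, d2⟩
      | succ j ih =>
        have := not_or.1 (Nat.find_min ex (Nat.lt_of_succ_le hj))
        exact ⟨this.1, by omega⟩
    obtain ⟨a1, a2⟩ := key _ le_rfl
    have a3 : Nat.find ex + 2 ≤ d := by
      by_contra c
      exact a1 ((show d + 1 = Nat.find ex + 2 by omega) ▸ h3)
    have nu : Nu T V (T.c1 V Q.L) (Nat.find ex + 2) :=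
      ⟨a1, (Nat.find_spec ex).resolve_right (by omega)⟩
    refine (rk _ T hT V Q D t q C M h _ (by omega) (by omega) nu).elim id ?_
    rintro ⟨V', e, B, he, α, S, pV, rf⟩
    obtain ⟨κ, ι, _, A, m, N, π, S', Λ, hπ, k⟩ := dn d T hT V Q D t q C M h _ V' e B a3 nu he pV
    have := cV.conn
    refine (co T hT κ ι A m N R.flc _ Λ _ (T.pull hπ.hol α) (π ⁻¹' S) (by omega) a3 k ?_).elim
    rw [hT.c1.pull hπ.hol _ (he.hol.lb hL), hT.c1.pull he.hol _ hL]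
    exact ru T hT _ _ V' A.Z π S' hπ _ α S ⟨he.conn, pV⟩ k.cw.ok.prj rf
  obtain ⟨κ, ι, _, A, m, N, π, S, hπ, a, g1, g2, g3, g4⟩ := gd _ T hT V Q D t q C M h kd
  exact ns T hT R.flc _ V A.Z π S hπ _ A.P a cV g1.ok.prj hL g1.ok.lb
    (sa _ κ ι A m N g1 ⟨le_rfl, g2⟩) g3 g4

end Vale.Agent.P270G
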